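import Crest.Agent.R215.Table

/-! Verified branch and bound: interval rules in natural-number arithmetic (unit `10⁻⁶`). -/

set_option autoImplicit false
open Real

namespace Crest.Agent.R215

def mn (a b : ℕ) : ℕ := cond (Nat.ble a b) a b
def mx (a b : ℕ) : ℕ := cond (Nat.ble a b) b a

lemma mn_eq (a b : ℕ) : mn a b = min a b := by
  unfold mn
  by_cases h : a ≤ b
  · rw [Nat.ble_eq_true_of_le h, cond_true, min_eq_left h]
  · have : Nat.ble a b = false := by
      rw [← Bool.not_eq_true, Nat.ble_eq]; exact h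
    rw [this, cond_false, min_eq_right (le_of_not_ge h)]

lemma mx_eq (a b : ℕ) : mx a b = max a b := by
  unfold mx
  by_cases h : a ≤ b
  · rw [Nat.ble_eq_true_of_le h, cond_true, max_eq_right h]
  · have : Nat.ble a b = false := by
      rw [← Bool.not_eq_true, Nat.ble_eq]; exact h
    rw [this, cond_false, max_eq_left (le_of_not_ge h)]

lemma cast_tsub_le {a b : ℕ} {r : ℝ} (h1 : (a : ℝ) - b ≤ r) (h0 : 0 ≤ r) :
    ((a - b : ℕ) : ℝ) ≤ r := by
  rcases le_total a b with h | h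
  · rw [Nat.sub_eq_zero_of_le h]; simpa using h0
  · rw [Nat.cast_sub h]; exact h1

lemma le_cast_tsub (a b : ℕ) : (a : ℝ) - b ≤ ((a - b : ℕ) : ℝ) := by
  rcases le_total a b with h | h
  · rw [Nat.sub_eq_zero_of_le h]
    have : (a : ℝ) ≤ b := by exact_mod_cast h
    simpa using this
  · rw [Nat.cast_sub h]

structure Good (s p : ℝ) : Prop where
  nonneg : 0 ≤ s
  hasY : HasY p (lam0 ^ 2 * (1 - √(1 - s)))
  level : Level s p

noncomputable def c0 : ℝ := √(lam0 ^ 2 / 2)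

lemma c0_sq : c0 ^ 2 = 9 / (16 * π) := by
  rw [c0, Real.sq_sqrt (by positivity), lam0_sq]; field_simp; norm_num

lemma lam0_sq_ge : (358098 / 1000000 : ℝ) ≤ lam0 ^ 2 := by
  rw [lam0_sq, le_div_iff₀ (by positivity)]; nlinarith [Real.pi_lt_d6]

lemma c0_ge : (423142 / 1000000 : ℝ) ≤ c0 := by
  apply Real.le_sqrt_of_sq_le
  rw [lam0_sq, le_div_iff₀ (by positivity), le_div_iff₀ (by positivity)]
  nlinarith [Real.pi_lt_d20]

lemma c0_le : c0 ≤ (423143 / 1000000 : ℝ) := by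
  rw [c0, Real.sqrt_le_left (by norm_num), lam0_sq, div_le_iff₀ (by positivity),
    div_le_iff₀ (by positivity)]
  nlinarith [Real.pi_gt_d20]

lemma HasY.pos {p Y : ℝ} (h : HasY p Y) : 0 < p := by
  obtain ⟨a, ha, _⟩ := h
  rw [← ha]; exact Phi_pos a

lemma HasY.mono {p Y Y' : ℝ} (h : HasY p Y) (hY : Y' ≤ Y) : HasY p Y' := by
  obtain ⟨a, ha, h2⟩ := h
  exact ⟨a, ha, hY.trans h2⟩

lemma sqrt_le_amgm {u c : ℝ} (hu : 0 ≤ u) (hc : 0 < c) : √u ≤ (u + c ^ 2) / (2 * c) := by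
  rw [le_div_iff₀ (by positivity)]
  nlinarith [Real.sq_sqrt hu, sq_nonneg (√u - c)]

lemma Good.c0_le {s p : ℝ} (h : Good s p) : c0 * √s ≤ p := by
  obtain ⟨a, ha, h2⟩ := h.hasY
  have h3 := psi_le_sq a
  have h4 : √(1 - s) ≤ 1 - s / 2 := by
    have := sqrt_le_amgm (u := 1 - s) (c := 1) (by linarith [h.level.le_four_ninths]) one_pos
    linarith
  have h5 : lam0 ^ 2 / 2 * s ≤ p ^ 2 := by
    rw [← ha]; nlinarith [sq_nonneg lam0]
  rw [c0, ← Real.sqrt_mul (by positivity), Real.sqrt_le_left h.hasY.pos.le]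
  exact h5

lemma Good.mu {s p : ℝ} (h : Good s p) : 3 * s ≤ 5 * p := by
  have h1 := h.c0_le
  have h3 : √s ≤ 2 / 3 := by
    rw [Real.sqrt_le_left (by norm_num)]; linarith [h.level.le_four_ninths]
  have h4 := Real.sq_sqrt h.nonneg
  have h5 := Real.sqrt_nonneg s
  nlinarith [c0_ge]

def minL (Y : ℕ) : ℕ := lines.foldr (fun l acc => mn (l.1 + l.2 * Y) acc) 5000000000

lemma foldr_mn_le (L : List (ℕ × ℕ)) (Y init : ℕ) :
    ∀ l ∈ L, L.foldr (fun l acc => mn (l.1 + l.2 * Y) acc) init ≤ l.1 + l.2 * Y := by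
  induction L with
  | nil => simp
  | cons a L ih =>
    intro l hl
    rw [List.foldr_cons, mn_eq]
    rcases List.mem_cons.1 hl with rfl | hl
    · exact min_le_left _ _
    · exact (min_le_right _ _).trans (ih l hl)

lemma minL_le {l : ℕ × ℕ} (hl : l ∈ lines) (Y : ℕ) : (minL Y : ℝ) ≤ l.1 + l.2 * Y := by
  exact_mod_cast foldr_mn_le lines Y _ l hl

def comb (lo hi Yl Yh : ℕ) : ℕ := mn (5 * minL Yl - 30000 * lo) (5 * minL Yh - 30000 * hi)

lemma comb_sound {s p Y : ℝ} {lo hi Yl Yh : ℕ} (u v : ℝ) (hY : HasY p Y)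
    (hl : u + v * (1000000 * s) ≤ 1000000 * Y) (h1 : (lo : ℝ) ≤ 1000000 * s)
    (h2 : 1000000 * s ≤ hi) (hYl : (Yl : ℝ) ≤ u + v * lo) (hYh : (Yh : ℝ) ≤ u + v * hi)
    (hE : 3 * s ≤ 5 * p) :
    (comb lo hi Yl Yh : ℝ) ≤ 50000000000 * p - 30000 * (1000000 * s) := by
  obtain ⟨l, hl1, hl2⟩ := hY.exists_line
  have hB : (0 : ℝ) ≤ l.2 := Nat.cast_nonneg _
  have a1 := minL_le hl1 Yl
  have a2 := minL_le hl1 Yh
  have a3 := mul_le_mul_of_nonneg_left hl hB
  have a4 := mul_le_mul_of_nonneg_left hYl hB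
  have a5 := mul_le_mul_of_nonneg_left hYh hB
  rw [comb, mn_eq, Nat.cast_min]
  rcases le_total 0 (5 * (l.2 : ℝ) * v - 30000) with h | h
  · refine (min_le_left _ _).trans (cast_tsub_le ?_ (by linarith))
    push_cast
    nlinarith [mul_le_mul_of_nonneg_left h1 h]
  · refine (min_le_right _ _).trans (cast_tsub_le ?_ (by linarith))
    push_cast
    nlinarith [mul_le_mul_of_nonpos_left h2 h]

def isq1 (u c : ℕ) : ℕ := (c + u * 1000000 / c) / 2
def isq (u : ℕ) : ℕ := isq1 u (isq1 u (isq1 u (isq1 u 1000000)))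
def isq12 (u : ℕ) : ℕ :=
  isq1 u (isq1 u (isq1 u (isq1 u (isq1 u (isq1 u (isq1 u (isq1 u (isq u))))))))

def Ysm (s c : ℕ) : ℕ :=
  358098 * (2 * c * 1000000 + s * 1000000 - (1000000000000 + c * c)) / (2000000 * c)

lemma Ysm_le_lin {s c : ℕ} (hc : 0 < c) (h : 1000000000000 + c * c ≤ 2 * c * 1000000 + s * 1000000) :
    (Ysm s c : ℝ) ≤ 358098 * (2 * c * 1000000 - (1000000000000 + c * c)) / (2000000 * c)
      + 358098 / (2 * c) * s := by
  have hc' : (0 : ℝ) < c := by exact_mod_cast hc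
  refine Nat.cast_div_le.trans (le_of_eq ?_)
  push_cast [Nat.cast_sub h]
  field_simp
  ring

lemma lin_le_Y {s : ℝ} {c : ℕ} (hc : 0 < c) (hs0 : 0 ≤ s) (hs : s ≤ 1) :
    358098 * (2 * c * 1000000 - (1000000000000 + c * c)) / (2000000 * c)
      + 358098 / (2 * c) * (1000000 * s) ≤ 1000000 * (lam0 ^ 2 * (1 - √(1 - s))) := by
  have hc' : (0 : ℝ) < c := by exact_mod_cast hc
  have h1 := sqrt_le_amgm (u := 1 - s) (c := c / 1000000) (by linarith) (by positivity)
  have h2 : √(1 - s) ≤ 1 := Real.sqrt_le_one.2 (by linarith)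
  have h3 : (358098 : ℝ) * (2 * c * 1000000 - (1000000000000 + c * c)) / (2000000 * c)
      + 358098 / (2 * c) * (1000000 * s)
      = 358098 * (1 - (1 - s + (c / 1000000) ^ 2) / (2 * (c / 1000000))) := by
    field_simp; ring
  rw [h3]
  nlinarith [lam0_sq_ge]

def Eq5 (lo : ℕ) : ℕ :=
  qlines.foldr (fun l acc => cond (Nat.ble l.1 lo) (mx (l.2.2 * lo - l.2.1) acc) acc) 0

lemma Eq5_sound {s p : ℝ} {lo : ℕ} (h : Level s p) (h1 : (lo : ℝ) ≤ 1000000 * s)
    (hE : 3 * s ≤ 5 * p) : (Eq5 lo : ℝ) ≤ 50000000000 * p - 30000 * (1000000 * s) := by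
  have key : ∀ L : List (ℕ × ℕ × ℕ), (∀ l ∈ L, l ∈ qlines) →
      ((L.foldr (fun l acc => cond (Nat.ble l.1 lo) (mx (l.2.2 * lo - l.2.1) acc) acc) 0 : ℕ) : ℝ)
        ≤ 50000000000 * p - 30000 * (1000000 * s) := by
    intro L
    induction L with
    | nil => intro _; simp; linarith
    | cons a L ih =>
      intro hL
      have ih' := ih fun l hl => hL l (List.mem_cons_of_mem _ hl)
      rw [List.foldr_cons]
      cases hb : Nat.ble a.1 lo
      · simpa using ih'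
      · rw [cond_true, mx_eq, Nat.cast_max]
        refine max_le (cast_tsub_le ?_ (by linarith)) ih'
        have h2 : (a.1 : ℝ) ≤ lo := by exact_mod_cast Nat.le_of_ble_eq_true hb
        have := h.qlines_spec a (hL a List.mem_cons_self) (h2.trans h1)
        push_cast
        nlinarith [mul_le_mul_of_nonneg_left h1 (Nat.cast_nonneg a.2.2 : (0 : ℝ) ≤ a.2.2)]
  exact key qlines fun _ h => h

def Esm' (lo hi c : ℕ) : ℕ :=
  cond (Nat.blt 0 c && Nat.ble (1000000000000 + c * c) (2 * c * 1000000 + lo * 1000000))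
    (comb lo hi (Ysm lo c) (Ysm hi c)) 0

def Esm (lo hi : ℕ) : ℕ := mx (Esm' lo hi (isq (1000000 - (lo + hi) / 2))) (Eq5 lo)

lemma Esm_sound {s p : ℝ} {lo hi : ℕ} (h : Good s p) (h1 : (lo : ℝ) ≤ 1000000 * s)
    (h2 : 1000000 * s ≤ hi) : (Esm lo hi : ℝ) ≤ 50000000000 * p - 30000 * (1000000 * s) := by
  have hE := h.mu
  rw [Esm, mx_eq, Nat.cast_max]
  refine max_le ?_ (Eq5_sound h.level h1 hE)
  generalize isq (1000000 - (lo + hi) / 2) = c
  unfold Esm'
  cases hb : (Nat.blt 0 c && Nat.ble (1000000000000 + c * c) (2 * c * 1000000 + lo * 1000000))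
  · simp; linarith
  · rw [cond_true]
    rw [Bool.and_eq_true, Nat.blt_eq, Nat.ble_eq] at hb
    have hlh : lo ≤ hi := by exact_mod_cast h1.trans h2
    exact comb_sound _ _ h.hasY
      (lin_le_Y hb.1 h.nonneg (by linarith [h.level.le_four_ninths])) h1 h2
      (Ysm_le_lin hb.1 hb.2) (Ysm_le_lin hb.1 (hb.2.trans (by omega))) hE

def Plow' (lo c : ℕ) : ℕ := cond (Nat.blt 0 c) (minL (Ysm lo c)) 0
def Plow (lo : ℕ) : ℕ := Plow' lo (isq (1000000 - lo))

lemma Plow_sound {s p : ℝ} {lo : ℕ} (h : Good s p) (h1 : (lo : ℝ) ≤ 1000000 * s) :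
    (Plow lo : ℝ) ≤ 10000000000 * p := by
  have hp := h.hasY.pos
  unfold Plow
  generalize isq (1000000 - lo) = c
  unfold Plow'
  cases hb : Nat.blt 0 c
  · simp; linarith
  · rw [cond_true]
    rw [Nat.blt_eq] at hb
    have hc' : (0 : ℝ) < c := by exact_mod_cast hb
    have hs1 : s ≤ 1 := by linarith [h.level.le_four_ninths]
    have hY : (Ysm lo c : ℝ) ≤ 1000000 * (lam0 ^ 2 * (1 - √(1 - s))) := by
      rcases le_total (1000000000000 + c * c) (2 * c * 1000000 + lo * 1000000) with h3 | h3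
      · refine (Ysm_le_lin hb h3).trans (le_trans ?_ (lin_le_Y hb h.nonneg hs1))
        gcongr
      · rw [Ysm, Nat.sub_eq_zero_of_le h3]
        have h2 : √(1 - s) ≤ 1 := Real.sqrt_le_one.2 (by linarith [h.nonneg])
        simp only [mul_zero, Nat.zero_div, Nat.cast_zero]
        have : 0 ≤ 1 - √(1 - s) := by linarith
        positivity
    obtain ⟨l, hl1, hl2⟩ := h.hasY.exists_line
    refine (minL_le hl1 _).trans (le_trans ?_ hl2)
    gcongr

def F4 (X U T : ℕ) : ℕ :=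
  4000000 * X + 2000000 * U - (4 * X * X + 2 * X * U + 2 * X * T + 1000000000000 + U * U)

def Tlo (X U0 U1 T : ℕ) : ℕ := mn (F4 X U0 T) (F4 X U1 T)

lemma Tlo_sound {x u t : ℝ} {X U0 U1 T : ℕ} (hx : 1000000 * x ≤ X)
    (hu0 : (U0 : ℝ) ≤ 2000000 * u) (hu1 : 2000000 * u ≤ U1) (ht : 2000000 * t ≤ T)
    (hy : 1 - x - u - t ≤ x) (hpos : 0 < Tlo X U0 U1 T) :
    (Tlo X U0 U1 T : ℝ) ≤ 4000000000000 * (x * (1 - x - u - t) - (1 / 2 - u) ^ 2) := by
  rw [Tlo, mn_eq] at hpos ⊢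
  have hF : ∀ U : ℕ, 0 < F4 X U T → (F4 X U T : ℝ) = 4000000 * X + 2000000 * U
      - (4 * X * X + 2 * X * U + 2 * X * T + 1000000000000 + U * U) := by
    intro U hU
    unfold F4 at hU ⊢
    rw [Nat.cast_sub (by omega)]
    push_cast; ring
  have e0 := hF U0 (lt_of_lt_of_le hpos (min_le_left _ _))
  have e1 := hF U1 (lt_of_lt_of_le hpos (min_le_right _ _))
  rw [Nat.cast_min, e0, e1]
  have hX0 : (0 : ℝ) ≤ X := Nat.cast_nonneg X
  set x' := 1000000 * x with hx'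
  set u' := 2000000 * u with hu'
  set t' := 2000000 * t with ht'
  have r0 : 4000000000000 * (x * (1 - x - u - t) - (1 / 2 - u) ^ 2) = 4000000 * x' + 2000000 * u'
      - (4 * x' * x' + 2 * x' * u' + 2 * x' * t' + 1000000000000 + u' * u') := by
    rw [hx', hu', ht']; ring
  rw [r0]
  have hy' : 2000000 - 2 * x' - u' - t' ≤ 2 * x' := by rw [hx', hu', ht']; linarith
  have s1 : 4000000 * (X : ℝ) + 2000000 * u'
      - (4 * X * X + 2 * X * u' + 2 * X * T + 1000000000000 + u' * u') ≤ 4000000 * x' + 2000000 * u'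
      - (4 * x' * x' + 2 * x' * u' + 2 * x' * t' + 1000000000000 + u' * u') := by
    nlinarith [mul_nonneg (sub_nonneg.2 hx) (show 0 ≤ 2 * X + 2 * x' - (2000000 - u' - t') by linarith),
      mul_nonneg hX0 (sub_nonneg.2 ht)]
  refine le_trans ?_ s1
  rcases le_total 0 (2000000 - 2 * (X : ℝ) - u' - U0) with h | h
  · refine (min_le_left _ _).trans ?_
    nlinarith [mul_nonneg h (sub_nonneg.2 hu0)]
  · refine (min_le_right _ _).trans ?_
    have : 2000000 - 2 * (X : ℝ) - u' - U1 ≤ 0 := by linarith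
    nlinarith [mul_nonneg (sub_nonneg.2 this) (sub_nonneg.2 hu1)]

end Crest.Agent.R215
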