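import Crest.Agent.R215.BB5

/-! Branch and bound for exactly four cells. -/

set_option autoImplicit false
open Real

namespace Crest.Agent.R215

def Big (s p a : ℝ) : Prop := ∃ d1 d2 d3 : ℝ, d1 ^ 2 + d2 ^ 2 + d3 ^ 2 ≤ 3 - 4 * s ∧
  d2 ^ 2 + d3 ^ 2 ≤ 1 - s + 3 * a ∧ HasY p (27 / (32 * π) * (1 - (d1 + d2 + d3) / 3))

structure P4 (x y z a p1 p2 p3 p4 : ℝ) : Prop where
  g1 : Good x p1
  g2 : Good y p2
  g3 : Good z p3
  g4 : Good a p4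
  b1 : Big x p1 a
  b2 : Big y p2 a
  b3 : Big z p3 a
  o1 : y ≤ x
  o2 : z ≤ y
  o3 : a ≤ z
  a0 : 0 < a
  sum : x + y + z + a = 1
  psum : p1 + p2 + p3 + p4 ≤ 1
  n4 : 0 < x * y - (1 / 2 - z) ^ 2 → p4 * (8 * π * √(x * y - (1 / 2 - z) ^ 2)) ≤ 16 * a

def posB (s a c1 c2 : ℕ) : ℕ :=
  6000000 * c1 * c2 + c2 * (3000000 * s + 3000000 * a) + 2000000 * c1 * s
def negB (a c1 c2 : ℕ) : ℕ :=
  c2 * (2000000000000 + c1 * c1) + c1 * (2000000000000 + 6000000 * a + c2 * c2)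
def Ybig (s a c1 c2 : ℕ) : ℕ := 268573 * (posB s a c1 c2 - negB a c1 c2) / (6000000 * c1 * c2)

def Ebig' (lo hi a1 c1 c2 : ℕ) : ℕ :=
  cond (Nat.blt 0 c1 && Nat.blt 0 c2 && Nat.ble c2 (2 * c1)
      && Nat.ble (negB a1 c1 c2) (posB lo a1 c1 c2))
    (comb lo hi (Ybig lo a1 c1 c2) (Ybig hi a1 c1 c2)) 0

def Ebig'' (lo hi a1 c1 c2 c3 : ℕ) : ℕ :=
  cond (Nat.ble c2 (2 * c1)) (Ebig' lo hi a1 c1 c2) (Ebig' lo hi a1 c3 (2 * c3))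

def Ebig (lo hi a1 : ℕ) : ℕ :=
  mx (Ebig'' lo hi a1 (isq (2000000 - (3 * ((lo + hi) / 2) + 3 * a1)))
    (isq (2000000 + 6 * a1 - 2 * ((lo + hi) / 2))) (isq (1000000 - 4 * ((lo + hi) / 2) / 3)))
    (Eq5 lo)

lemma Ybig_le_lin {s a c1 c2 : ℕ} (h1 : 0 < c1) (h2 : 0 < c2)
    (h : negB a c1 c2 ≤ posB s a c1 c2) :
    (Ybig s a c1 c2 : ℝ) ≤ 268573 * (6000000 * c1 * c2 + c2 * (3000000 * a)
        - (c2 * (2000000000000 + c1 * c1) + c1 * (2000000000000 + 6000000 * a + c2 * c2)))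
        / (6000000 * c1 * c2)
      + 268573 * (3000000 * c2 + 2000000 * c1) / (6000000 * c1 * c2) * s := by
  have h1' : (0 : ℝ) < c1 := by exact_mod_cast h1
  have h2' : (0 : ℝ) < c2 := by exact_mod_cast h2
  refine Nat.cast_div_le.trans (le_of_eq ?_)
  push_cast [Nat.cast_sub h]
  simp only [posB, negB]
  push_cast
  field_simp
  ring

lemma Ebig'_sound {s p a : ℝ} {lo hi a1 c1 c2 : ℕ} (h : Good s p) (hB : Big s p a)
    (h1 : (lo : ℝ) ≤ 1000000 * s) (h2 : 1000000 * s ≤ hi) (ha : 1000000 * a ≤ a1) :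
    (Ebig' lo hi a1 c1 c2 : ℝ) ≤ 50000000000 * p - 30000 * (1000000 * s) := by
  have hE := h.mu
  unfold Ebig'
  cases hb : (Nat.blt 0 c1 && Nat.blt 0 c2 && Nat.ble c2 (2 * c1)
      && Nat.ble (negB a1 c1 c2) (posB lo a1 c1 c2))
  · simp; linarith
  rw [cond_true]
  simp only [Bool.and_eq_true, Nat.blt_eq, Nat.ble_eq] at hb
  obtain ⟨⟨⟨hc1, hc2⟩, hc3⟩, hc4⟩ := hb
  have hlh : lo ≤ hi := by exact_mod_cast h1.trans h2
  have hc5 : negB a1 c1 c2 ≤ posB hi a1 c1 c2 := by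
    refine hc4.trans ?_
    unfold posB; gcongr
  obtain ⟨d1, d2, d3, hd1, hd2, hY⟩ := hB
  refine comb_sound _ _ hY ?_ h1 h2 (Ybig_le_lin hc1 hc2 hc4) (Ybig_le_lin hc1 hc2 hc5) hE
  have h1' : (0 : ℝ) < c1 := by exact_mod_cast hc1
  have h2' : (0 : ℝ) < c2 := by exact_mod_cast hc2
  have h3' : (c2 : ℝ) ≤ 2 * c1 := by exact_mod_cast hc3
  set e1 : ℝ := c1 / 1000000 with he1
  set e2 : ℝ := c2 / 1000000 with he2
  set a' : ℝ := a1 / 1000000 with ha'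
  have p1 : 0 < e1 := by positivity
  have p2 : 0 < e2 := by positivity
  have p3 : e2 ≤ 2 * e1 := by rw [he1, he2]; linarith
  have p4 : a ≤ a' := by rw [ha']; linarith
  have q0 : (268573 : ℝ) * (6000000 * c1 * c2 + c2 * (3000000 * a1)
        - (c2 * (2000000000000 + c1 * c1) + c1 * (2000000000000 + 6000000 * a1 + c2 * c2)))
        / (6000000 * c1 * c2)
      + 268573 * (3000000 * c2 + 2000000 * c1) / (6000000 * c1 * c2) * (1000000 * s)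
      = 268573 * (1 - ((2 - 3 * s - 3 * a' + e1 ^ 2) / (2 * e1)
        + (2 - 2 * s + 6 * a' + e2 ^ 2) / (2 * e2)) / 3) := by
    rw [he1, he2, ha']; field_simp; ring
  rw [q0]
  have q1 : d1 + d2 + d3 ≤ 3 := by
    have := h.nonneg
    nlinarith [sq_nonneg (d1 - 1), sq_nonneg (d2 - 1), sq_nonneg (d3 - 1)]
  have q2 : d1 + d2 + d3 ≤ (2 - 3 * s - 3 * a' + e1 ^ 2) / (2 * e1)
      + (2 - 2 * s + 6 * a' + e2 ^ 2) / (2 * e2) := by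
    rw [div_add_div _ _ (by positivity) (by positivity), le_div_iff₀ (by positivity)]
    have r1 := mul_nonneg p2.le (sq_nonneg (d1 - e1))
    have r2 := mul_nonneg p1.le (sq_nonneg (2 * d2 - e2))
    have r3 := mul_nonneg p1.le (sq_nonneg (2 * d3 - e2))
    have r4 := mul_nonneg (sub_nonneg.2 p3) (show 0 ≤ 1 - s + 3 * a' - (d2 ^ 2 + d3 ^ 2) by linarith)
    have r5 := mul_nonneg p2.le (sub_nonneg.2 hd1)
    nlinarith
  have q3 : (268573 / 1000000 : ℝ) ≤ 27 / (32 * π) := by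
    rw [le_div_iff₀ (by positivity)]; nlinarith [Real.pi_lt_d6]
  nlinarith [mul_le_mul_of_nonneg_right q3 (show 0 ≤ 1 - (d1 + d2 + d3) / 3 by linarith)]

lemma Ebig_sound {s p a : ℝ} {lo hi a1 : ℕ} (h : Good s p) (hB : Big s p a)
    (h1 : (lo : ℝ) ≤ 1000000 * s) (h2 : 1000000 * s ≤ hi) (ha : 1000000 * a ≤ a1) :
    (Ebig lo hi a1 : ℝ) ≤ 50000000000 * p - 30000 * (1000000 * s) := by
  rw [Ebig, mx_eq, Nat.cast_max]
  refine max_le ?_ (Eq5_sound h.level h1 h.mu)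
  unfold Ebig''
  generalize isq (2000000 - (3 * ((lo + hi) / 2) + 3 * a1)) = c1
  generalize isq (2000000 + 6 * a1 - 2 * ((lo + hi) / 2)) = c2
  generalize isq (1000000 - 4 * ((lo + hi) / 2) / 3) = c3
  cases Nat.ble c2 (2 * c1)
  · exact Ebig'_sound h hB h1 h2 ha
  · exact Ebig'_sound h hB h1 h2 ha

def ylo4 (x1 z0 z1 a1 : ℕ) : ℕ := mx (1000000 - (x1 + z1 + a1)) z0
def yhi4 (x0 x1 z0 a0 : ℕ) : ℕ := mn (1000000 - (x0 + z0 + a0)) x1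

def check4 : Tr → ℕ → ℕ → ℕ → ℕ → ℕ → ℕ → Bool
  | .Z, x0, x1, z0, z1, a0, a1 => Nat.blt (yhi4 x0 x1 z0 a0) (ylo4 x1 z0 z1 a1) || Nat.blt x1 z0
      || Nat.blt z1 a0 || Nat.blt 1000000 (x0 + z0 + a0)
  | .A, x0, x1, z0, z1, a0, a1 => Nat.blt 20000000000 (Ebig x0 x1 a1
      + Ebig (ylo4 x1 z0 z1 a1) (yhi4 x0 x1 z0 a0) a1 + Ebig z0 z1 a1 + Esm a0 a1)
  | .B, _, x1, z0, z1, _, a1 =>
      Nat.blt (10240000000000 * a1) (1130940 * Tlo x1 (2 * z0) (2 * z1) (2 * a1))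
  | .N0 l r, x0, x1, z0, z1, a0, a1 =>
      check4 l x0 ((x0 + x1) / 2) z0 z1 a0 a1 && check4 r ((x0 + x1) / 2) x1 z0 z1 a0 a1
  | .N1 l r, x0, x1, z0, z1, a0, a1 =>
      check4 l x0 x1 z0 ((z0 + z1) / 2) a0 a1 && check4 r x0 x1 ((z0 + z1) / 2) z1 a0 a1
  | .N2 l r, x0, x1, z0, z1, a0, a1 =>
      check4 l x0 x1 z0 z1 a0 ((a0 + a1) / 2) && check4 r x0 x1 z0 z1 ((a0 + a1) / 2) a1
  | _, _, _, _, _, _, _ => false

section
variable {x y z a p1 p2 p3 p4 : ℝ}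

lemma P4.y_mem {x0 x1 z0 z1 a0 a1 : ℕ} (P : P4 x y z a p1 p2 p3 p4) (hx : InB x0 x1 x)
    (hz : InB z0 z1 z) (ha : InB a0 a1 a) : InB (ylo4 x1 z0 z1 a1) (yhi4 x0 x1 z0 a0) y := by
  have := P.sum
  constructor
  · rw [ylo4, mx_eq, Nat.cast_max]
    refine max_le (cast_tsub_le ?_ (by linarith [P.g2.nonneg])) (by linarith [hz.1, P.o2])
    push_cast
    linarith [hx.2, hz.2, ha.2]
  · rw [yhi4, mn_eq, Nat.cast_min]
    refine le_min (le_trans ?_ (le_cast_tsub _ _)) (by linarith [hx.2, P.o1])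
    push_cast
    linarith [hx.1, hz.1, ha.1]

theorem check4_sound (P : P4 x y z a p1 p2 p3 p4) (t : Tr) :
    ∀ {x0 x1 z0 z1 a0 a1 : ℕ}, InB x0 x1 x → InB z0 z1 z → InB a0 a1 a →
      check4 t x0 x1 z0 z1 a0 a1 = true → False := by
  have hsum := P.sum
  induction t with
  | Z =>
    intro x0 x1 z0 z1 a0 a1 hx hz ha h
    have hy := P.y_mem hx hz ha
    simp only [check4, Bool.or_eq_true, Nat.blt_eq] at h
    rcases h with ((h | h) | h) | h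
    · have : (yhi4 x0 x1 z0 a0 : ℝ) < ylo4 x1 z0 z1 a1 := by exact_mod_cast h
      linarith [hy.1, hy.2]
    · have : (x1 : ℝ) < z0 := by exact_mod_cast h
      linarith [hx.2, hz.1, P.o1, P.o2]
    · have : (z1 : ℝ) < a0 := by exact_mod_cast h
      linarith [hz.2, ha.1, P.o3]
    · have : (1000000 : ℝ) < x0 + z0 + a0 := by exact_mod_cast h
      linarith [hx.1, hz.1, ha.1, P.g2.nonneg]
  | A =>
    intro x0 x1 z0 z1 a0 a1 hx hz ha h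
    have hy := P.y_mem hx hz ha
    have e1 := Ebig_sound P.g1 P.b1 hx.1 hx.2 ha.2
    have e2 := Ebig_sound P.g2 P.b2 hy.1 hy.2 ha.2
    have e3 := Ebig_sound P.g3 P.b3 hz.1 hz.2 ha.2
    have e4 := Esm_sound P.g4 ha.1 ha.2
    simp only [check4, Nat.blt_eq] at h
    generalize Ebig x0 x1 a1 = E1 at h e1
    generalize Ebig (ylo4 x1 z0 z1 a1) (yhi4 x0 x1 z0 a0) a1 = E2 at h e2
    generalize Ebig z0 z1 a1 = E3 at h e3
    generalize Esm a0 a1 = E4 at h e4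
    have h2 : (20000000000 : ℝ) < E1 + E2 + E3 + E4 := by exact_mod_cast h
    linarith [P.psum]
  | B =>
    intro x0 x1 z0 z1 a0 a1 hx hz ha h
    have hT := Tlo_sound (x := x) (u := z) (t := a) (X := x1)
      (U0 := 2 * z0) (U1 := 2 * z1) (T := 2 * a1) hx.2
      (by push_cast; linarith [hz.1]) (by push_cast; linarith [hz.2])
      (by push_cast; linarith [ha.2]) (by linarith [P.o1])
    rw [show 1 - x - z - a = y by linarith] at hT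
    simp only [check4, Nat.blt_eq] at h
    generalize Tlo x1 (2 * z0) (2 * z1) (2 * a1) = T at h hT
    have hT0 : 0 < T := by
      rcases Nat.eq_zero_or_pos T with h0 | h0
      · subst h0; simp at h
      · exact h0
    have h2 : (10240000000000 : ℝ) * a1 < 1130940 * T := by exact_mod_cast h
    have h3 := hT hT0
    have hT0' : (0 : ℝ) < T := by exact_mod_cast hT0
    set τ := x * y - (1 / 2 - z) ^ 2 with hτdef
    have hτ : 0 < τ := by linarith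
    have h4 := P.n4 hτ
    have h5 := P.g4.c0_le
    have hc0 : 0 < c0 := by linarith [c0_ge]
    have h6 : c0 * √a * (8 * π * √τ) ≤ 16 * a := le_trans (by gcongr) h4
    have h7 : (c0 * √a * (8 * π * √τ)) ^ 2 ≤ (16 * a) ^ 2 := by gcongr
    have h8 : (c0 * √a * (8 * π * √τ)) ^ 2 = a * (36 * π * τ) := by
      rw [mul_pow, mul_pow, mul_pow, Real.sq_sqrt hτ.le, Real.sq_sqrt P.a0.le, c0_sq]
      field_simp; ring
    have h9 : 36 * π * τ ≤ 256 * a := by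
      rw [h8] at h7
      exact le_of_mul_le_mul_left (by nlinarith) P.a0
    have h10 : 36 * (31415 / 10000) * τ ≤ 36 * π * τ := by
      gcongr; linarith [Real.pi_gt_d4]
    linarith [ha.2]
  | C => intro x0 x1 z0 z1 a0 a1 _ _ _ h; simp [check4] at h
  | N0 l r ihl ihr =>
    intro x0 x1 z0 z1 a0 a1 hx hz ha h
    simp only [check4, Bool.and_eq_true] at h
    rcases hx.split ((x0 + x1) / 2) with h' | h'
    exacts [ihl h' hz ha h.1, ihr h' hz ha h.2]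
  | N1 l r ihl ihr =>
    intro x0 x1 z0 z1 a0 a1 hx hz ha h
    simp only [check4, Bool.and_eq_true] at h
    rcases hz.split ((z0 + z1) / 2) with h' | h'
    exacts [ihl hx h' ha h.1, ihr hx h' ha h.2]
  | N2 l r ihl ihr =>
    intro x0 x1 z0 z1 a0 a1 hx hz ha h
    simp only [check4, Bool.and_eq_true] at h
    rcases ha.split ((a0 + a1) / 2) with h' | h'
    exacts [ihl hx hz h' h.1, ihr hx hz h' h.2]
  | N3 l r _ _ => intro x0 x1 z0 z1 a0 a1 _ _ _ h; simp [check4] at h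
  | N4 l r _ _ => intro x0 x1 z0 z1 a0 a1 _ _ _ h; simp [check4] at h

end

def tree4 : Tr :=
  (.N0 (.N1 .Z (.N2 .Z (.N0 .Z (.N1 .Z .Z)))) (.N1 (.N2 (.N0 .Z (.N1 (.N2 (.N0 .Z (.N1 .Z (.N2 .A
  .A))) (.N0 .Z (.N1 .Z .A))) (.N2 (.N0 (.N1 .Z (.N2 .Z .A)) (.N1 (.N2 (.N0 .Z .A) .A) (.N2 (.N0 (.N1
  (.N2 .Z .A) (.N2 .B .A)) (.N1 (.N2 .B .A) (.N2 .B .A))) .A))) (.N0 (.N1 (.N2 .Z .A) (.N2 .A .A))
  .A)))) (.N0 (.N1 .Z (.N2 (.N0 .Z (.N1 .Z .A)) .Z)) (.N1 .Z (.N2 (.N0 (.N1 (.N2 .A .Z) .A) .A) .Z))))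
  (.N2 (.N0 (.N1 (.N2 .Z (.N0 .Z (.N1 .Z (.N2 .A .A)))) (.N2 (.N0 .Z (.N1 (.N2 .Z (.N0 .Z (.N1 .Z (.N2
  .A .A)))) (.N2 .B (.N0 (.N1 .Z .Z) (.N1 (.N2 .A .A) (.N2 .A .A)))))) (.N0 (.N1 .Z .Z) (.N1 (.N2 .A
  .A) (.N2 .A .A))))) (.N1 (.N2 (.N0 (.N1 (.N2 (.N0 .Z (.N1 .Z (.N2 .B (.N0 .Z (.N1 .A (.N2 .B
  .A)))))) (.N0 .Z (.N1 (.N2 .A .A) (.N2 .A .A)))) (.N2 (.N0 (.N1 .Z (.N2 .Z (.N0 .Z (.N1 .Z (.N2 .Z
  .A))))) (.N1 (.N2 .B (.N0 (.N1 .Z (.N2 .B .A)) (.N1 (.N2 .B .A) (.N2 .B .A)))) (.N2 .B (.N0 (.N1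
  (.N2 .B .A) (.N2 .B .A)) (.N1 (.N2 .B .A) (.N2 .B .A)))))) (.N0 (.N1 (.N2 .Z .A) (.N2 .A .A)) (.N1
  (.N2 .A .A) (.N2 .A .A))))) (.N1 (.N2 (.N0 (.N1 (.N2 .B .A) (.N2 .B .A)) (.N1 (.N2 .B .A) (.N2 .B
  .A))) .A) (.N2 (.N0 (.N1 (.N2 .B .A) (.N2 .B .A)) (.N1 (.N2 .B .A) (.N2 .B .A))) .A))) (.N0 (.N1
  (.N2 .A .A) (.N2 .A .A)) .A)) (.N2 (.N0 (.N1 (.N2 (.N0 (.N1 (.N2 .B (.N0 .Z (.N1 (.N2 .B .A) (.N2 .B
  .A)))) (.N2 .B (.N0 (.N1 (.N2 .Z .A) (.N2 .B .A)) (.N1 (.N2 .B .A) (.N2 .B .A))))) (.N1 (.N2 .B (.N0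
  (.N1 (.N2 .B .A) (.N2 .B .A)) (.N1 (.N2 .B .A) (.N2 .B .A)))) (.N2 .B (.N0 (.N1 (.N2 .B .A) (.N2 .B
  .A)) (.N1 (.N2 .B .A) (.N2 .B .A)))))) (.N0 (.N1 (.N2 .A .A) (.N2 .A .A)) (.N1 (.N2 .A .A) (.N2 .A
  .A)))) (.N2 (.N0 (.N1 (.N2 .B (.N0 .B (.N1 (.N2 .B .A) .B))) .B) (.N1 (.N2 .B (.N0 (.N1 (.N2 .B .A)
  (.N2 .B .A)) (.N1 (.N2 .B .A) (.N2 .B .Z)))) (.N2 .B .Z))) (.N0 (.N1 (.N2 .A .A) (.N2 .A .Z)) (.N1
  (.N2 .A .A) .Z)))) (.N1 (.N2 (.N0 (.N1 (.N2 .B .A) (.N2 .B .A)) (.N1 (.N2 .B .A) (.N2 .B .A))) .A)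
  (.N2 (.N0 (.N1 (.N2 .B .A) .Z) .Z) .Z))) (.N0 (.N1 (.N2 (.N0 .A .A) .A) (.N2 .A .Z)) .A)))) (.N0
  (.N1 (.N2 .A .A) .A) (.N1 (.N2 (.N0 (.N1 .A .A) .A) .A) .A)))))

theorem tree4_ok : check4 tree4 0 444445 0 333334 0 250000 = true := by
  decide +kernel

theorem not_P4 {x y z a p1 p2 p3 p4 : ℝ} (P : P4 x y z a p1 p2 p3 p4) : False := by
  have := P.sum
  have h1 := P.g1.level.le_four_ninths
  have := P.o1
  have := P.o2
  have := P.o3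
  have := P.a0
  refine check4_sound P tree4 ?_ ?_ ?_ tree4_ok <;>
    (constructor <;> push_cast <;> linarith)

end Crest.Agent.R215
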