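import Crest.Agent.R215.BB

/-! Branch and bound for at least five cells. -/

set_option autoImplicit false
open Real

namespace Crest.Agent.R215

structure P5 (x y z a b w p1 p2 p3 p4 p5 r : ℝ) : Prop where
  g1 : Good x p1
  g2 : Good y p2
  g3 : Good z p3
  g4 : Good a p4
  g5 : Good b p5
  o1 : y ≤ x
  o2 : z ≤ y
  o3 : a ≤ z
  o4 : b ≤ a
  b0 : 0 < b
  w0 : 0 ≤ w
  sum : x + y + z + a + b + w = 1
  psum : p1 + p2 + p3 + p4 + p5 + r ≤ 1
  hr : c0 * w ≤ r * √b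
  n4 : 0 < x * y - (1 / 2 - z) ^ 2 → p4 * (8 * π * √(x * y - (1 / 2 - z) ^ 2)) ≤ 16 * a + b + w
  n5 : 0 < x * y - (1 / 2 - z - a / 2) ^ 2 →
    p5 * (8 * π * √(x * y - (1 / 2 - z - a / 2) ^ 2)) ≤ 25 * b + w

def InB (lo hi : ℕ) (s : ℝ) : Prop := (lo : ℝ) ≤ 1000000 * s ∧ 1000000 * s ≤ hi

lemma InB.split {lo hi : ℕ} {s : ℝ} (h : InB lo hi s) (m : ℕ) : InB lo m s ∨ InB m hi s := by
  rcases le_total (1000000 * s) m with h1 | h1
  · exact Or.inl ⟨h.1, h1⟩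
  · exact Or.inr ⟨h1, h.2⟩

def ylo5 (x1 z0 z1 a1 b1 w1 : ℕ) : ℕ := mx (1000000 - (x1 + z1 + a1 + b1 + w1)) z0
def yhi5 (x0 x1 z0 a0 b0 w0 : ℕ) : ℕ := mn (1000000 - (x0 + z0 + a0 + b0 + w0)) x1

def Es5 (x0 x1 z0 z1 a0 a1 b0 b1 w0 w1 : ℕ) : ℕ :=
  Esm x0 x1 + Esm (ylo5 x1 z0 z1 a1 b1 w1) (yhi5 x0 x1 z0 a0 b0 w0) + Esm z0 z1 + Esm a0 a1
    + Esm b0 b1

def ruleZ5 (x0 x1 z0 z1 a0 a1 b0 b1 w0 w1 : ℕ) : Bool :=
  Nat.blt (yhi5 x0 x1 z0 a0 b0 w0) (ylo5 x1 z0 z1 a1 b1 w1) || Nat.blt x1 z0 || Nat.blt z1 a0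
    || Nat.blt a1 b0 || Nat.blt 1000000 (x0 + z0 + a0 + b0 + w0)

def needleB (M T R : ℕ) : Bool :=
  Nat.blt (R * R * 40000000000000000000000000000) (M * M * 63165260929 * T)

def ruleC5 (x1 z0 z1 a0 a1 b1 w1 : ℕ) : Bool :=
  needleB (Plow a0) (Tlo x1 (2 * z0) (2 * z1) (2 * (a1 + b1 + w1))) (16 * a1 + b1 + w1)

def ruleA5' (Es b1 w0 r1 : ℕ) : Bool :=
  Nat.ble (b1 * 1000000) (r1 * r1) &&
    Nat.blt 20000000000 (Es + w0 * (21157100000 / r1 - 30000))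

def ruleA5 (x0 x1 z0 z1 a0 a1 b0 b1 w0 w1 : ℕ) : Bool :=
  ruleA5' (Es5 x0 x1 z0 z1 a0 a1 b0 b1 w0 w1) b1 w0 (isq12 b1 + 1)

def sqlt (K T : ℕ) : Bool := Nat.blt (16 * K * K) (202500000000 * T)

def ruleB5' (Es T b1 w1 r1 : ℕ) : Bool :=
  Nat.ble (b1 * 1000000) (r1 * r1) &&
    sqlt (20000000000 + 30000 * w1 + 528929 * r1 - Es) T

def ruleB5 (x0 x1 z0 z1 a0 a1 b0 b1 w0 w1 : ℕ) : Bool :=
  ruleB5' (Es5 x0 x1 z0 z1 a0 a1 b0 b1 w0 w1)
    (Tlo x1 (2 * z0 + a0) (2 * z1 + a1) (a1 + 2 * (b1 + w1))) b1 w1 (isq12 b1 + 1)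

inductive Tr where
  | Z | A | B | C
  | N0 (l r : Tr) | N1 (l r : Tr) | N2 (l r : Tr) | N3 (l r : Tr) | N4 (l r : Tr)

def check5 : Tr → ℕ → ℕ → ℕ → ℕ → ℕ → ℕ → ℕ → ℕ → ℕ → ℕ → Bool
  | .Z, x0, x1, z0, z1, a0, a1, b0, b1, w0, w1 => ruleZ5 x0 x1 z0 z1 a0 a1 b0 b1 w0 w1
  | .A, x0, x1, z0, z1, a0, a1, b0, b1, w0, w1 => ruleA5 x0 x1 z0 z1 a0 a1 b0 b1 w0 w1
  | .B, x0, x1, z0, z1, a0, a1, b0, b1, w0, w1 => ruleB5 x0 x1 z0 z1 a0 a1 b0 b1 w0 w1
  | .C, _, x1, z0, z1, a0, a1, _, b1, _, w1 => ruleC5 x1 z0 z1 a0 a1 b1 w1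
  | .N0 l r, x0, x1, z0, z1, a0, a1, b0, b1, w0, w1 =>
      check5 l x0 ((x0 + x1) / 2) z0 z1 a0 a1 b0 b1 w0 w1 &&
      check5 r ((x0 + x1) / 2) x1 z0 z1 a0 a1 b0 b1 w0 w1
  | .N1 l r, x0, x1, z0, z1, a0, a1, b0, b1, w0, w1 =>
      check5 l x0 x1 z0 ((z0 + z1) / 2) a0 a1 b0 b1 w0 w1 &&
      check5 r x0 x1 ((z0 + z1) / 2) z1 a0 a1 b0 b1 w0 w1
  | .N2 l r, x0, x1, z0, z1, a0, a1, b0, b1, w0, w1 =>
      check5 l x0 x1 z0 z1 a0 ((a0 + a1) / 2) b0 b1 w0 w1 &&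
      check5 r x0 x1 z0 z1 ((a0 + a1) / 2) a1 b0 b1 w0 w1
  | .N3 l r, x0, x1, z0, z1, a0, a1, b0, b1, w0, w1 =>
      check5 l x0 x1 z0 z1 a0 a1 b0 ((b0 + b1) / 2) w0 w1 &&
      check5 r x0 x1 z0 z1 a0 a1 ((b0 + b1) / 2) b1 w0 w1
  | .N4 l r, x0, x1, z0, z1, a0, a1, b0, b1, w0, w1 =>
      check5 l x0 x1 z0 z1 a0 a1 b0 b1 w0 ((w0 + w1) / 2) &&
      check5 r x0 x1 z0 z1 a0 a1 b0 b1 ((w0 + w1) / 2) w1

lemma needleB_sound {M T R : ℕ} {p τ ρ : ℝ} (h : needleB M T R = true)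
    (hM : (M : ℝ) ≤ 10000000000 * p) (hT : 0 < T → (T : ℝ) ≤ 4000000000000 * τ)
    (hR : 1000000 * ρ ≤ R) (hn : 0 < τ → p * (8 * π * √τ) ≤ ρ) : False := by
  rw [needleB, Nat.blt_eq] at h
  have hT0 : 0 < T := by
    rcases Nat.eq_zero_or_pos T with h0 | h0
    · subst h0; simp at h
    · exact h0
  have h1 := hT hT0
  have hT0' : (0 : ℝ) < T := by exact_mod_cast hT0
  have hτ : 0 < τ := by linarith
  have h2 := hn hτ
  have h3 : (R : ℝ) * R * 40000000000000000000000000000 < M * M * 63165260929 * T := by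
    exact_mod_cast h
  have hM0 : (0 : ℝ) ≤ M := Nat.cast_nonneg M
  have hp : 0 ≤ p := by linarith
  have hpi : (251327 / 10000 : ℝ) ≤ 8 * π := by linarith [Real.pi_gt_d6]
  have h4 : p * (251327 / 10000 * √τ) ≤ ρ := le_trans (by gcongr) h2
  have h5 : 0 ≤ p * (251327 / 10000 * √τ) := by positivity
  have h6 : (p * (251327 / 10000 * √τ)) ^ 2 ≤ (R / 1000000) ^ 2 := by
    gcongr; linarith
  rw [mul_pow, mul_pow, Real.sq_sqrt hτ.le] at h6
  have h7 : (M : ℝ) * M * T ≤ (10000000000 * p) * (10000000000 * p) * (4000000000000 * τ) := by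
    gcongr
  nlinarith

section
variable {x y z a b w p1 p2 p3 p4 p5 r : ℝ} {x0 x1 z0 z1 a0 a1 b0 b1 w0 w1 : ℕ}

lemma P5.y_mem (P : P5 x y z a b w p1 p2 p3 p4 p5 r) (hx : InB x0 x1 x) (hz : InB z0 z1 z)
    (ha : InB a0 a1 a) (hb : InB b0 b1 b) (hw : InB w0 w1 w) :
    InB (ylo5 x1 z0 z1 a1 b1 w1) (yhi5 x0 x1 z0 a0 b0 w0) y := by
  have := P.sum
  constructor
  · rw [ylo5, mx_eq, Nat.cast_max]
    refine max_le (cast_tsub_le ?_ (by linarith [P.g2.nonneg])) (by linarith [hz.1, P.o2])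
    push_cast
    linarith [hx.2, hz.2, ha.2, hb.2, hw.2]
  · rw [yhi5, mn_eq, Nat.cast_min]
    refine le_min (le_trans ?_ (le_cast_tsub _ _)) (by linarith [hx.2, P.o1])
    push_cast
    linarith [hx.1, hz.1, ha.1, hb.1, hw.1]

lemma P5.Es_le (P : P5 x y z a b w p1 p2 p3 p4 p5 r) (hx : InB x0 x1 x) (hz : InB z0 z1 z)
    (ha : InB a0 a1 a) (hb : InB b0 b1 b) (hw : InB w0 w1 w) :
    (Es5 x0 x1 z0 z1 a0 a1 b0 b1 w0 w1 : ℝ)
      ≤ 20000000000 - 50000000000 * r + 30000 * (1000000 * w) := by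
  have hy := P.y_mem hx hz ha hb hw
  have e1 := Esm_sound P.g1 hx.1 hx.2
  have e2 := Esm_sound P.g2 hy.1 hy.2
  have e3 := Esm_sound P.g3 hz.1 hz.2
  have e4 := Esm_sound P.g4 ha.1 ha.2
  have e5 := Esm_sound P.g5 hb.1 hb.2
  unfold Es5
  push_cast
  linarith [P.sum, P.psum]

lemma sqrt_le_of_box {b : ℝ} {b0 b1 r1 : ℕ} (hb : InB b0 b1 b) (h : b1 * 1000000 ≤ r1 * r1) :
    1000000 * √b ≤ r1 := by
  have h1 : (b1 : ℝ) * 1000000 ≤ r1 * r1 := by exact_mod_cast h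
  have h2 : √b ≤ r1 / 1000000 := by
    rw [Real.sqrt_le_left (by positivity)]
    nlinarith [hb.2]
  linarith

theorem check5_sound (P : P5 x y z a b w p1 p2 p3 p4 p5 r) (t : Tr) :
    ∀ {x0 x1 z0 z1 a0 a1 b0 b1 w0 w1 : ℕ}, InB x0 x1 x → InB z0 z1 z → InB a0 a1 a → InB b0 b1 b →
      InB w0 w1 w → check5 t x0 x1 z0 z1 a0 a1 b0 b1 w0 w1 = true → False := by
  have hsum := P.sum
  have hsb : 0 < √b := Real.sqrt_pos.2 P.b0
  induction t with
  | Z =>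
    intro x0 x1 z0 z1 a0 a1 b0 b1 w0 w1 hx hz ha hb hw h
    have hy := P.y_mem hx hz ha hb hw
    simp only [check5, ruleZ5, Bool.or_eq_true, Nat.blt_eq] at h
    rcases h with (((h | h) | h) | h) | h
    · have : (yhi5 x0 x1 z0 a0 b0 w0 : ℝ) < ylo5 x1 z0 z1 a1 b1 w1 := by exact_mod_cast h
      linarith [hy.1, hy.2]
    · have : (x1 : ℝ) < z0 := by exact_mod_cast h
      linarith [hx.2, hz.1, P.o1, P.o2]
    · have : (z1 : ℝ) < a0 := by exact_mod_cast h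
      linarith [hz.2, ha.1, P.o3]
    · have : (a1 : ℝ) < b0 := by exact_mod_cast h
      linarith [ha.2, hb.1, P.o4]
    · have : (1000000 : ℝ) < x0 + z0 + a0 + b0 + w0 := by exact_mod_cast h
      linarith [hx.1, hz.1, ha.1, hb.1, hw.1, P.g2.nonneg]
  | A =>
    intro x0 x1 z0 z1 a0 a1 b0 b1 w0 w1 hx hz ha hb hw h
    have hE := P.Es_le hx hz ha hb hw
    simp only [check5, ruleA5] at h
    generalize isq12 b1 + 1 = r1 at h
    generalize Es5 x0 x1 z0 z1 a0 a1 b0 b1 w0 w1 = Es at h hE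
    simp only [ruleA5', Bool.and_eq_true, Nat.blt_eq, Nat.ble_eq] at h
    have h1 := sqrt_le_of_box hb h.1
    have h8 : ((21157100000 / r1 : ℕ) : ℝ) ≤ ((21157100000 : ℕ) : ℝ) / r1 := Nat.cast_div_le
    generalize 21157100000 / r1 = q at h h8
    rw [Nat.cast_ofNat] at h8
    have hQ : q - 30000 = 0 ∨ ((q - 30000 : ℕ) : ℝ) = q - 30000 := by
      rcases le_total q 30000 with h7 | h7
      · exact Or.inl (Nat.sub_eq_zero_of_le h7)
      · right; rw [Nat.cast_sub h7, Nat.cast_ofNat]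
    generalize q - 30000 = Q at h hQ
    have h2 : (20000000000 : ℝ) < Es + w0 * Q := by
      exact_mod_cast h.2
    have hr1 : (0 : ℝ) < r1 := by linarith
    have hr0 : 0 ≤ r := by
      by_contra hneg
      have := mul_neg_of_neg_of_pos (not_le.1 hneg) hsb
      have h3 : 0 ≤ c0 * w := mul_nonneg (by linarith [c0_ge]) P.w0
      linarith [P.hr]
    have h4 : 423142 * w ≤ r * r1 := by
      have := mul_le_mul_of_nonneg_right c0_ge P.w0
      nlinarith [P.hr]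
    have h5 : 3 * w ≤ 5 * r := by
      have hb5 : √b ≤ 1 / 2 := by
        rw [Real.sqrt_le_left (by norm_num)]
        linarith [P.o1, P.o2, P.o3, P.o4, P.w0]
      have := mul_le_mul_of_nonneg_right c0_ge P.w0
      nlinarith [P.hr]
    have h6 : (w0 : ℝ) * Q ≤ 50000000000 * r - 30000 * (1000000 * w) := by
      rcases hQ with h7 | h7
      · rw [h7]; simp; linarith
      · have h9 : (0 : ℝ) ≤ Q := Nat.cast_nonneg _
        calc (w0 : ℝ) * Q ≤ (1000000 * w) * Q := mul_le_mul_of_nonneg_right hw.1 h9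
          _ ≤ (1000000 * w) * (21157100000 / r1 - 30000) := by
              refine mul_le_mul_of_nonneg_left ?_ (by linarith [P.w0])
              linarith
          _ ≤ _ := by
              have : 1000000 * w * (21157100000 / r1) ≤ 50000000000 * r := by
                rw [mul_div_assoc', div_le_iff₀ hr1]; nlinarith
              linarith
    linarith
  | B =>
    intro x0 x1 z0 z1 a0 a1 b0 b1 w0 w1 hx hz ha hb hw h
    have hE := P.Es_le hx hz ha hb hw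
    have hT := Tlo_sound (x := x) (u := z + a / 2) (t := a / 2 + b + w) (X := x1)
      (U0 := 2 * z0 + a0) (U1 := 2 * z1 + a1) (T := a1 + 2 * (b1 + w1)) hx.2
      (by push_cast; linarith [hz.1, ha.1]) (by push_cast; linarith [hz.2, ha.2])
      (by push_cast; linarith [ha.2, hb.2, hw.2]) (by linarith [P.o1])
    rw [show 1 - x - (z + a / 2) - (a / 2 + b + w) = y by linarith,
      show 1 / 2 - (z + a / 2) = 1 / 2 - z - a / 2 by ring] at hT
    simp only [check5, ruleB5] at h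
    generalize isq12 b1 + 1 = r1 at h
    generalize Es5 x0 x1 z0 z1 a0 a1 b0 b1 w0 w1 = Es at h hE
    generalize Tlo x1 (2 * z0 + a0) (2 * z1 + a1) (a1 + 2 * (b1 + w1)) = T at h hT
    simp only [ruleB5', sqlt, Bool.and_eq_true, Nat.blt_eq, Nat.ble_eq] at h
    have h1 := sqrt_le_of_box hb h.1
    have hK := le_cast_tsub (20000000000 + 30000 * w1 + 528929 * r1) Es
    generalize 20000000000 + 30000 * w1 + 528929 * r1 - Es = K at h hK
    have hT0 : 0 < T := by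
      rcases Nat.eq_zero_or_pos T with h0 | h0
      · subst h0; simp at h
      · exact h0
    have h2 : (16 : ℝ) * K * K < 202500000000 * T := by exact_mod_cast h.2
    have h3 := hT hT0
    have hT0' : (0 : ℝ) < T := by exact_mod_cast hT0
    set τ := x * y - (1 / 2 - z - a / 2) ^ 2 with hτdef
    have hτ : 0 < τ := by linarith
    have h4 := P.n5 hτ
    have h5 := P.g5.c0_le
    have hc0 : 0 < c0 := by linarith [c0_ge]
    have h6 : c0 * √b * (8 * π * √τ) ≤ 25 * b + w := le_trans (by gcongr) h4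
    have h7 : c0 * (c0 * √b * (8 * π * √τ)) = 9 / 2 * √τ * √b := by
      have : c0 * c0 = 9 / (16 * π) := by rw [← c0_sq]; ring
      calc c0 * (c0 * √b * (8 * π * √τ)) = (c0 * c0) * (8 * π) * √τ * √b := by ring
        _ = _ := by rw [this]; field_simp; ring
    have h8 : (9 / 2 * √τ - 25 * c0 * √b) * √b ≤ r * √b := by
      have e : √b * √b = b := Real.mul_self_sqrt P.b0.le
      have := mul_le_mul_of_nonneg_left h6 hc0.le
      nlinarith [P.hr]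
    have h9 : 9 / 2 * √τ - 25 * c0 * √b ≤ r := le_of_mul_le_mul_right h8 hsb
    have h10 : c0 * √b ≤ 423143 / 1000000 * (r1 / 1000000) := by
      gcongr
      · exact c0_le
      · linarith
    have h11 : 225000000000 * √τ ≤ K := by
      push_cast at hK
      have : (0 : ℝ) ≤ r1 := Nat.cast_nonneg r1
      linarith [hw.2]
    have h12 : (225000000000 * √τ) ^ 2 ≤ (K : ℝ) ^ 2 := by gcongr
    rw [mul_pow, Real.sq_sqrt hτ.le] at h12
    nlinarith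
  | C =>
    intro x0 x1 z0 z1 a0 a1 b0 b1 w0 w1 hx hz ha hb hw h
    have hT := Tlo_sound (x := x) (u := z) (t := a + b + w) (X := x1)
      (U0 := 2 * z0) (U1 := 2 * z1) (T := 2 * (a1 + b1 + w1)) hx.2
      (by push_cast; linarith [hz.1]) (by push_cast; linarith [hz.2])
      (by push_cast; linarith [ha.2, hb.2, hw.2]) (by linarith [P.o1])
    rw [show 1 - x - z - (a + b + w) = y by linarith] at hT
    exact needleB_sound h (Plow_sound P.g4 ha.1) hT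
      (by push_cast; linarith [ha.2, hb.2, hw.2]) P.n4
  | N0 l r ihl ihr =>
    intro x0 x1 z0 z1 a0 a1 b0 b1 w0 w1 hx hz ha hb hw h
    simp only [check5, Bool.and_eq_true] at h
    rcases hx.split ((x0 + x1) / 2) with h' | h'
    exacts [ihl h' hz ha hb hw h.1, ihr h' hz ha hb hw h.2]
  | N1 l r ihl ihr =>
    intro x0 x1 z0 z1 a0 a1 b0 b1 w0 w1 hx hz ha hb hw h
    simp only [check5, Bool.and_eq_true] at h
    rcases hz.split ((z0 + z1) / 2) with h' | h'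
    exacts [ihl hx h' ha hb hw h.1, ihr hx h' ha hb hw h.2]
  | N2 l r ihl ihr =>
    intro x0 x1 z0 z1 a0 a1 b0 b1 w0 w1 hx hz ha hb hw h
    simp only [check5, Bool.and_eq_true] at h
    rcases ha.split ((a0 + a1) / 2) with h' | h'
    exacts [ihl hx hz h' hb hw h.1, ihr hx hz h' hb hw h.2]
  | N3 l r ihl ihr =>
    intro x0 x1 z0 z1 a0 a1 b0 b1 w0 w1 hx hz ha hb hw h
    simp only [check5, Bool.and_eq_true] at h
    rcases hb.split ((b0 + b1) / 2) with h' | h'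
    exacts [ihl hx hz ha h' hw h.1, ihr hx hz ha h' hw h.2]
  | N4 l r ihl ihr =>
    intro x0 x1 z0 z1 a0 a1 b0 b1 w0 w1 hx hz ha hb hw h
    simp only [check5, Bool.and_eq_true] at h
    rcases hw.split ((w0 + w1) / 2) with h' | h'
    exacts [ihl hx hz ha hb h' h.1, ihr hx hz ha hb h' h.2]

end

end Crest.Agent.R215
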