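import Mathlib

/-! Standard Gaussian density `phi`, distribution function `Phi`, its primitive `Psi`,
and the quantile function `PhiInv`. -/

set_option autoImplicit false
open MeasureTheory ProbabilityTheory Set Filter Topology Real

namespace Crest.Agent.R215

noncomputable def phi (x : ℝ) : ℝ := (√(2 * π))⁻¹ * Real.exp (-x ^ 2 / 2)
noncomputable def Phi (x : ℝ) : ℝ := ∫ t in Iic x, phi t
noncomputable def Psi (x : ℝ) : ℝ := x * Phi x + phi x
noncomputable def PhiInv (p : ℝ) : ℝ := Function.invFun Phi p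

/-- the standard Gaussian measure on the line -/
noncomputable abbrev gam : Measure ℝ := gaussianReal 0 1

lemma sqrt_two_pi_pos : 0 < √(2 * π) := Real.sqrt_pos.2 (by positivity)

lemma phi_pos (x : ℝ) : 0 < phi x := by
  unfold phi; have := sqrt_two_pi_pos; positivity

lemma phi_neg (x : ℝ) : phi (-x) = phi x := by simp [phi]

lemma phi_zero : phi 0 = (√(2 * π))⁻¹ := by simp [phi]

lemma phi_le (x : ℝ) : phi x ≤ phi 0 := by
  unfold phi
  have := sqrt_two_pi_pos
  refine mul_le_mul_of_nonneg_left (Real.exp_le_exp.2 ?_) (by positivity)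
  nlinarith [sq_nonneg x]

lemma phi_eq_pdf (x : ℝ) : phi x = gaussianPDFReal 0 1 x := by
  simp [phi, gaussianPDFReal]

lemma hasDerivAt_phi (x : ℝ) : HasDerivAt phi (-x * phi x) x := by
  have h1 : HasDerivAt (fun x : ℝ => -x ^ 2 / 2) (-x) x := by
    have := ((hasDerivAt_pow 2 x).fun_neg).div_const 2
    refine this.congr_deriv ?_
    simp; ring
  have h2 := (h1.exp).const_mul (√(2 * π))⁻¹
  refine h2.congr_deriv ?_
  unfold phi; ring

@[fun_prop] lemma continuous_phi : Continuous phi := by
  unfold phi; fun_prop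

@[fun_prop] lemma measurable_phi : Measurable phi := continuous_phi.measurable

lemma integrable_phi : Integrable phi := by
  have : phi = gaussianPDFReal 0 1 := funext phi_eq_pdf
  rw [this]; exact integrable_gaussianPDFReal 0 1

lemma integral_phi : ∫ x, phi x = 1 := by
  have : phi = gaussianPDFReal 0 1 := funext phi_eq_pdf
  rw [this]; exact integral_gaussianPDFReal_eq_one 0 one_ne_zero

lemma integral_gam (f : ℝ → ℝ) : ∫ x, f x ∂gam = ∫ x, phi x * f x := by
  rw [integral_gaussianReal_eq_integral_smul one_ne_zero]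
  simp [phi_eq_pdf]

lemma integrable_gam_iff {f : ℝ → ℝ} : Integrable f gam ↔ Integrable (fun x => phi x * f x) := by
  rw [gam, gaussianReal_of_var_ne_zero 0 one_ne_zero,
    integrable_withDensity_iff_integrable_smul' (measurable_gaussianPDF 0 1)
      (Eventually.of_forall fun _ => gaussianPDF_lt_top)]
  simp [phi_eq_pdf]

lemma integrable_mul_phi : Integrable (fun x => x * phi x) := by
  have h := (integrable_mul_exp_neg_mul_sq (b := 1 / 2) (by norm_num)).const_mul (√(2 * π))⁻¹
  refine h.congr (Eventually.of_forall fun x => ?_)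
  simp only [phi]
  rw [show -(1 / 2 : ℝ) * x ^ 2 = -x ^ 2 / 2 by ring]; ring

lemma tendsto_phi_atTop : Tendsto phi atTop (𝓝 0) := by
  have h : Tendsto (fun x : ℝ => -x ^ 2 / 2) atTop atBot := by
    apply Tendsto.atBot_div_const (by norm_num)
    exact tendsto_neg_atTop_atBot.comp (tendsto_pow_atTop two_ne_zero)
  have := (Real.tendsto_exp_atBot.comp h).const_mul (√(2 * π))⁻¹
  rw [mul_zero] at this
  exact this

lemma tendsto_phi_atBot : Tendsto phi atBot (𝓝 0) := by
  have := tendsto_phi_atTop.comp tendsto_neg_atBot_atTop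
  simpa [Function.comp_def, phi_neg] using this

lemma Phi_eq_real (x : ℝ) : Phi x = gam.real (Iic x) := by
  rw [Measure.real, gaussianReal_apply_eq_integral 0 one_ne_zero, ENNReal.toReal_ofReal]
  · simp [Phi, phi_eq_pdf]
  · exact integral_nonneg fun _ => gaussianPDFReal_nonneg _ _ _

lemma Phi_sub (a b : ℝ) : Phi b - Phi a = ∫ t in a..b, phi t :=
  intervalIntegral.integral_Iic_sub_Iic integrable_phi.integrableOn integrable_phi.integrableOn

lemma hasDerivAt_Phi (x : ℝ) : HasDerivAt Phi (phi x) x := by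
  have h : Phi = fun b => Phi 0 + ∫ t in (0 : ℝ)..b, phi t := by
    funext b; rw [← Phi_sub]; ring
  rw [h]
  exact (continuous_phi.integral_hasStrictDerivAt 0 x).hasDerivAt.const_add _

@[fun_prop] lemma continuous_Phi : Continuous Phi :=
  continuous_iff_continuousAt.2 fun x => (hasDerivAt_Phi x).continuousAt

@[fun_prop] lemma measurable_Phi : Measurable Phi := continuous_Phi.measurable

lemma strictMono_Phi : StrictMono Phi :=
  strictMono_of_deriv_pos fun x => by rw [(hasDerivAt_Phi x).deriv]; exact phi_pos x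

lemma monotone_Phi : Monotone Phi := strictMono_Phi.monotone

lemma Phi_eq_cdf : Phi = cdf gam := by
  funext x; rw [Phi_eq_real, cdf_eq_real]

lemma tendsto_Phi_atBot : Tendsto Phi atBot (𝓝 0) := by
  rw [Phi_eq_cdf]; exact tendsto_cdf_atBot _

lemma tendsto_Phi_atTop : Tendsto Phi atTop (𝓝 1) := by
  rw [Phi_eq_cdf]; exact tendsto_cdf_atTop _

lemma Phi_nonneg (x : ℝ) : 0 ≤ Phi x := by rw [Phi_eq_cdf]; exact cdf_nonneg _ _

lemma Phi_le_one (x : ℝ) : Phi x ≤ 1 := by rw [Phi_eq_cdf]; exact cdf_le_one _ _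

lemma Phi_pos (x : ℝ) : 0 < Phi x :=
  (Phi_nonneg (x - 1)).trans_lt (strictMono_Phi (by linarith))

lemma Phi_lt_one (x : ℝ) : Phi x < 1 :=
  (strictMono_Phi (by linarith : x < x + 1)).trans_le (Phi_le_one _)

lemma integral_Ioi_phi (x : ℝ) : ∫ t in Ioi x, phi t = 1 - Phi x := by
  have := intervalIntegral.integral_Iic_add_Ioi (b := x) integrable_phi.integrableOn
    integrable_phi.integrableOn
  rw [integral_phi] at this
  unfold Phi; linarith

lemma Phi_neg (x : ℝ) : Phi (-x) = 1 - Phi x := by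
  rw [← integral_Ioi_phi, Phi, ← integral_comp_neg_Ioi]
  simp [phi_neg]

lemma Phi_zero : Phi 0 = 1 / 2 := by
  have := Phi_neg 0
  simp at this; linarith

lemma exists_Phi_eq {p : ℝ} (h0 : 0 < p) (h1 : p < 1) : ∃ a, Phi a = p := by
  obtain ⟨a, ha⟩ := (tendsto_Phi_atBot.eventually (gt_mem_nhds h0)).exists
  obtain ⟨b, hb⟩ := (tendsto_Phi_atTop.eventually (lt_mem_nhds h1)).exists
  exact intermediate_value_univ a b continuous_Phi ⟨ha.le, hb.le⟩

lemma Phi_PhiInv {p : ℝ} (h0 : 0 < p) (h1 : p < 1) : Phi (PhiInv p) = p :=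
  Function.invFun_eq (exists_Phi_eq h0 h1)

lemma PhiInv_Phi (x : ℝ) : PhiInv (Phi x) = x :=
  Function.leftInverse_invFun strictMono_Phi.injective x

lemma le_PhiInv_iff {p x : ℝ} (h0 : 0 < p) (h1 : p < 1) : x ≤ PhiInv p ↔ Phi x ≤ p := by
  rw [← strictMono_Phi.le_iff_le, Phi_PhiInv h0 h1]

lemma PhiInv_le_iff {p x : ℝ} (h0 : 0 < p) (h1 : p < 1) : PhiInv p ≤ x ↔ p ≤ Phi x := by
  rw [← strictMono_Phi.le_iff_le, Phi_PhiInv h0 h1]

lemma continuousAt_PhiInv {p : ℝ} (h0 : 0 < p) (h1 : p < 1) : ContinuousAt PhiInv p := by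
  rw [ContinuousAt, tendsto_order]
  constructor
  · intro x hx
    have : Phi x < p := by
      rw [← Phi_PhiInv h0 h1]; exact strictMono_Phi hx
    filter_upwards [lt_mem_nhds this, gt_mem_nhds h1] with q hq hq1
    have hq0 : 0 < q := (Phi_pos x).trans hq
    rw [← strictMono_Phi.lt_iff_lt, Phi_PhiInv hq0 hq1]; exact hq
  · intro x hx
    have : p < Phi x := by
      rw [← Phi_PhiInv h0 h1]; exact strictMono_Phi hx
    filter_upwards [gt_mem_nhds this, lt_mem_nhds h0] with q hq hq0
    have hq1 : q < 1 := hq.trans (Phi_lt_one x)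
    rw [← strictMono_Phi.lt_iff_lt, Phi_PhiInv hq0 hq1]; exact hq

lemma hasDerivAt_PhiInv {p : ℝ} (h0 : 0 < p) (h1 : p < 1) :
    HasDerivAt PhiInv (phi (PhiInv p))⁻¹ p := by
  refine HasDerivAt.of_local_left_inverse (continuousAt_PhiInv h0 h1) (hasDerivAt_Phi _)
    (phi_pos _).ne' ?_
  filter_upwards [lt_mem_nhds h0, gt_mem_nhds h1] with q hq0 hq1
  exact Phi_PhiInv hq0 hq1

lemma hasDerivAt_Psi (x : ℝ) : HasDerivAt Psi (Phi x) x := by
  have := ((hasDerivAt_id' x).fun_mul (hasDerivAt_Phi x)).fun_add (hasDerivAt_phi x)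
  refine this.congr_deriv ?_
  ring

@[fun_prop] lemma continuous_Psi : Continuous Psi :=
  continuous_iff_continuousAt.2 fun x => (hasDerivAt_Psi x).continuousAt

@[fun_prop] lemma measurable_Psi : Measurable Psi := continuous_Psi.measurable

lemma integral_Ioi_mul_phi (c : ℝ) : ∫ t in Ioi c, t * phi t = phi c := by
  have h := integral_Ioi_of_hasDerivAt_of_tendsto' (f := fun t => -phi t)
    (f' := fun t => t * phi t) (a := c) (m := 0)
    (fun t _ => by simpa using (hasDerivAt_phi t).fun_neg) integrable_mul_phi.integrableOn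
    (by simpa using tendsto_phi_atTop.neg)
  simpa using h

/-- `P(N ≥ -u) = Phi u`, as the integral of an indicator. -/
lemma integral_indicator_gam (u : ℝ) :
    ∫ n, (if 0 ≤ n + u then (1 : ℝ) else 0) ∂gam = Phi u := by
  rw [integral_gam]
  have : (fun n => phi n * (if 0 ≤ n + u then (1 : ℝ) else 0)) = (Ici (-u)).indicator phi := by
    funext n
    by_cases h : 0 ≤ n + u
    · have : n ∈ Ici (-u) := by simp; linarith
      simp [h, this]
    · have : n ∉ Ici (-u) := by simp; linarith
      simp [h, this]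
  rw [this, integral_indicator measurableSet_Ici, integral_Ici_eq_integral_Ioi, integral_Ioi_phi,
    Phi_neg]
  ring

/-- `E[N; N ≥ -u] = phi u`. -/
lemma integral_id_indicator_gam (u : ℝ) :
    ∫ n, (if 0 ≤ n + u then n else 0) ∂gam = phi u := by
  rw [integral_gam]
  have : (fun n => phi n * (if 0 ≤ n + u then n else 0))
      = (Ici (-u)).indicator (fun t => t * phi t) := by
    funext n
    by_cases h : 0 ≤ n + u
    · have : n ∈ Ici (-u) := by simp; linarith
      simp [h, this, mul_comm]
    · have : n ∉ Ici (-u) := by simp; linarith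
      simp [h, this]
  rw [this, integral_indicator measurableSet_Ici, integral_Ici_eq_integral_Ioi,
    integral_Ioi_mul_phi, phi_neg]

/-- `E (N + u)₊ = Psi u`. -/
lemma integral_posPart_gam (u : ℝ) : ∫ n, max (n + u) 0 ∂gam = Psi u := by
  rw [integral_gam]
  have : (fun n => phi n * max (n + u) 0)
      = (Ici (-u)).indicator (fun t => t * phi t + u * phi t) := by
    funext n
    by_cases h : 0 ≤ n + u
    · have : n ∈ Ici (-u) := by simp; linarith
      simp [h, this]; ring
    · have : n ∉ Ici (-u) := by simp; linarith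
      simp [this, max_eq_right (le_of_lt (not_le.1 h))]
  rw [this, integral_indicator measurableSet_Ici, integral_Ici_eq_integral_Ioi,
    integral_add integrable_mul_phi.integrableOn (integrable_phi.const_mul u).integrableOn,
    integral_Ioi_mul_phi, integral_const_mul, integral_Ioi_phi, Phi_neg, phi_neg, Psi]
  ring

lemma Psi_nonneg (x : ℝ) : 0 ≤ Psi x := by
  rw [← integral_posPart_gam]; exact integral_nonneg fun _ => le_max_right _ _

lemma strictMono_Psi : StrictMono Psi :=
  strictMono_of_deriv_pos fun x => by rw [(hasDerivAt_Psi x).deriv]; exact Phi_pos x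

lemma Psi_pos (x : ℝ) : 0 < Psi x :=
  (Psi_nonneg (x - 1)).trans_lt (strictMono_Psi (by linarith))

lemma Psi_le_phi {x : ℝ} (hx : x ≤ 0) : Psi x ≤ phi x := by
  have := mul_nonpos_of_nonpos_of_nonneg hx (Phi_nonneg x)
  unfold Psi; linarith

lemma tendsto_Psi_atBot : Tendsto Psi atBot (𝓝 0) := by
  refine squeeze_zero' (Eventually.of_forall Psi_nonneg) ?_ tendsto_phi_atBot
  filter_upwards [eventually_le_atBot 0] with x hx using Psi_le_phi hx

lemma Psi_le (x : ℝ) : Psi x ≤ |x| + 1 := by
  have h1 : x * Phi x ≤ |x| := by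
    calc x * Phi x ≤ |x| * Phi x := mul_le_mul_of_nonneg_right (le_abs_self x) (Phi_nonneg x)
      _ ≤ |x| * 1 := mul_le_mul_of_nonneg_left (Phi_le_one x) (abs_nonneg x)
      _ = |x| := mul_one _
  have h2 : phi x ≤ 1 := by
    refine (phi_le x).trans ?_
    rw [phi_zero]
    apply inv_le_one_of_one_le₀
    rw [Real.one_le_sqrt]
    nlinarith [Real.pi_gt_three]
  unfold Psi; linarith

end Crest.Agent.R215
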