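import Crest.Agent.R215.BB5

/-! Certificate for at least five cells. -/

set_option autoImplicit false
set_option maxRecDepth 100000

namespace Crest.Agent.R215

def t5_0 : Tr := (.N2 (.N1 (.N3 (.N0 .Z (.N2 (.N4 (.N3 (.N2 (.N1 .Z (.N3 (.N0 .Z (.N4 .Z .A)) (.N0
  .Z (.N4 .Z .A)))) (.N1 .Z (.N3 (.N0 .Z (.N4 .Z .A)) (.N0 .Z .A)))) (.N2 .Z (.N1 .Z (.N0 .Z .A))))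
  (.N3 (.N2 (.N1 .A .A) (.N1 .A .A)) (.N2 .Z (.N1 .A .A)))) (.N4 (.N3 (.N1 .Z (.N3 (.N0 .Z (.N4 .A
  .A)) (.N0 .Z .A))) (.N1 .Z (.N0 .Z .A))) (.N3 (.N1 .A .A) (.N1 .A .A))))) (.N0 .Z (.N2 .Z (.N4 (.N1
  (.N0 .Z (.N4 .Z .A)) (.N0 .Z .A)) (.N1 (.N0 .Z .A) .A))))) (.N3 (.N0 .Z (.N2 (.N4 (.N3 (.N2 (.N1
  (.N3 (.N0 .Z (.N4 .B .A)) (.N0 .Z (.N4 (.N2 .Z (.N1 .A (.N0 .Z .A))) .A))) (.N3 .B (.N0 .Z (.N4 .B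
  .A)))) (.N1 (.N3 (.N0 .Z (.N4 .B .A)) (.N0 .Z (.N4 (.N1 .A (.N0 .Z .A)) .A))) (.N3 .B (.N0 .Z (.N4
  .B .A))))) (.N2 .Z (.N1 (.N0 .Z (.N4 (.N1 .A (.N0 .Z .A)) .A)) (.N0 .Z (.N4 (.N1 (.N0 .A .A) (.N0
  (.N3 (.N4 .C .A) .Z) .A)) .A))))) (.N3 .A .A)) (.N4 (.N3 (.N1 (.N3 (.N0 .Z (.N4 .B .A)) (.N0 .Z (.N4
  (.N1 .A (.N0 .Z .A)) .A))) (.N3 .B (.N0 .Z (.N4 .B .A)))) (.N1 (.N0 .Z (.N4 (.N1 .A .A) .A)) (.N0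
  (.N4 .Z .A) (.N4 (.N1 (.N0 .A .A) (.N0 (.N2 (.N3 .A .A) .A) .A)) .A)))) .A))) (.N0 .Z (.N2 .Z (.N4
  (.N1 (.N0 .Z (.N4 (.N3 .A .Z) .A)) (.N0 (.N4 (.N3 .Z .Z) .A) (.N4 (.N3 (.N1 .A (.N0 .A .A)) .Z)
  .A))) .A))))) (.N1 (.N3 (.N0 .Z (.N4 (.N3 (.N1 .Z (.N3 (.N0 .Z (.N4 (.N3 (.N2 .A .A) .A) .A)) (.N0
  .Z (.N4 .A .A)))) (.N1 (.N0 .Z (.N4 .Z .A)) (.N0 .Z (.N4 .A .A)))) (.N3 .A (.N1 .A .A)))) (.N0 .Z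
  (.N4 (.N1 (.N0 .Z (.N4 .A .A)) (.N0 .Z .A)) (.N1 (.N0 .Z .A) .A)))) (.N3 (.N0 .Z (.N4 (.N3 (.N1 (.N3
  (.N0 .Z (.N4 .B .A)) (.N0 .Z (.N4 (.N2 (.N1 .A .A) .A) .A))) (.N3 .B (.N0 (.N4 .Z .A) (.N4 (.N2 .B
  .B) .A)))) (.N1 (.N0 .Z (.N4 (.N2 .A .A) .A)) (.N0 (.N4 (.N2 .Z (.N1 .Z (.N0 .Z .A))) .A) (.N4 (.N2
  (.N1 .A (.N0 .A .A)) (.N1 .A (.N0 .A .A))) .A)))) .A)) (.N0 .Z (.N4 (.N1 (.N0 .Z (.N4 .A .A)) (.N0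
  (.N4 (.N2 (.N3 .A .A) .A) .A) (.N4 (.N2 (.N3 .A .A) .A) .A))) .A)))))

def t5_1 : Tr := (.N3 (.N0 .Z (.N2 (.N4 (.N3 t5_0 (.N2 .Z (.N1 (.N0 .Z (.N4 (.N1 (.N0 .Z (.N3 (.N4
  (.N2 .Z .A) (.N2 .Z .A)) .Z)) (.N0 .Z .A)) (.N1 (.N0 .Z (.N3 (.N4 .A .A) .Z)) (.N0 .A .A)))) (.N0 .Z
  (.N4 (.N1 (.N0 (.N3 .A .Z) .A) (.N0 (.N3 (.N4 .A .A) .Z) .A)) .A))))) (.N3 (.N2 (.N1 (.N3 (.N0 .Z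
  (.N2 (.N4 (.N3 .A .A) .A) .A)) (.N0 .Z (.N2 .Z (.N4 (.N1 .A .A) .A)))) (.N3 .A .A)) (.N1 (.N3 .A .A)
  .A)) (.N2 .Z (.N1 (.N0 .Z (.N4 (.N1 (.N0 .Z .A) .A) .A)) .A)))) (.N4 (.N3 (.N1 (.N3 (.N0 .Z (.N4
  (.N3 (.N1 (.N3 (.N0 .Z (.N2 (.N4 .Z .A) .Z)) (.N0 .Z (.N2 (.N4 .Z .A) .Z))) (.N3 (.N0 .Z (.N2 (.N4
  (.N3 (.N1 .A .A) .A) .A) (.N4 (.N3 (.N1 .A .A) .A) .A))) (.N0 .Z (.N2 (.N4 .A .A) (.N4 .A .A)))))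
  (.N1 (.N0 .Z (.N2 (.N4 .A .A) .Z)) (.N0 .Z (.N2 .A .A)))) (.N3 .A (.N1 (.N0 .Z .A) .A)))) (.N0 .Z
  (.N4 (.N1 (.N0 .Z (.N2 (.N4 (.N3 .A (.N1 .Z .A)) .A) .Z)) (.N0 .Z .A)) (.N1 (.N0 .Z .A) .A)))) (.N3
  (.N0 .Z (.N4 (.N3 (.N1 (.N3 (.N0 .Z (.N2 (.N4 .B .A) (.N4 .B .A))) (.N0 (.N2 .Z (.N4 .Z .A)) (.N2
  (.N4 .A .A) (.N4 .A .A)))) (.N3 .B (.N0 (.N2 (.N4 (.N1 .Z .B) .A) (.N4 (.N1 .A .B) .A)) (.N2 (.N4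
  (.N1 (.N2 .A .A) .B) .A) .A)))) (.N1 (.N0 (.N2 .Z .A) (.N2 (.N4 .A .A) .A)) (.N0 (.N2 (.N4 (.N1 .Z
  (.N2 .A .A)) .A) (.N4 (.N1 .A (.N0 .Z .A)) .A)) .A))) .A)) (.N0 .Z (.N4 (.N1 (.N0 (.N2 .A .A) .A)
  (.N0 (.N2 (.N4 .A .A) .A) .A)) .A)))) (.N1 (.N0 .Z (.N4 (.N1 (.N0 .Z (.N2 (.N3 (.N4 (.N1 .Z .A) (.N1
  .Z .A)) (.N4 (.N1 .Z .A) (.N1 .Z .A))) .Z)) (.N0 .A .A)) (.N1 (.N0 .Z (.N2 (.N3 .A (.N4 .A .A)) .Z))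
  .A))) (.N0 .A (.N4 (.N1 (.N0 (.N2 .A .A) .A) (.N0 .A .A)) .A)))) (.N3 (.N1 (.N3 .A .A) .A) (.N1 (.N0
  .Z (.N4 (.N1 (.N0 .A .A) .A) .A)) .A))))) (.N0 .Z (.N2 .Z (.N4 (.N1 (.N0 .Z (.N4 (.N3 (.N1 (.N0 .Z
  (.N2 .Z .Z)) (.N0 .A .A)) .Z) (.N3 (.N1 (.N0 (.N2 .Z .Z) (.N2 .Z .Z)) .A) .Z))) .A) (.N1 (.N0 (.N4
  (.N3 .Z .Z) .A) (.N4 (.N3 (.N1 (.N0 (.N2 .Z .Z) .A) .A) .Z) (.N3 .A .Z))) .A)))))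

def t5_2 : Tr := (.N1 (.N3 (.N0 (.N2 .Z (.N4 .Z .A)) (.N2 (.N4 (.N3 (.N2 (.N1 (.N3 .B (.N0 .B .B))
  .B) (.N1 (.N3 .B .B) .B)) (.N2 .Z (.N1 (.N0 (.N4 .C .A) (.N4 (.N1 (.N0 .C (.N3 .C .Z)) .C) .A)) (.N0
  (.N4 .C (.N1 (.N0 .A .A) (.N0 .A .A))) (.N4 .C .A))))) (.N3 .A .A)) (.N4 (.N3 (.N1 (.N3 .B .B) .B)
  (.N1 (.N0 (.N4 (.N1 (.N0 .Z (.N2 (.N3 .C (.N4 .Z .A)) (.N3 (.N4 .Z .A) .A))) (.N0 .Z (.N2 .C (.N3 .C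
  (.N4 .C .A))))) .A) (.N4 (.N1 (.N0 (.N2 (.N3 (.N4 .C .A) (.N4 .C .A)) (.N3 (.N4 .C .A) .A)) .A) (.N0
  (.N2 .C (.N3 .C (.N4 .C .A))) .A)) .A)) (.N0 (.N4 (.N1 (.N0 .Z (.N2 .C .C)) (.N0 (.N2 .C .C) (.N2 .C
  .C))) .A) (.N4 (.N1 (.N0 (.N2 .C .C) .A) (.N0 (.N2 .C .C) .A)) .A)))) .A))) (.N0 (.N2 .Z (.N4 .Z
  .A)) (.N2 .Z (.N4 (.N1 (.N0 (.N4 (.N3 (.N1 (.N0 .Z (.N2 .Z .A)) (.N0 .Z (.N2 .Z (.N4 .C .A)))) .Z)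
  (.N3 .A .Z)) (.N4 (.N3 (.N1 (.N0 (.N2 .Z .A) .A) (.N0 (.N2 .Z .A) .A)) .Z) .A)) (.N0 (.N4 (.N3 (.N1
  (.N0 (.N2 .Z (.N4 .Z .A)) (.N2 .Z (.N4 .C .A))) (.N0 (.N2 .Z .C) (.N2 .Z .C))) .Z) .A) (.N4 (.N3
  (.N1 (.N0 (.N2 .Z .A) .A) (.N0 (.N2 .Z .C) .A)) .Z) .A))) .A)))) (.N3 (.N0 (.N2 (.N4 (.N3 .B (.N2 .Z
  .C)) (.N3 .A .A)) (.N4 (.N3 .B (.N1 (.N0 .Z (.N4 (.N1 .Z (.N0 .Z (.N2 .Z .C))) .A)) (.N0 .Z (.N4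
  (.N1 (.N0 .Z (.N2 .C .C)) (.N0 .Z (.N2 .C .C))) .A)))) .A)) (.N2 (.N4 (.N3 .B (.N2 .Z (.N1 (.N0 .C
  (.N4 .C .A)) (.N0 .C (.N4 .C .A))))) (.N3 .A .A)) (.N4 (.N3 .B (.N1 (.N0 (.N4 (.N1 (.N0 (.N2 .C .C)
  (.N2 .C .C)) (.N0 (.N2 .C .C) (.N2 .C .C))) .A) (.N4 (.N1 (.N0 (.N2 .C .C) .A) (.N0 (.N2 .C .C) .A))
  .A)) (.N0 (.N4 (.N1 (.N0 (.N2 .C .C) (.N2 .C .C)) (.N0 (.N2 .C .C) .Z)) .A) (.N4 (.N1 (.N0 (.N2 .C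
  .C) .Z) .Z) .Z)))) .A))) (.N0 (.N2 .Z (.N4 (.N1 (.N0 .Z (.N4 (.N3 (.N1 .Z (.N0 .Z (.N2 .Z .C))) .Z)
  .A)) (.N0 .Z (.N4 (.N3 (.N1 (.N0 .Z (.N2 .Z .C)) (.N0 .Z (.N2 .Z .C))) .Z) .A))) .A)) (.N2 .Z (.N4
  (.N1 (.N0 (.N4 (.N3 (.N1 (.N0 (.N2 .Z .C) (.N2 .Z .C)) (.N0 (.N2 .Z .C) (.N2 .Z .C))) .Z) .A) (.N4
  (.N3 (.N1 (.N0 (.N2 .Z .C) .A) (.N0 (.N2 .Z .C) .A)) .Z) .A)) (.N0 (.N4 (.N3 (.N1 (.N0 (.N2 .Z .C)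
  (.N2 .Z .C)) (.N0 (.N2 .Z .C) .Z)) .Z) .A) (.N4 (.N3 (.N1 .A .Z) .Z) .Z))) .A)))))

def t5_3 : Tr := (.N3 (.N0 (.N4 .Z .A) (.N4 (.N3 (.N1 (.N3 .B (.N0 .B .B)) .B) (.N1 (.N0 (.N4 (.N2
  (.N1 (.N0 .Z (.N3 (.N4 .A .A) .A)) (.N0 .Z (.N3 .B (.N4 (.N2 (.N1 .A (.N0 .Z .A)) .A) .A)))) (.N1
  (.N0 .Z .A) (.N0 .Z (.N3 .B (.N4 .A .A))))) .A) (.N4 (.N2 (.N1 (.N0 (.N3 .A .A) .A) (.N0 (.N3 .B .A)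
  .A)) .A) .A)) (.N0 (.N4 (.N2 (.N1 (.N0 (.N3 .Z (.N4 .Z .A)) (.N3 .B (.N4 (.N2 .C (.N1 (.N0 .A .A)
  (.N0 (.N4 .A .A) (.N4 (.N3 .A .A) .A)))) .A))) (.N0 (.N3 .B (.N4 (.N2 .C (.N1 (.N0 .Z (.N4 (.N3 .C
  (.N2 .Z .C)) .A)) (.N0 .Z (.N4 .C .A)))) .A)) (.N3 .B (.N4 (.N2 .C (.N1 (.N0 (.N4 (.N3 .C (.N2 .C
  .C)) .A) (.N4 (.N3 .C .A) .A)) (.N0 (.N4 .C .A) .A))) .A)))) (.N1 (.N0 (.N3 .B (.N4 (.N2 .Z .A) .A))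
  (.N3 .B (.N4 (.N2 (.N1 (.N0 .A .A) (.N0 .A .A)) (.N1 .A .A)) .A))) (.N0 (.N3 .B (.N4 (.N2 (.N1 (.N0
  .Z (.N4 (.N3 .B .A) .A)) (.N0 .Z (.N4 (.N3 .B (.N2 .C .C)) .A))) (.N1 (.N0 .Z (.N4 .A .A)) (.N0 .Z
  (.N4 (.N3 .B (.N2 (.N1 .A .A) .A)) .A)))) .A)) (.N3 .B (.N4 (.N2 (.N1 (.N0 (.N4 (.N3 .B .A) .A) .A)
  (.N0 (.N4 (.N3 .B .A) .A) .A)) .A) .A))))) .A) (.N4 (.N2 (.N1 (.N0 (.N3 .B .A) .A) (.N0 (.N3 .B .A)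
  .A)) .A) .A)))) .A)) (.N0 (.N4 (.N1 .Z (.N0 .Z (.N4 .Z .A))) .A) (.N4 (.N1 (.N0 (.N4 (.N2 (.N3 (.N1
  (.N0 .Z .A) (.N0 .Z (.N4 .A .A))) (.N1 (.N0 .Z .A) (.N0 .Z .A))) (.N3 (.N1 (.N0 .Z .A) (.N0 .Z .A))
  (.N1 .A (.N0 .A .A)))) .A) .A) (.N0 (.N4 (.N2 (.N3 (.N1 (.N0 (.N4 (.N2 .Z (.N3 .Z .A)) .A) (.N4 (.N2
  (.N3 (.N1 (.N0 .A .A) .C) (.N1 .A (.N0 .A .A))) (.N3 (.N1 .A (.N0 .A .A)) .A)) .A)) (.N0 (.N4 (.N2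
  .C (.N3 (.N1 (.N0 .Z (.N4 .A .A)) (.N0 .Z (.N4 (.N2 .C .C) .A))) (.N1 (.N0 .Z .A) (.N0 .Z (.N4 (.N2
  .C .C) .A))))) .A) (.N4 (.N2 (.N3 .C (.N1 (.N0 .C .A) .C)) (.N3 (.N1 (.N0 (.N4 .A .A) .A) (.N0 (.N4
  (.N2 .C .C) .A) .A)) .A)) .A))) (.N1 (.N0 (.N4 (.N2 .A .A) .A) .A) (.N0 (.N4 (.N2 (.N3 (.N1 (.N0 .Z
  .A) .C) .Z) (.N3 (.N1 (.N0 .Z .A) (.N0 .Z .A)) .A)) .A) .A))) (.N3 (.N1 (.N0 (.N4 (.N3 .A .A) .A)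
  .A) (.N0 (.N4 (.N3 (.N2 (.N1 (.N0 .Z .A) (.N0 .Z (.N4 (.N3 (.N2 .C .A) (.N2 .C .A)) .A))) (.N1 (.N0
  .Z .A) (.N0 .Z .A))) (.N2 (.N1 .A (.N0 .Z .A)) .A)) .A) .A)) (.N1 (.N0 .A .A) (.N0 .A .A)))) .A)
  .A)) .A)))

def t5_4 : Tr := (.N0 (.N4 (.N3 .B (.N1 (.N0 .Z (.N4 (.N2 (.N1 .Z (.N0 .Z (.N3 .B (.N4 (.N2 .Z .C)
  .A)))) (.N1 .Z (.N0 .Z (.N3 .B (.N4 (.N2 (.N1 .Z (.N0 .Z (.N4 .B .A))) (.N1 .Z (.N0 .Z (.N4 .B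
  .A)))) .A))))) .A)) (.N0 .Z (.N4 (.N2 (.N1 (.N0 .Z (.N3 .B (.N4 (.N2 .C .C) .A))) (.N0 .Z (.N3 .B
  (.N4 .B .A)))) (.N1 (.N0 .Z (.N3 .B (.N4 (.N2 .B .B) .A))) (.N0 .Z (.N3 .B (.N4 .B .A))))) .A))))
  .A) (.N4 (.N3 .B (.N1 (.N0 (.N4 (.N2 (.N1 (.N0 (.N3 .B (.N4 (.N2 .C .C) .A)) (.N3 .B (.N4 (.N2 .C
  (.N1 (.N0 (.N4 .C .A) .A) (.N0 .C .A))) .A))) (.N0 (.N3 .B (.N4 (.N2 .C .C) .A)) (.N3 .B (.N4 (.N2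
  .C .C) .A)))) (.N1 (.N0 (.N3 .B (.N4 (.N2 (.N1 (.N0 (.N4 .Z .A) (.N4 (.N3 .B (.N2 .C .C)) .A)) (.N0
  (.N4 (.N3 .B (.N2 .C .C)) .A) (.N4 (.N3 .B (.N2 .C .C)) .A))) (.N1 (.N0 (.N4 (.N3 .B (.N2 (.N1 .Z
  (.N0 .Z (.N4 .Z .A))) (.N1 .Z (.N0 .Z (.N4 .A .A))))) .A) (.N4 (.N3 .B (.N2 (.N1 (.N0 .A .A) (.N0
  (.N4 .B .A) .A)) (.N1 .A (.N0 .A .A)))) .A)) (.N0 (.N4 (.N3 .B (.N2 (.N1 (.N0 .Z (.N4 .B .A)) .B)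
  (.N1 (.N0 .Z (.N4 .B .A)) .B))) .A) (.N4 (.N3 .B (.N2 (.N1 (.N0 .B .A) .B) (.N1 .A .A))) .A)))) .A))
  (.N3 .B (.N4 (.N2 (.N1 (.N0 (.N4 (.N3 .B .A) .A) .A) (.N0 (.N4 (.N3 .B .A) .A) .A)) .A) .A))) (.N0
  (.N3 .B (.N4 (.N2 (.N1 (.N0 (.N4 .B .A) (.N4 .B .A)) (.N0 (.N4 .B .A) (.N4 .B .A))) (.N1 (.N0 (.N4
  .B .A) (.N4 .B .A)) (.N0 (.N4 .B .A) (.N4 .B .A)))) .A)) (.N3 .B (.N4 (.N2 (.N1 (.N0 (.N4 .B .A) .A)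
  (.N0 (.N4 .B .A) .A)) .A) .A))))) .A) (.N4 (.N2 (.N1 (.N0 (.N3 .B .A) .A) .A) .A) .A)) (.N0 (.N4
  (.N2 (.N1 (.N0 (.N3 .B (.N4 (.N2 .C .C) .A)) (.N3 .B (.N4 (.N2 .C .C) .A))) (.N0 (.N3 .B (.N4 (.N2
  .C .C) .A)) .Z)) (.N1 (.N0 (.N3 .B (.N4 (.N2 (.N1 (.N0 (.N4 .C .A) (.N4 .B .A)) (.N0 .B (.N4 .C
  .A))) (.N1 (.N0 (.N4 .B .A) (.N4 .B .A)) (.N0 .B (.N4 .B .A)))) .A)) (.N3 .B (.N4 (.N2 (.N1 (.N0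
  (.N4 .B .A) .A) (.N0 (.N4 .B .Z) .Z)) .A) .A))) (.N0 (.N3 .B (.N4 (.N2 (.N1 (.N0 .B .Z) .Z) (.N1
  (.N0 .B .Z) .Z)) .A)) .Z))) .A) (.N4 (.N2 (.N1 .A .Z) .Z) .Z)))) .A))

def t5_5 : Tr := (.N1 (.N0 (.N4 (.N2 (.N3 (.N1 (.N0 (.N4 (.N2 .C (.N3 (.N1 (.N0 (.N4 .Z .A) (.N4 .C
  .A)) (.N0 (.N4 .C .A) (.N4 .C .A))) (.N1 (.N0 (.N4 (.N2 .Z .C) .A) (.N4 (.N2 .C .C) .A)) (.N0 (.N4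
  .C .A) (.N4 (.N2 .C .C) .A))))) .A) (.N4 (.N2 .C (.N3 (.N1 (.N0 (.N4 .C .A) .A) (.N0 (.N4 .C .A)
  .A)) .A)) .A)) (.N0 (.N4 (.N2 .C (.N3 .C (.N1 (.N0 (.N4 .C .A) (.N4 .C .A)) (.N0 (.N4 .C .A) (.N4 .C
  .A))))) .A) (.N4 (.N2 .C (.N3 (.N1 (.N0 (.N4 .C .A) .A) .A) .A)) .A))) (.N1 (.N0 (.N4 (.N2 (.N3 .C
  .Z) (.N3 (.N1 (.N0 (.N4 (.N2 .C .C) .A) .A) (.N0 (.N4 (.N2 .C .C) .A) .A)) .A)) .A) .A) (.N0 (.N4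
  (.N2 .C (.N3 (.N1 (.N0 (.N4 (.N2 .C .C) .A) .A) (.N0 (.N4 .C .A) .A)) (.N1 .A .A))) .A) .A))) (.N3
  (.N1 (.N0 (.N4 (.N3 (.N2 (.N1 (.N0 (.N4 (.N3 (.N2 .Z .C) (.N2 .Z .A)) .A) (.N4 (.N3 (.N2 .C .C) (.N2
  .C .A)) .A)) (.N0 (.N4 (.N3 (.N2 .C .C) (.N2 .C .C)) .A) (.N4 (.N3 (.N2 .C .C) (.N2 .C .C)) .A)))
  (.N1 (.N0 (.N4 (.N3 (.N2 .A .A) .A) .A) .A) (.N0 (.N4 (.N3 (.N2 (.N1 (.N0 .Z (.N4 (.N3 (.N2 .C .C)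
  .A) .A)) (.N0 .Z (.N4 (.N3 (.N2 .C .C) .A) .A))) .A) .A) .A) .A))) (.N2 (.N1 (.N0 (.N4 (.N2 .C .A)
  .A) .A) (.N0 (.N4 (.N2 .C .A) .A) .A)) .A)) .A) .A) (.N0 (.N4 (.N3 (.N2 (.N1 (.N0 (.N4 (.N3 (.N2 .C
  .C) (.N2 .C .C)) .A) (.N4 (.N3 (.N2 .C .C) (.N2 .C .C)) .A)) (.N0 (.N4 (.N3 (.N2 .C .C) (.N2 .C .C))
  .A) (.N4 (.N3 (.N2 .C .C) (.N2 .C .C)) .A))) (.N1 (.N0 (.N4 (.N3 (.N2 (.N1 (.N0 (.N4 (.N3 .C .A) .A)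
  (.N4 (.N3 .C (.N2 .C .C)) .A)) (.N0 (.N4 .C .A) (.N4 .C .A))) (.N1 .A (.N0 .A .A))) .A) .A) .A) (.N0
  (.N4 (.N3 (.N2 (.N1 (.N0 (.N4 .C .A) (.N4 .C .A)) .C) (.N1 .A .A)) .A) .A) .A))) (.N2 (.N1 (.N0 (.N4
  (.N2 .C .C) .A) .A) (.N0 (.N4 (.N2 .C .C) .A) .A)) .A)) .A) .A)) (.N1 (.N0 .A .A) (.N0 .A .A)))) .A)
  .A) (.N0 (.N4 (.N2 (.N3 (.N1 (.N0 (.N4 (.N2 .C (.N3 .C (.N1 (.N0 .C (.N4 .C .A)) .C))) .A) (.N4 (.N2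
  .C .A) .A)) (.N0 (.N4 (.N2 .C .C) .A) .Z)) (.N1 (.N0 (.N4 (.N2 .C (.N3 (.N1 (.N0 (.N4 .C .A) .A)
  (.N0 (.N4 .C .A) .A)) .A)) .A) .A) (.N0 (.N4 (.N2 .C (.N3 (.N1 (.N0 (.N4 .C .Z) .Z) .Z) .A)) .Z)
  .Z))) (.N3 (.N1 (.N0 (.N4 (.N3 (.N2 (.N1 (.N0 (.N4 (.N3 (.N2 .C .C) (.N2 .C .C)) .A) (.N4 (.N3 (.N2
  .C .C) .A) .A)) (.N0 (.N4 (.N3 (.N2 .C .C) (.N2 .C .C)) .A) (.N4 (.N3 (.N2 .C .C) .A) .A))) (.N1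
  (.N0 (.N4 (.N3 (.N2 .C .A) .A) .A) .A) (.N0 (.N4 (.N3 (.N2 .C .A) .A) .A) .A))) (.N2 (.N1 (.N0 (.N4
  (.N2 .C .C) .A) .A) (.N0 (.N4 (.N2 .C .C) .A) .A)) .A)) .A) .A) (.N0 (.N4 (.N3 (.N2 (.N1 (.N0 (.N4
  (.N3 .C (.N2 .C .C)) .A) .Z) .Z) (.N1 (.N0 (.N4 (.N3 (.N2 .C .Z) .A) .Z) .Z) .Z)) (.N2 (.N1 (.N0
  (.N4 (.N2 .C .C) .Z) .Z) .Z) .Z)) .Z) .Z)) (.N1 .A .Z))) .A) .Z))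

def t5_6 : Tr := (.N3 (.N0 (.N4 (.N3 .B (.N1 (.N0 .Z (.N2 (.N4 (.N1 (.N2 (.N0 .Z (.N3 .B (.N4 .Z
  .A))) (.N0 .Z (.N3 .B .A))) (.N2 (.N0 .Z (.N3 .B (.N4 (.N2 (.N1 (.N0 .Z (.N4 .Z .A)) (.N0 .Z (.N4 .B
  .A))) (.N1 (.N0 .Z (.N4 (.N3 .B .A) .A)) (.N0 .Z (.N4 .B .A)))) .A))) (.N0 .Z (.N3 .B .A)))) .A)
  .A)) (.N0 .Z (.N2 (.N4 (.N1 (.N2 (.N0 .Z (.N3 .B (.N4 (.N2 (.N1 (.N0 .Z (.N4 .B .A)) .B) (.N1 (.N0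
  .A (.N4 .B .A)) .B)) .A))) (.N0 .Z (.N3 .B .A))) (.N2 (.N0 .Z (.N3 .B (.N4 (.N2 .B (.N1 .B (.N0 .Z
  .Z))) .A))) (.N0 .Z (.N3 .B .A)))) .A) (.N4 (.N1 (.N0 .A (.N2 (.N3 .B .A) .A)) (.N0 .Z (.N2 (.N3 .B
  .A) .A))) .A))))) .A) (.N4 (.N3 (.N1 .B (.N3 .B (.N0 .B .Z))) (.N1 (.N0 (.N2 (.N4 (.N1 (.N2 (.N0
  (.N3 .B (.N4 (.N2 (.N1 (.N0 (.N4 (.N3 .B (.N2 (.N1 .Z (.N0 .Z (.N4 .A .A))) .A)) .A) (.N4 (.N3 .B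
  .A) .A)) (.N0 (.N4 (.N3 .B (.N2 (.N1 (.N0 .Z (.N4 .B .A)) .B) .A)) .A) (.N4 (.N3 .B .A) .A))) (.N1
  (.N0 (.N4 (.N3 .B .A) .A) .A) (.N0 (.N4 (.N3 .B .A) .A) .A))) .A)) (.N3 .B .A)) (.N0 (.N3 .B (.N4
  (.N1 (.N0 .A .A) (.N0 .A .A)) .A)) .A)) (.N2 (.N0 (.N3 .B (.N4 (.N2 (.N1 (.N0 (.N4 (.N3 .B .B) .A)
  (.N4 (.N3 .B .A) .A)) (.N0 (.N4 .B .A) (.N4 .B .A))) (.N1 (.N0 (.N4 (.N3 .B .A) .A) .A) (.N0 (.N4 .B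
  .A) .A))) .A)) (.N3 .B .A)) (.N0 (.N3 .B (.N4 (.N1 (.N0 .A .A) (.N0 .A .A)) .A)) .A))) .A) (.N4 (.N1
  (.N0 (.N2 (.N3 .B .A) .A) .A) (.N0 (.N2 (.N3 .B .A) .A) .A)) .A)) .A) (.N0 (.N2 (.N4 (.N1 (.N2 (.N0
  (.N3 .B (.N4 (.N2 (.N1 (.N0 (.N4 .B .A) (.N4 .B .A)) (.N0 (.N4 .B .A) (.N4 .B .A))) (.N1 (.N0 (.N4
  .B .A) .A) (.N0 (.N4 .B .A) .A))) .A)) (.N3 .B .A)) (.N0 (.N3 .B .A) .A)) (.N2 (.N0 (.N3 .B (.N4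
  (.N2 (.N1 (.N0 (.N4 .B .Z) .Z) .Z) .Z) .Z)) .Z) .Z)) .A) (.N4 (.N1 (.N0 (.N2 (.N3 .B .A) .A) .A) .Z)
  .A)) .Z))) .A)) (.N0 (.N4 (.N1 .A .A) .A) (.N4 (.N1 (.N0 (.N2 (.N4 (.N3 (.N1 (.N2 (.N0 (.N4 (.N3
  (.N2 (.N1 .A .A) .A) .A) .A) .A) .A) (.N2 (.N0 (.N4 (.N3 (.N2 (.N1 .A .A) .A) .A) .A) .A) .A)) .A)
  .A) .A) .A) (.N0 (.N2 (.N4 (.N3 (.N1 (.N2 (.N0 .A .A) .A) .Z) .A) .A) .A) .Z)) .A)))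

def t5_7 : Tr := (.N2 (.N4 (.N3 (.N2 t5_2 (.N1 t5_3 (.N3 t5_4 (.N0 (.N4 (.N1 (.N0 .Z (.N4 (.N2 (.N3
  (.N1 .Z (.N0 .Z (.N4 (.N2 .C (.N3 .C (.N1 .Z (.N0 .Z (.N4 .C .A))))) .A))) (.N1 (.N0 .Z (.N4 .Z .A))
  (.N0 .Z (.N4 (.N2 .C (.N3 (.N1 (.N0 .Z (.N4 .Z .A)) (.N0 .Z (.N4 .C .A))) .A)) .A)))) (.N3 (.N1 (.N0
  .Z (.N4 .Z .A)) (.N0 .Z (.N4 (.N3 (.N2 (.N1 .Z (.N0 .Z (.N4 (.N3 (.N2 .C .C) (.N2 .C .C)) .A))) .A)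
  .A) .A))) .A)) .A)) (.N0 .Z (.N4 (.N2 (.N3 (.N1 (.N0 .Z (.N4 (.N2 .C .C) .A)) (.N0 .Z (.N4 (.N2 .C
  .C) .A))) (.N1 (.N0 .Z (.N4 (.N2 .C (.N3 (.N1 (.N0 .Z (.N4 .C .A)) (.N0 .A (.N4 .C .A))) .A)) .A))
  (.N0 .Z (.N4 (.N2 .C (.N3 .C .A)) .A)))) (.N3 (.N1 (.N0 .Z (.N4 (.N3 (.N2 (.N1 (.N0 .Z (.N4 (.N3
  (.N2 .C .C) (.N2 .C .C)) .A)) (.N0 (.N4 .Z .A) (.N4 (.N3 .C (.N2 .C .C)) .A))) (.N1 (.N0 .Z (.N4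
  (.N3 (.N2 .C .A) .A) .A)) (.N0 .A (.N4 (.N3 (.N2 .C .A) .A) .A)))) (.N2 (.N1 (.N0 .Z (.N4 (.N2 .C
  .C) .A)) (.N0 .A (.N4 (.N2 .C .C) .A))) .A)) .A)) (.N0 .Z (.N4 (.N3 (.N2 (.N1 (.N0 (.N4 .C .A) (.N4
  (.N3 .C (.N2 .C .C)) .A)) (.N0 .Z .Z)) (.N1 (.N0 .A (.N4 (.N3 (.N2 .C .A) .A) .A)) (.N0 .Z .Z)))
  (.N2 (.N1 (.N0 .A (.N4 (.N2 .C .C) .A)) (.N0 .Z .Z)) .A)) .A))) .A)) .A))) .A) (.N4 t5_5 .A)))))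
  (.N2 .Z (.N1 (.N0 (.N4 (.N1 .Z .A) .A) (.N4 (.N1 (.N0 (.N3 (.N4 (.N2 .Z .A) .A) .Z) .A) (.N0 (.N3
  (.N4 (.N2 .Z .A) .A) .Z) .A)) .A)) (.N0 (.N4 (.N1 .A (.N0 .Z .A)) .A) (.N4 (.N1 (.N0 (.N3 (.N4 (.N2
  .Z .A) .A) .Z) .A) (.N0 (.N3 (.N4 (.N2 .Z .A) .A) .Z) .Z)) .A))))) (.N3 .A .A)) (.N4 (.N3 (.N1 (.N3
  (.N0 (.N4 (.N3 (.N1 .Z .B) (.N1 .Z (.N0 .Z (.N2 (.N4 .Z .A) .A)))) .A) (.N4 (.N3 (.N1 (.N3 .B (.N0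
  .B (.N2 .B .A))) (.N3 .B .B)) (.N1 (.N0 (.N2 (.N4 (.N1 (.N2 (.N0 .Z .A) (.N0 .Z .A)) (.N2 (.N0 .Z
  (.N3 .B .A)) (.N0 (.N3 .A .A) .A))) .A) (.N4 (.N1 (.N0 .A .A) (.N0 (.N2 .A .A) .A)) .A)) .A) (.N0
  (.N2 (.N4 (.N1 (.N2 (.N0 (.N3 .B (.N4 (.N2 .A .A) .A)) (.N3 .B .A)) (.N0 (.N3 .B (.N4 .A .A)) .A))
  (.N2 (.N0 (.N3 .B (.N4 (.N2 (.N1 (.N0 .Z (.N4 .A .A)) (.N0 .Z (.N4 (.N3 .B .A) .A))) (.N1 (.N0 .Z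
  .A) (.N0 (.N4 .Z .A) .A))) .A)) (.N3 .B .A)) (.N0 (.N3 .B (.N4 (.N1 (.N0 .A .A) (.N0 .A .A)) .A))
  .A))) .A) (.N4 (.N1 (.N0 (.N2 (.N3 .B .A) .A) .A) (.N0 (.N2 (.N3 .B .A) .A) .A)) .A)) .A))) .A))
  (.N0 .A (.N4 (.N1 (.N0 (.N2 (.N4 (.N3 (.N1 (.N2 .A .A) (.N2 (.N0 .A .A) .A)) .A) .A) .A) .A) (.N0
  (.N2 (.N4 (.N3 (.N1 (.N2 (.N0 .A .A) .A) (.N2 (.N0 .A .A) .A)) .A) .A) .A) .A)) .A))) t5_6) (.N1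
  (.N0 .A .A) (.N0 .A .A))) .A))

def t5_8 : Tr := (.N1 (.N3 (.N0 .Z (.N4 (.N3 (.N1 (.N3 (.N0 .Z (.N4 (.N3 (.N2 (.N1 .Z (.N3 (.N0 .Z
  (.N4 (.N2 (.N3 (.N1 .Z .B) .A) (.N3 (.N1 .Z .B) (.N1 .Z .A))) .A)) (.N0 .Z (.N4 (.N2 .A .A) .A))))
  .Z) (.N2 (.N1 .Z (.N0 .Z (.N4 .A .A))) .Z)) (.N3 .A (.N2 (.N1 .Z .A) .Z)))) (.N0 .Z (.N4 (.N2 (.N1
  .Z (.N0 .A .A)) .Z) (.N2 (.N1 .Z .A) .Z)))) (.N3 (.N0 (.N4 (.N3 .Z (.N2 .Z .A)) .A) (.N4 (.N3 (.N2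
  (.N1 (.N3 (.N0 (.N4 (.N2 .Z .B) .A) (.N4 (.N2 .B .B) .A)) (.N0 (.N4 (.N2 .A .A) .A) .A)) (.N3 .B
  (.N0 (.N4 (.N2 (.N1 .A .B) (.N1 (.N0 .Z .A) .B)) .A) .A))) (.N1 (.N3 (.N0 (.N4 (.N3 .B (.N2 .B .B))
  .A) (.N4 (.N3 .B .A) .A)) (.N0 (.N4 (.N2 (.N1 .A .A) (.N1 .Z (.N0 .Z .A))) .A) .A)) (.N3 (.N0 .B .A)
  (.N0 (.N4 (.N2 (.N1 (.N0 .Z .A) .B) .A) .A) .A)))) (.N2 (.N1 (.N0 (.N4 .A .A) .A) (.N0 (.N4 (.N2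
  (.N1 .A (.N0 .Z .A)) .A) .A) .A)) (.N1 (.N0 (.N4 (.N2 .A .A) .A) .A) (.N0 .A .A)))) .A)) (.N0 .A
  (.N4 (.N2 (.N1 (.N0 .A .A) .A) .A) .A)))) (.N1 (.N0 .Z (.N4 (.N2 (.N1 .Z (.N0 .A .A)) .Z) (.N2 (.N1
  .Z .A) .Z))) .A)) (.N3 (.N1 (.N3 .A .A) .A) (.N1 (.N0 .A (.N4 .A .A)) .A)))) (.N0 .Z (.N4 (.N1 (.N0
  (.N4 (.N2 .Z .Z) (.N2 (.N3 .Z (.N1 .Z .A)) .Z)) (.N4 (.N2 (.N3 (.N1 .Z .A) (.N1 .Z .A)) .Z) (.N2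
  (.N3 (.N1 .Z .A) (.N1 .Z .A)) .Z))) .A) (.N1 (.N0 (.N4 (.N2 (.N3 .A .A) .Z) .A) (.N4 (.N2 (.N3 (.N1
  .Z .A) (.N1 .Z .A)) .Z) .A)) .A)))) (.N3 (.N0 (.N4 (.N3 .Z (.N1 .Z .Z)) (.N3 .A .A)) (.N4 (.N3 (.N1
  (.N3 (.N0 (.N4 (.N3 (.N2 (.N1 (.N3 .B .B) .B) (.N1 (.N3 .B .A) .B)) .A) .A) (.N4 (.N3 (.N2 (.N1 (.N3
  .B (.N0 (.N4 .B .A) .A)) (.N3 .B (.N0 .B .A))) (.N1 (.N3 .B (.N0 .A .A)) (.N3 .B .A))) (.N2 (.N1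
  (.N0 (.N4 (.N2 (.N1 .A .A) .A) .A) .A) (.N0 .A .A)) .A)) .A)) (.N0 .A .A)) (.N3 (.N0 (.N4 (.N3 .B
  .A) .A) (.N4 (.N3 (.N2 (.N1 (.N3 .B (.N0 .B .A)) (.N3 .B (.N0 .B .Z))) (.N1 (.N3 .B .A) .Z)) (.N2
  (.N1 .A .A) .A)) .A)) .A)) .A) .A)) (.N0 (.N4 (.N1 .Z .Z) (.N1 (.N0 .Z .A) .Z)) .A)))

def t5_9 : Tr := (.N4 (.N3 (.N1 (.N3 (.N0 (.N4 .Z (.N3 (.N1 .Z .A) (.N1 .Z .A))) (.N4 (.N3 (.N1 .Z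
  (.N3 (.N0 (.N2 (.N4 (.N3 (.N1 (.N2 .Z .Z) (.N2 (.N3 .B .A) (.N3 .B .A))) .A) .A) .Z) (.N2 (.N4 (.N3
  (.N1 (.N2 (.N3 (.N0 (.N4 (.N3 .B (.N2 .B .Z)) .A) (.N4 (.N3 .B .A) .A)) (.N0 (.N4 (.N2 (.N1 .Z (.N0
  .A .A)) .Z) .A) .A)) .Z) (.N2 (.N3 (.N0 .B .A) (.N0 .A .A)) (.N3 (.N0 .B .A) .A))) (.N1 (.N2 (.N0 .A
  .A) .Z) .A)) .A) .Z)) (.N0 .A (.N2 .A .Z)))) (.N1 .Z .A)) (.N3 (.N1 .Z .A) (.N1 .Z .A)))) (.N0 (.N4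
  (.N1 .Z (.N0 .Z .A)) (.N1 .Z (.N0 .Z .A))) (.N4 (.N1 .Z .A) (.N1 .Z .A)))) (.N3 (.N0 (.N4 (.N3 (.N1
  (.N3 (.N0 .Z (.N2 .Z (.N4 .Z .A))) (.N0 .Z .A)) .Z) (.N1 (.N0 .Z .A) .Z)) (.N3 .A .A)) (.N4 (.N3
  (.N1 (.N3 (.N0 (.N2 (.N4 (.N3 (.N1 (.N2 (.N3 .B .A) (.N3 .B .A)) (.N2 .B .B)) .A) .A) (.N4 (.N3 (.N1
  (.N3 .B .A) (.N3 .B .A)) .A) .A)) (.N2 (.N4 (.N3 (.N1 (.N2 (.N3 .B .A) (.N3 (.N0 .B .A) .A)) (.N2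
  (.N3 .B .A) (.N3 (.N0 .B .A) .A))) .A) .A) (.N4 (.N3 (.N1 (.N3 (.N0 (.N2 .B .Z) .A) .A) (.N3 (.N0
  (.N2 .B (.N4 .B .A)) .A) .A)) .A) .A))) .A) (.N3 (.N0 (.N2 (.N4 (.N3 (.N1 .B (.N2 .B (.N3 .B .A)))
  .A) .A) (.N4 (.N3 (.N1 (.N3 .B .A) (.N3 (.N0 .Z .Z) .A)) .A) .A)) (.N2 (.N4 (.N3 (.N1 (.N2 (.N3 (.N0
  .B .Z) .A) (.N3 (.N0 .B .Z) .A)) .Z) .A) .A) .Z)) .A)) .A) .A)) (.N0 (.N4 (.N1 (.N0 .Z .A) .Z) .A)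
  .A))) (.N1 (.N0 (.N4 (.N3 (.N1 .Z (.N0 .Z .A)) (.N1 .Z (.N0 .Z .A))) (.N3 (.N1 .Z (.N0 .Z .A)) (.N1
  .Z (.N0 .Z .A)))) (.N4 (.N3 (.N1 .Z .A) (.N1 .Z .A)) (.N3 (.N1 .Z .A) (.N1 .Z .A)))) (.N0 (.N4 (.N3
  (.N1 (.N0 .Z .A) .Z) (.N1 (.N0 .Z .A) .Z)) .A) .A))) (.N3 (.N1 (.N3 (.N0 (.N4 (.N3 .A .A) .A) (.N4
  (.N3 .A .A) .A)) (.N0 (.N4 (.N1 .Z .A) (.N1 .Z .A)) (.N4 (.N1 .Z .A) (.N1 .Z .A)))) (.N3 .A .A))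
  (.N1 (.N0 (.N4 (.N3 (.N1 .Z .A) (.N1 .Z .A)) (.N3 (.N1 .Z .A) (.N1 .Z .A))) (.N4 (.N3 (.N1 .Z .A)
  (.N1 .Z .A)) (.N3 (.N1 .Z .A) (.N1 .Z .A)))) .A)))

def t5_10 : Tr := (.N4 (.N2 (.N4 (.N3 (.N2 (.N1 t5_1 (.N3 (.N0 (.N2 .Z (.N4 .Z (.N3 .Z (.N1 .Z
  .Z)))) t5_7) (.N0 (.N2 .Z (.N4 (.N1 .Z .Z) (.N1 .Z .Z))) (.N2 .Z .A)))) t5_8) (.N2 .Z (.N1 (.N0 (.N4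
  .Z (.N3 (.N1 .Z (.N0 .Z .A)) .Z)) (.N4 (.N3 (.N1 (.N0 (.N4 (.N2 .Z .Z) (.N2 .Z .Z)) (.N4 (.N2 .Z .Z)
  (.N2 .Z .Z))) .A) .Z) (.N3 (.N1 (.N0 (.N4 (.N2 .Z .Z) .A) (.N4 (.N2 .Z .Z) (.N2 .Z .Z))) .A) .Z)))
  (.N0 (.N4 (.N3 (.N1 (.N0 .Z .A) .Z) .Z) (.N3 (.N1 (.N0 .Z .A) .Z) .Z)) .A)))) (.N3 (.N2 (.N1 (.N3
  (.N0 .Z (.N2 (.N4 (.N3 .A (.N2 .Z .A)) (.N3 .A .A)) (.N4 (.N3 .A .A) .A))) (.N0 (.N2 .Z (.N4 .Z (.N1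
  .Z .A))) (.N2 .Z (.N4 (.N1 .A .A) (.N1 .A .A))))) (.N3 (.N0 (.N2 (.N4 (.N3 .A .A) .A) .A) .A) (.N0
  (.N2 .Z .A) .A))) (.N1 (.N3 (.N0 (.N4 .Z .A) (.N4 (.N3 .A .A) .A)) (.N0 (.N4 (.N1 .Z .A) (.N1 (.N0
  .Z .A) .A)) (.N4 (.N1 .A .A) (.N1 (.N0 .A (.N4 .A .A)) .A)))) (.N3 .A .A))) (.N2 .Z (.N1 (.N0 (.N4
  (.N3 (.N1 .Z .A) .Z) (.N3 (.N1 (.N0 .Z .A) .A) .Z)) (.N4 (.N3 (.N1 (.N0 .A (.N4 (.N2 .Z .Z) (.N2 .Z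
  .Z))) .A) .Z) (.N3 (.N1 (.N0 .A (.N4 (.N2 .Z .Z) (.N2 .Z .Z))) .A) .Z))) (.N0 .A .A))))) t5_9) (.N2
  (.N4 (.N3 (.N2 (.N1 (.N3 (.N0 .A .A) (.N0 (.N2 .Z .A) (.N2 .Z .A))) (.N3 .A .A)) (.N1 (.N3 .A (.N0
  (.N4 .A .A) .A)) .A)) (.N2 .Z (.N1 (.N0 (.N4 (.N3 (.N1 (.N0 .Z .A) .A) .Z) (.N3 (.N1 (.N0 .Z .A) .A)
  .Z)) (.N4 (.N3 (.N1 (.N0 (.N4 .A .A) (.N4 (.N2 .Z .Z) .A)) .A) .Z) (.N3 .A .Z))) .A))) (.N3 (.N2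
  (.N1 (.N3 .A (.N0 (.N2 .Z .A) .A)) .A) (.N1 (.N3 .A .A) .A)) (.N2 .Z (.N1 (.N0 (.N4 (.N3 (.N1 (.N0
  .A .A) .A) .Z) (.N3 (.N1 (.N0 .A .A) .A) .Z)) (.N4 (.N3 .A .Z) .A)) .A)))) (.N4 (.N3 (.N1 (.N3 .A
  (.N0 (.N4 (.N1 .Z .A) (.N1 .Z .A)) .A)) .A) (.N1 (.N0 (.N4 (.N3 (.N1 .Z .A) (.N1 .Z .A)) (.N3 (.N1
  .Z .A) (.N1 .Z .A))) (.N4 (.N3 (.N1 .Z .A) (.N1 .Z .A)) (.N3 .A (.N1 .Z .A)))) .A)) (.N3 (.N1 (.N3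
  .A .A) .A) (.N1 (.N0 (.N4 (.N3 (.N1 .Z .A) (.N1 .Z .A)) (.N3 .A (.N1 .Z .A))) .A) .A)))))

def tree5 : Tr := (.N4 t5_10 (.N4 (.N2 (.N4 (.N3 (.N2 (.N1 (.N3 .A .A) .A) .A) (.N2 .Z (.N1 (.N0 (.N4 (.N3 .A .Z) (.N3 .A .Z)) .A) .A))) (.N3 .A (.N2 .Z (.N1 (.N0 (.N4 (.N3 .A .Z) .A) .Z) .Z)))) (.N4 (.N3 .A (.N1 (.N0 (.N4 (.N3 .A (.N1 .Z .A)) (.N3 .A (.N1 .Z .Z))) .A) .Z)) (.N3 .A .A))) (.N2 (.N4 (.N3 .A (.N2 .Z .A)) (.N3 .A (.N2 .Z .Z))) (.N4 (.N3 .A .A) (.N3 .A .Z)))))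

theorem tree5_ok : check5 tree5 0 444445 0 333334 0 250000 0 200000 0 1000000 = true := by
  decide +kernel

theorem not_P5 {x y z a b w p1 p2 p3 p4 p5 r : ℝ} (P : P5 x y z a b w p1 p2 p3 p4 p5 r) : False := by
  have := P.sum
  have h1 := P.g1.level.le_four_ninths
  have := P.o1
  have := P.o2
  have := P.o3
  have := P.o4
  have := P.b0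
  have := P.w0
  refine check5_sound P tree5 ?_ ?_ ?_ ?_ ?_ tree5_ok <;>
    (constructor <;> push_cast <;> linarith)

end Crest.Agent.R215
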