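import Crest.Agent.R215.Gmax

/-! Structure of a minimal counterexample. -/

set_option autoImplicit false
set_option linter.unusedSectionVars false
open MeasureTheory ProbabilityTheory Set Filter Topology Real
open scoped NNReal RealInnerProductSpace

namespace Crest.Agent.R215

variable {E : Type*} [NormedAddCommGroup E] [InnerProductSpace ℝ E]
  [FiniteDimensional ℝ E] [MeasurableSpace E] [BorelSpace E]

variable (E) in
def Claim (n : ℕ) : Prop := ∀ z : Fin (n + 1) → E, Mz z ≤ lam0 * √(∑ i, ‖z i‖ ^ 2)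

def cell {ι : Type*} (z : ι → E) (j : ι) : Set E := {x | ∀ i, ⟪z i, x⟫ ≤ ⟪z j, x⟫}

lemma measurableSet_cell {ι : Type*} [Fintype ι] (z : ι → E) (j : ι) :
    MeasurableSet (cell z j) := by
  have : cell z j = ⋂ i, {x | ⟪z i, x⟫ ≤ ⟪z j, x⟫} := by ext x; simp [cell]
  rw [this]
  exact MeasurableSet.iInter fun i => measurableSet_le (Continuous.measurable (by fun_prop))
    (Continuous.measurable (by fun_prop))

structure Crit {n : ℕ} (z : Fin (n + 2) → E) (lam : ℝ) : Prop where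
  norm : ∑ i, ‖z i‖ ^ 2 = 1
  lam_gt : lam0 < lam
  Mz_eq : Mz z = lam
  sum_zero : ∑ i, z i = 0
  neg : ∀ i j, i ≠ j → ⟪z i, z j⟫ < 0
  uniq : ∀ᵐ x ∂stdGaussian E, ∃! i, x ∈ cell z i
  cent : ∀ j, ∫ x in cell z j, x ∂stdGaussian E = lam • z j
  anti : Antitone fun i => ‖z i‖

lemma exists_maximizer {n : ℕ} (hn : ¬Claim E n) :
    ∃ (z : Fin (n + 1) → E) (lam : ℝ), ∑ i, ‖z i‖ ^ 2 = 1 ∧ lam0 < lam ∧ Mz z = lam ∧
      (∀ w : Fin (n + 1) → E, Mz w ≤ lam * √(∑ i, ‖w i‖ ^ 2)) ∧ Antitone fun i => ‖z i‖ := by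
  have hnorm : ∀ w : Fin (n + 1) → E, (∑ i, ‖w i‖ ^ 2 = 0 ∧ Mz w = 0) ∨
      (0 < √(∑ i, ‖w i‖ ^ 2) ∧ ∃ u : Fin (n + 1) → E, ∑ i, ‖u i‖ ^ 2 = 1 ∧
        Mz w = √(∑ i, ‖w i‖ ^ 2) * Mz u) := by
    intro w
    have h0 : 0 ≤ ∑ i, ‖w i‖ ^ 2 := Finset.sum_nonneg fun i _ => sq_nonneg _
    rcases h0.eq_or_lt with h | h
    · left
      refine ⟨h.symm, ?_⟩
      have hw : w = (0 : ℝ) • w := by
        funext i
        have := (Finset.sum_eq_zero_iff_of_nonneg fun i _ => sq_nonneg ‖w i‖).1 h.symm i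
          (Finset.mem_univ i)
        simpa using this
      rw [hw, Mz_smul _ le_rfl, zero_mul]
    · right
      have hs := Real.sqrt_pos.2 h
      refine ⟨hs, (√(∑ i, ‖w i‖ ^ 2))⁻¹ • w, ?_, ?_⟩
      · simp only [Pi.smul_apply, norm_smul, mul_pow, norm_inv, Real.norm_eq_abs, inv_pow, sq_abs]
        rw [← Finset.mul_sum, Real.sq_sqrt h0, inv_mul_cancel₀ h.ne']
      · rw [Mz_smul _ (inv_pos.2 hs).le]; field_simp
  unfold Claim at hn
  push Not at hn
  obtain ⟨w0, hw0⟩ := hn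
  obtain ⟨u0, hu0, hu0'⟩ : ∃ u : Fin (n + 1) → E, ∑ i, ‖u i‖ ^ 2 = 1 ∧ lam0 < Mz u := by
    rcases hnorm w0 with ⟨h1, h2⟩ | ⟨h1, u, h2, h3⟩
    · rw [h1, h2] at hw0; simp at hw0
    · refine ⟨u, h2, ?_⟩
      rw [h3, mul_comm] at hw0
      exact lt_of_mul_lt_mul_left hw0 h1.le
  have hS : IsCompact {u : Fin (n + 1) → E | ∑ i, ‖u i‖ ^ 2 = 1} := by
    have := FiniteDimensional.proper_real E
    refine Metric.isCompact_of_isClosed_isBounded (isClosed_eq (by fun_prop) continuous_const) ?_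
    refine (Metric.isBounded_closedBall (x := (0 : Fin (n + 1) → E)) (r := 1)).subset fun u hu => ?_
    rw [mem_closedBall_zero_iff, pi_norm_le_iff_of_nonneg zero_le_one]
    intro i
    have h1 : ‖u i‖ ^ 2 ≤ ∑ i, ‖u i‖ ^ 2 :=
      Finset.single_le_sum (f := fun i => ‖u i‖ ^ 2) (fun _ _ => sq_nonneg _) (Finset.mem_univ i)
    have h2 : ∑ i, ‖u i‖ ^ 2 = 1 := hu
    nlinarith [norm_nonneg (u i)]
  obtain ⟨z0, hz0, hmax⟩ := hS.exists_isMaxOn ⟨u0, hu0⟩ continuous_Mz.continuousOn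
  have hz0' : ∑ i, ‖z0 i‖ ^ 2 = 1 := hz0
  let σ := Tuple.sort fun i => -‖z0 i‖
  refine ⟨fun i => z0 (σ i), Mz z0, ?_, hu0'.trans_le (hmax hu0), Mz_comp_equiv z0 σ,
    fun w => ?_, fun i j hij => ?_⟩
  · rw [← hz0']; exact Equiv.sum_comp σ fun i => ‖z0 i‖ ^ 2
  · rcases hnorm w with ⟨h1, h2⟩ | ⟨h1, u, h2, h3⟩
    · rw [h1, h2]; simp
    · rw [h3, mul_comm]
      exact mul_le_mul_of_nonneg_right (hmax h2) h1.le
  · have := Tuple.monotone_sort (fun i => -‖z0 i‖) hij
    simpa using this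

lemma exists_crit {n : ℕ} (h : Claim E n) (hn : ¬Claim E (n + 1)) :
    ∃ (z : Fin (n + 2) → E) (lam : ℝ), Crit z lam := by
  obtain ⟨z, lam, hnorm, hlam, hMz, hmax, hanti⟩ := exists_maximizer hn
  have hl0 := lam0_pos
  have hlam0 : 0 < lam := hl0.trans hlam
  have hdup : ∀ (w : Fin (n + 2) → E) (i j : Fin (n + 2)), j ≠ i → w i = w j →
      Mz w ≤ lam0 * √(∑ l, ‖w l‖ ^ 2 - ‖w i‖ ^ 2) := by
    intro w i j hij hw
    have h1 : Mz w = Mz (fun l => w (i.succAbove l)) := by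
      unfold Mz; simp_rw [gmax_of_dup w hij hw]
    rw [h1, Fin.sum_univ_succAbove _ i, add_sub_cancel_left]
    exact h _
  have hne : ∀ i j, i ≠ j → z i ≠ z j := by
    intro i j hij hz
    have h1 := hdup z i j hij.symm hz
    have h2 : √(∑ l, ‖z l‖ ^ 2 - ‖z i‖ ^ 2) ≤ 1 := by
      rw [hnorm, Real.sqrt_le_one]; nlinarith [sq_nonneg ‖z i‖]
    nlinarith
  have huniq : ∀ᵐ x ∂stdGaussian E, ∃! i, x ∈ cell z i := by
    have h1 : ∀ᵐ x ∂stdGaussian E, ∀ i j, i ≠ j → ⟪z i - z j, x⟫ ≠ 0 := by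
      rw [ae_all_iff]; intro i
      rw [ae_all_iff]; intro j
      by_cases hij : i = j
      · simp [hij]
      · filter_upwards [ae_inner_ne_zero (sub_ne_zero.2 (hne i j hij))] with x hx _ using hx
    filter_upwards [h1] with x hx
    obtain ⟨i, hi⟩ := exists_gmax_eq z x
    have hi' : x ∈ cell z i := fun l => hi ▸ le_gmax z x l
    refine ⟨i, hi', fun j hj => ?_⟩
    by_contra hji
    apply hx j i hji
    rw [inner_sub_left]
    linarith [hi' j, hj i]
  have hcm := measurableSet_cell z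
  set ζ : Fin (n + 2) → E := fun j => ∫ x in cell z j, x ∂stdGaussian E with hζ
  have hzζ : ∑ j, ⟪z j, ζ j⟫ = lam := by
    simp only [hζ, inner_setIntegral]
    rw [sum_setIntegral_eq hcm fun i => integrable_inner (z i), ← hMz, Mz]
    refine integral_congr_ae ?_
    filter_upwards [huniq] with x ⟨i, hi, hu⟩
    rw [sum_indicator_eq hi hu]
    exact le_antisymm (le_gmax z x i) (gmax_le hi)
  have hpart : ∀ w : Fin (n + 2) → E, ∑ j, ⟪w j, ζ j⟫ ≤ Mz w := fun w =>
    sum_inner_setIntegral_le hcm huniq w (integrable_gmax w) fun i x => le_gmax w x i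
  have hcent : ∀ j, ζ j = lam • z j := by
    have h1 : ∑ j, ‖ζ j‖ ^ 2 ≤ lam * √(∑ j, ‖ζ j‖ ^ 2) := by
      refine le_trans (le_of_eq ?_) ((hpart ζ).trans (hmax ζ))
      simp_rw [real_inner_self_eq_norm_sq]
    have h0 : 0 ≤ ∑ j, ‖ζ j‖ ^ 2 := Finset.sum_nonneg fun i _ => sq_nonneg _
    have h2 : ∑ j, ‖ζ j‖ ^ 2 ≤ lam ^ 2 := by
      have h3 := Real.sq_sqrt h0
      have h4 := Real.sqrt_nonneg (∑ j, ‖ζ j‖ ^ 2)
      nlinarith [sq_nonneg (√(∑ j, ‖ζ j‖ ^ 2) - lam)]
    have h5 : ∑ j, ‖ζ j - lam • z j‖ ^ 2 = ∑ j, ‖ζ j‖ ^ 2 - lam ^ 2 := by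
      have : ∀ j, ‖ζ j - lam • z j‖ ^ 2
          = ‖ζ j‖ ^ 2 - 2 * lam * ⟪z j, ζ j⟫ + lam ^ 2 * ‖z j‖ ^ 2 := by
        intro j
        rw [norm_sub_sq_real, real_inner_smul_right, real_inner_comm, norm_smul, mul_pow,
          Real.norm_eq_abs, sq_abs]
        ring
      simp_rw [this]
      rw [Finset.sum_add_distrib, Finset.sum_sub_distrib, ← Finset.mul_sum, ← Finset.mul_sum, hzζ,
        hnorm]
      ring
    intro j
    have h6 : ∑ j, ‖ζ j - lam • z j‖ ^ 2 = 0 :=
      le_antisymm (by linarith) (Finset.sum_nonneg fun i _ => sq_nonneg _)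
    have := (Finset.sum_eq_zero_iff_of_nonneg fun i _ => sq_nonneg _).1 h6 j (Finset.mem_univ j)
    simpa [sub_eq_zero] using this
  have hsum : ∑ j, z j = 0 := by
    set S := ∑ j, z j with hS
    have h1 := sum_inner_setIntegral_le hcm huniq (fun _ => S) (integrable_inner S)
      fun _ _ => le_rfl
    rw [integral_inner_eq_zero] at h1
    change ∑ j, ⟪S, ζ j⟫ ≤ 0 at h1
    simp_rw [hcent, real_inner_smul_right] at h1
    rw [← Finset.mul_sum, ← inner_sum, ← hS, real_inner_self_eq_norm_sq] at h1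
    have h2 : ‖S‖ ^ 2 = 0 := le_antisymm (by nlinarith [sq_nonneg ‖S‖]) (sq_nonneg _)
    simpa using h2
  refine ⟨z, lam, hnorm, hlam, hMz, hsum, fun i j hij => ?_, huniq, hcent, hanti⟩
  by_contra hcon
  push Not at hcon
  set w : Fin (n + 2) → E := fun l => z l + (if l = i then z j else 0) + (if l = j then z i else 0)
    with hw
  have hwi : w i = z i + z j := by simp [hw, hij]
  have hwj : w j = z i + z j := by simp [hw, hij.symm, add_comm]
  have h1 := hdup w i j hij.symm (hwi.trans hwj.symm)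
  have h2 := hpart w
  have h3 : ∑ l, ⟪w l, ζ l⟫ = lam * (1 + 2 * ⟪z i, z j⟫) := by
    simp_rw [hcent, real_inner_smul_right]
    rw [← Finset.mul_sum]
    congr 1
    have : ∀ l, ⟪w l, z l⟫ = ‖z l‖ ^ 2 + (if l = i then ⟪z i, z j⟫ else 0)
        + (if l = j then ⟪z i, z j⟫ else 0) := by
      intro l
      simp only [hw, inner_add_left, real_inner_self_eq_norm_sq]
      congr 1
      · congr 1
        split_ifs with h
        · rw [h, real_inner_comm]
        · simp
      · split_ifs with h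
        · rw [h]
        · simp
    simp_rw [this]
    simp only [Finset.sum_add_distrib, Finset.sum_ite_eq', Finset.mem_univ, if_true, hnorm]
    ring
  have h4 : ∑ l, ‖w l‖ ^ 2 - ‖w i‖ ^ 2 = 1 + 2 * ⟪z i, z j⟫ := by
    have : ∀ l, ‖w l‖ ^ 2 = ‖z l‖ ^ 2 + (if l = i then ‖z i + z j‖ ^ 2 - ‖z i‖ ^ 2 else 0)
        + (if l = j then ‖z i + z j‖ ^ 2 - ‖z j‖ ^ 2 else 0) := by
      intro l
      by_cases hi : l = i
      · subst hi; rw [hwi]; simp [hij]
      · by_cases hj : l = j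
        · subst hj; rw [hwj]; simp [hi]
        · simp [hw, hi, hj]
    rw [Finset.sum_congr rfl fun l _ => this l]
    simp only [Finset.sum_add_distrib, Finset.sum_ite_eq', Finset.mem_univ, if_true, hnorm, hwi]
    rw [norm_add_sq_real]
    ring
  rw [h4] at h1
  rw [h3] at h2
  set N := 1 + 2 * ⟪z i, z j⟫ with hN
  have hN1 : 1 ≤ N := by linarith
  have h5 : √N ≤ N := by
    rw [Real.sqrt_le_left (by linarith)]; nlinarith
  nlinarith

variable {n : ℕ} {z : Fin (n + 2) → E} {lam : ℝ}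

lemma Crit.lam_pos (h : Crit z lam) : 0 < lam := lam0_pos.trans h.lam_gt

lemma Crit.const_of_sum_eq_zero (h : Crit z lam) {t : Fin (n + 2) → ℝ}
    (ht : ∑ i, t i • z i = 0) (i l : Fin (n + 2)) : t i = t l := by
  obtain ⟨i0, hi0⟩ := Finite.exists_min t
  suffices ∀ k, t k = t i0 by rw [this i, this l]
  have h1 : ∑ k, (t k - t i0) * ⟪z k, z i0⟫ = 0 := by
    have : ∑ k, (t k - t i0) • z k = 0 := by
      simp_rw [sub_smul]
      rw [Finset.sum_sub_distrib, ht, ← Finset.smul_sum, h.sum_zero]; simp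
    have h2 := congrArg (fun v => ⟪v, z i0⟫) this
    simpa [sum_inner, real_inner_smul_left] using h2
  have h3 : ∀ k ∈ Finset.univ, (t k - t i0) * ⟪z k, z i0⟫ ≤ 0 := by
    intro k _
    by_cases hk : k = i0
    · simp [hk]
    · exact mul_nonpos_of_nonneg_of_nonpos (sub_nonneg.2 (hi0 k)) (h.neg k i0 hk).le
  intro k
  by_cases hk : k = i0
  · rw [hk]
  · have := (Finset.sum_eq_zero_iff_of_nonpos h3).1 h1 k (Finset.mem_univ k)
    rcases mul_eq_zero.1 this with h4 | h4
    · linarith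
    · exact absurd h4 (h.neg k i0 hk).ne

lemma Crit.exists_dual (h : Crit z lam) (j : Fin (n + 2)) :
    ∃ v : E, (∀ l, l ≠ j → ⟪z j, v⟫ - ⟪z l, v⟫ = 1) ∧ ⟪z j, v⟫ = (n + 1) / (n + 2) := by
  let B : (Fin (n + 2) → ℝ) →ₗ[ℝ] (Fin (n + 2) → ℝ) :=
    { toFun := fun t l => ⟪z l, ∑ i, t i • z i⟫ + ∑ i, t i
      map_add' := fun s t => by
        funext l
        simp only [Pi.add_apply, add_smul, Finset.sum_add_distrib, inner_add_right]; ring
      map_smul' := fun c t => by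
        funext l
        simp only [Pi.smul_apply, smul_eq_mul, mul_smul, ← Finset.smul_sum, real_inner_smul_right,
          ← Finset.mul_sum, RingHom.id_apply]; ring }
  have hB : ∀ t l, B t l = ⟪z l, ∑ i, t i • z i⟫ + ∑ i, t i := fun _ _ => rfl
  have hsumB : ∀ t, ∑ l, B t l = (n + 2) * ∑ i, t i := by
    intro t
    simp only [hB, Finset.sum_add_distrib]
    rw [← sum_inner, h.sum_zero]
    simp
  have hpos : (0 : ℝ) < n + 2 := by positivity
  have hinj : Function.Injective B := by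
    rw [injective_iff_map_eq_zero]
    intro t ht
    have h1 : ∑ i, t i = 0 := by
      have := hsumB t
      rw [ht] at this
      simp only [Pi.zero_apply, Finset.sum_const_zero] at this
      exact (mul_eq_zero.1 this.symm).resolve_left hpos.ne'
    have h2 : ∀ l, ⟪z l, ∑ i, t i • z i⟫ = 0 := fun l => by
      have := congrFun ht l
      rw [hB, h1] at this
      simpa using this
    have h3 : ∑ i, t i • z i = 0 := by
      rw [← inner_self_eq_zero (𝕜 := ℝ)]
      conv_lhs => rw [sum_inner]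
      simp [real_inner_smul_left, h2]
    funext i
    have h4 : ∑ l, t l = (n + 2) * t i := by
      rw [Finset.sum_congr rfl fun l _ => h.const_of_sum_eq_zero h3 l i]
      simp
    rw [h1] at h4
    exact (mul_eq_zero.1 h4.symm).resolve_left hpos.ne'
  obtain ⟨t, ht⟩ := LinearMap.injective_iff_surjective.1 hinj (Pi.single j 1)
  have h1 : (n + 2) * ∑ i, t i = 1 := by rw [← hsumB, ht]; simp
  have h2 := congrFun ht j
  rw [hB] at h2
  simp only [Pi.single_eq_same] at h2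
  refine ⟨∑ i, t i • z i, fun l hl => ?_, ?_⟩
  · have h3 := congrFun ht l
    rw [hB, Pi.single_eq_of_ne hl] at h3
    linarith
  · rw [eq_div_iff hpos.ne']
    nlinarith

/-- cell probabilities -/
noncomputable def pc {ι : Type*} (z : ι → E) (j : ι) : ℝ := (stdGaussian E).real (cell z j)

lemma Crit.sum_pc (h : Crit z lam) : ∑ j, pc z j = 1 := by
  have h1 := sum_setIntegral_eq (measurableSet_cell z) (F := fun _ _ => (1 : ℝ))
    fun _ => integrable_const _
  have h2 : ∫ x, ∑ i, (cell z i).indicator (fun _ => (1 : ℝ)) x ∂stdGaussian E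
      = ∫ _, (1 : ℝ) ∂stdGaussian E := by
    refine integral_congr_ae ?_
    filter_upwards [h.uniq] with x ⟨i, hi, hu⟩
    exact sum_indicator_eq hi hu (fun _ _ => (1 : ℝ))
  rw [h2] at h1
  simpa [pc] using h1

lemma Crit.ne_zero (h : Crit z lam) (j : Fin (n + 2)) : z j ≠ 0 := by
  obtain ⟨i, hi⟩ := exists_ne j
  intro h0
  have := h.neg i j hi
  simp [h0] at this

lemma Crit.pc_pos (h : Crit z lam) (j : Fin (n + 2)) : 0 < pc z j := by
  refine lt_of_le_of_ne measureReal_nonneg fun h0 => ?_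
  have h1 : stdGaussian E (cell z j) = 0 := (measureReal_eq_zero_iff).1 h0.symm
  have h2 := h.cent j
  rw [Measure.restrict_eq_zero.2 h1, integral_zero_measure] at h2
  exact h.ne_zero j ((smul_eq_zero.1 h2.symm).resolve_left h.lam_pos.ne')

lemma Crit.pc_lt_one (h : Crit z lam) (j : Fin (n + 2)) : pc z j < 1 := by
  rw [← h.sum_pc, Fin.sum_univ_succAbove _ j]
  have : 0 < ∑ l, pc z (j.succAbove l) :=
    Finset.sum_pos (fun l _ => h.pc_pos _) Finset.univ_nonempty
  linarith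

/-- level-one inequality for the cells -/
lemma Crit.level (h : Crit z lam) (j : Fin (n + 2)) (a : ℝ) :
    lam * ‖z j‖ ≤ Psi a - a * pc z j := by
  have hz : 0 < ‖z j‖ := norm_pos_iff.2 (h.ne_zero j)
  have he : ‖‖z j‖⁻¹ • z j‖ = 1 := by
    rw [norm_smul, norm_inv, norm_norm]; exact inv_mul_cancel₀ hz.ne'
  have := level_one (cell z j) he a
  rw [← inner_setIntegral, h.cent j, real_inner_smul_left, real_inner_smul_right,
    real_inner_self_eq_norm_sq] at this
  refine le_trans (le_of_eq ?_) this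
  field_simp

/-- the deletion inequality, via Ehrhard -/
lemma Crit.deletion (h : Crit z lam) (j : Fin (n + 2)) :
    ∃ a, Phi a = pc z j ∧
      (lam - Mz fun l => z (j.succAbove l)) * (lam * ((n + 1) / (n + 2))) ≤ phi a * Psi a := by
  obtain ⟨a, ha⟩ := exists_Phi_eq (h.pc_pos j) (h.pc_lt_one j)
  refine ⟨a, ha, ?_⟩
  obtain ⟨v, hv1, hv2⟩ := h.exists_dual j
  set y : Fin (n + 1) → E := fun l => z (j.succAbove l) with hy
  set W : E → ℝ := fun x => ⟪z j, x⟫ - gmax y x with hW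
  have hWL : LipschitzWith (‖innerSL ℝ (z j)‖₊ + ∑ i, ‖y i‖₊) W :=
    (innerSL ℝ (z j)).lipschitz.sub (lipschitz_gmax y)
  have hWc : ConcaveOn ℝ univ W :=
    (LinearMap.concaveOn (innerSL ℝ (z j) : E →ₗ[ℝ] ℝ) convex_univ).sub (convexOn_gmax y)
  have hWv : ∀ x (t : ℝ), W (x + t • v) = W x + t := by
    intro x t
    have e : ∀ l, ⟪y l, x + t • v⟫ = ⟪y l, x⟫ + t * (⟪z j, v⟫ - 1) := by
      intro l
      rw [inner_add_right, real_inner_smul_right, ← hv1 (j.succAbove l) (Fin.succAbove_ne j l)]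
      simp [hy]
    have : gmax y (x + t • v) = gmax y x + t * (⟪z j, v⟫ - 1) := by
      apply le_antisymm
      · refine gmax_le fun l => ?_
        rw [e]; linarith [le_gmax y x l]
      · obtain ⟨l, hl⟩ := exists_gmax_eq y x
        rw [← hl, ← e]; exact le_gmax y _ l
    simp only [hW, this, inner_add_right, real_inner_smul_right]
    ring
  have hset : {x | 0 ≤ W x} = cell z j := by
    ext x
    simp only [mem_ofPred_eq, hW, sub_nonneg, cell]
    constructor
    · intro hx i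
      exact Fin.succAboveCases j le_rfl (fun l => (le_gmax y x l).trans hx) i
    · intro hx
      exact gmax_le fun l => hx _
  have key := key_cone hWL hWc hWv (a := a) (by rw [hset]; exact ha)
  rw [hset, ← inner_setIntegral, h.cent j, real_inner_smul_right, real_inner_comm, hv2] at key
  have e2 : ∫ x, max (W x) 0 ∂stdGaussian E = lam - Mz y := by
    rw [← h.Mz_eq, Mz, Mz, ← integral_sub (integrable_gmax z) (integrable_gmax y)]
    congr 1; funext x
    rw [gmax_succAbove z j x, hW, ← max_sub_sub_right, sub_self]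
  rwa [e2] at key

end Crest.Agent.R215
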