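import Crest.Agent.R215.Heat

/-! One-dimensional functional Ehrhard inequality, by Borell's maximum principle argument. -/

set_option autoImplicit false
open MeasureTheory ProbabilityTheory Set Filter Topology Real
open scoped NNReal

namespace Crest.Agent.R215

lemma abs_Phi_le (x : ℝ) : |Phi x| ≤ 1 := by
  rw [abs_of_pos (Phi_pos x)]; exact Phi_le_one x

section General
variable {Ω : Type*} [MeasurableSpace Ω] {μ : Measure Ω} [IsProbabilityMeasure μ]

lemma integrable_Phi_comp {U : Ω → ℝ} (hU : Measurable U) : Integrable (fun x => Phi (U x)) μ :=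
  Integrable.mono' (integrable_const 1) (Measurable.aestronglyMeasurable (by fun_prop))
    (Eventually.of_forall fun _ => abs_Phi_le _)

lemma integral_Phi_pos {U : Ω → ℝ} (hU : Measurable U) : 0 < ∫ x, Phi (U x) ∂μ := by
  rw [integral_pos_iff_support_of_nonneg (fun x => Phi_nonneg _) (integrable_Phi_comp hU)]
  have : Function.support (fun x => Phi (U x)) = univ :=
    eq_univ_of_forall fun x => (Phi_pos _).ne'
  simp [this]

lemma integral_Phi_lt_one {U : Ω → ℝ} (hU : Measurable U) : ∫ x, Phi (U x) ∂μ < 1 := by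
  have h := integral_Phi_pos (μ := μ) (U := fun x => -U x) hU.neg
  simp only [Phi_neg] at h
  rw [integral_sub (integrable_const _) (integrable_Phi_comp hU)] at h
  simp at h
  exact h

lemma Phi_add_le (v a c : ℝ) (hc : 0 ≤ c) :
    Phi (v + c) ≤ Phi (a + c) + (phi (a + c) / phi a) * (Phi v - Phi a) := by
  set κ := phi (a + c) / phi a with hκ
  have hd : ∀ t, HasDerivAt (fun t => Phi (t + c) - κ * Phi t) (phi (t + c) - κ * phi t) t := by
    intro t
    have h1 := (hasDerivAt_Phi (t + c)).comp t ((hasDerivAt_id' t).add_const c)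
    have h2 := (hasDerivAt_Phi t).const_mul κ
    simpa [Function.comp_def] using h1.fun_sub h2
  have hratio : ∀ t, phi (t + c) = phi t * Real.exp (-t * c - c ^ 2 / 2) := by
    intro t; unfold phi
    rw [mul_assoc, ← Real.exp_add]; congr 2; ring
  have hκ' : κ = Real.exp (-a * c - c ^ 2 / 2) := by
    rw [hκ, hratio a]; field_simp [(phi_pos a).ne']
  have hcont : Continuous (fun t => Phi (t + c) - κ * Phi t) := by fun_prop
  rcases le_total v a with h | h
  · have hm : MonotoneOn (fun t => Phi (t + c) - κ * Phi t) (Iic a) := by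
      refine monotoneOn_of_deriv_nonneg (convex_Iic a) hcont.continuousOn
        (fun t _ => (hd t).differentiableAt.differentiableWithinAt) fun t ht => ?_
      rw [(hd t).deriv, hratio t, hκ']
      have ht' : t < a := by simpa using ht
      have : Real.exp (-a * c - c ^ 2 / 2) ≤ Real.exp (-t * c - c ^ 2 / 2) :=
        Real.exp_le_exp.2 (by nlinarith)
      nlinarith [phi_pos t]
    have := hm h (mem_Iic.2 le_rfl) h
    simp only at this
    linarith
  · have hm : AntitoneOn (fun t => Phi (t + c) - κ * Phi t) (Ici a) := by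
      refine antitoneOn_of_deriv_nonpos (convex_Ici a) hcont.continuousOn
        (fun t _ => (hd t).differentiableAt.differentiableWithinAt) fun t ht => ?_
      rw [(hd t).deriv, hratio t, hκ']
      have ht' : a < t := by simpa using ht
      have : Real.exp (-t * c - c ^ 2 / 2) ≤ Real.exp (-a * c - c ^ 2 / 2) :=
        Real.exp_le_exp.2 (by nlinarith)
      nlinarith [phi_pos t]
    have := hm (mem_Ici.2 le_rfl) h h
    simp only at this
    linarith

/-- shifting the argument by at most `c` shifts the quantile of the mean by at most `c` -/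
lemma PhiInv_integral_le_add {U V : Ω → ℝ} (hU : Measurable U) (hV : Measurable V) {c : ℝ}
    (hc : 0 ≤ c) (h : ∀ x, U x ≤ V x + c) :
    PhiInv (∫ x, Phi (U x) ∂μ) ≤ PhiInv (∫ x, Phi (V x) ∂μ) + c := by
  rw [PhiInv_le_iff (integral_Phi_pos hU) (integral_Phi_lt_one hU)]
  set a := PhiInv (∫ x, Phi (V x) ∂μ) with ha
  have ha' : Phi a = ∫ x, Phi (V x) ∂μ := Phi_PhiInv (integral_Phi_pos hV) (integral_Phi_lt_one hV)
  have hint := integrable_Phi_comp (μ := μ) hV
  calc ∫ x, Phi (U x) ∂μ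
      ≤ ∫ x, (Phi (a + c) + (phi (a + c) / phi a) * (Phi (V x) - Phi a)) ∂μ := by
        refine integral_mono (integrable_Phi_comp hU)
          ((integrable_const _).add ((hint.sub (integrable_const _)).const_mul _)) fun x => ?_
        exact (monotone_Phi (h x)).trans (Phi_add_le _ _ _ hc)
    _ = Phi (a + c) := by
        have h2 : Integrable (fun x => Phi (V x) - Phi a) μ := hint.sub (integrable_const _)
        rw [integral_add (integrable_const _) (h2.const_mul _),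
          integral_const_mul, integral_sub hint (integrable_const _)]
        simp [ha']

end General

/-- the quantile transform of the smoothed function -/
noncomputable def qW (U : ℝ → ℝ) (σ y : ℝ) : ℝ := PhiInv (heat (fun s => Phi (U s)) σ y)

lemma heat_Phi_pos {U : ℝ → ℝ} (hU : Continuous U) (σ y : ℝ) :
    0 < heat (fun s => Phi (U s)) σ y :=
  integral_Phi_pos (U := fun n => U (y + σ * n)) (by fun_prop)

lemma heat_Phi_lt_one {U : ℝ → ℝ} (hU : Continuous U) (σ y : ℝ) :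
    heat (fun s => Phi (U s)) σ y < 1 :=
  integral_Phi_lt_one (U := fun n => U (y + σ * n)) (by fun_prop)

lemma qW_zero (U : ℝ → ℝ) (y : ℝ) : qW U 0 y = U y := by
  simp [qW, heat_zero, PhiInv_Phi]

lemma continuous_qW {U : ℝ → ℝ} (hU : Continuous U) :
    Continuous (fun p : ℝ × ℝ => qW U p.1 p.2) := by
  rw [continuous_iff_continuousAt]
  intro p
  have h := continuous_heat (f := fun s => Phi (U s)) (by fun_prop) (fun s => abs_Phi_le _)
  exact ContinuousAt.comp (g := PhiInv)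
    (continuousAt_PhiInv (heat_Phi_pos hU _ _) (heat_Phi_lt_one hU _ _)) h.continuousAt

lemma qW_le_add {U : ℝ → ℝ} {L : ℝ≥0} (hU : LipschitzWith L U) (σ y y' : ℝ) :
    qW U σ y ≤ qW U σ y' + L * |y - y'| := by
  have hc := hU.continuous
  refine PhiInv_integral_le_add (U := fun n => U (y + σ * n)) (V := fun n => U (y' + σ * n))
    (by fun_prop) (by fun_prop) (by positivity) fun n => ?_
  have := hU.dist_le_mul (y + σ * n) (y' + σ * n)
  rw [Real.dist_eq, Real.dist_eq, show y + σ * n - (y' + σ * n) = y - y' by ring] at this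
  linarith [le_abs_self (U (y + σ * n) - U (y' + σ * n))]

lemma lipschitz_qW {U : ℝ → ℝ} {L : ℝ≥0} (hU : LipschitzWith L U) (σ : ℝ) :
    LipschitzWith L (qW U σ) := by
  refine LipschitzWith.of_dist_le_mul fun y y' => ?_
  rw [Real.dist_eq, Real.dist_eq, abs_le]
  have h1 := qW_le_add hU σ y y'
  have h2 := qW_le_add hU σ y' y
  rw [abs_sub_comm y' y] at h2
  constructor <;> linarith

lemma qW_smooth {U : ℝ → ℝ} {L : ℝ≥0} (hU : LipschitzWith L U) {σ : ℝ} (hσ : 0 < σ) :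
    ∃ W1 W2 : ℝ → ℝ, (∀ y, HasDerivAt (qW U σ) (W1 y) y) ∧ (∀ y, HasDerivAt W1 (W2 y) y) ∧
      (∀ y, HasDerivAt (fun s => qW U s y) (σ * (W2 y - qW U σ y * W1 y ^ 2)) σ) ∧
      ∀ y, |W1 y| ≤ L := by
  have hc := hU.continuous
  set f : ℝ → ℝ := fun s => Phi (U s) with hf
  have hfm : Measurable f := by fun_prop
  have hf1 : ∀ s, |f s| ≤ 1 := fun s => abs_Phi_le _
  have hA : ∀ y, HasDerivAt (qW U σ) (heat1 f σ y / phi (qW U σ y)) y := by
    intro y
    have := (hasDerivAt_PhiInv (heat_Phi_pos hc σ y) (heat_Phi_lt_one hc σ y)).comp y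
      (hasDerivAt_heat hfm hf1 hσ y)
    refine this.congr_deriv ?_
    rw [div_eq_inv_mul]; rfl
  refine ⟨fun y => heat1 f σ y / phi (qW U σ y), fun y => heat2 f σ y / phi (qW U σ y)
    + qW U σ y * (heat1 f σ y / phi (qW U σ y)) ^ 2, hA, fun y => ?_, fun y => ?_, fun y => ?_⟩
  · have h1 := (hasDerivAt_phi (qW U σ y)).comp y (hA y)
    have := (hasDerivAt_heat1 hfm hf1 hσ y).fun_div h1 (phi_pos _).ne'
    refine this.congr_deriv ?_
    simp only [Function.comp]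
    field_simp [(phi_pos (qW U σ y)).ne']
    ring
  · have := (hasDerivAt_PhiInv (heat_Phi_pos hc σ y) (heat_Phi_lt_one hc σ y)).comp σ
      (hasDerivAt_heat_sigma hfm hf1 hσ y)
    refine this.congr_deriv ?_
    change (phi (qW U σ y))⁻¹ * _ = _
    field_simp [(phi_pos (qW U σ y)).ne']
    ring
  · have := (hA y).le_of_lipschitz (lipschitz_qW hU σ)
    exact this

lemma deriv_nonpos_of_left_min {F : ℝ → ℝ} {d x a : ℝ} (hF : HasDerivAt F d x) (ha : a < x)
    (h : ∀ s ∈ Icc a x, F x ≤ F s) : d ≤ 0 := by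
  have h1 : Tendsto (slope F x) (𝓝[<] x) (𝓝 d) :=
    (hasDerivAt_iff_tendsto_slope.1 hF).mono_left (nhdsLT_le_nhdsNE x)
  refine le_of_tendsto h1 ?_
  filter_upwards [Ioo_mem_nhdsLT ha] with s hs
  rw [slope_def_field]
  exact div_nonpos_of_nonneg_of_nonpos (sub_nonneg.2 (h s ⟨hs.1.le, hs.2.le⟩)) (by linarith [hs.2])

lemma second_deriv_nonneg_of_min {G G1 : ℝ → ℝ} {g2 : ℝ} (hG : ∀ t, HasDerivAt G (G1 t) t)
    (hG1 : HasDerivAt G1 g2 0) (h : ∀ t, G 0 ≤ G t) : 0 ≤ g2 := by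
  have h0 : G1 0 = 0 := (IsLocalMin.hasDerivAt_eq_zero (Eventually.of_forall h) (hG 0))
  by_contra hneg
  push Not at hneg
  have h1 : Tendsto (slope G1 0) (𝓝[>] 0) (𝓝 g2) :=
    (hasDerivAt_iff_tendsto_slope.1 hG1).mono_left (nhdsGT_le_nhdsNE 0)
  have h2 : ∀ᶠ t in 𝓝[>] (0 : ℝ), slope G1 0 t < 0 := h1.eventually (gt_mem_nhds hneg)
  obtain ⟨δ, hδ, hδ'⟩ := mem_nhdsGT_iff_exists_Ioo_subset.1 h2
  have hδ0 : 0 < δ := hδ
  obtain ⟨c, hc, hc'⟩ := exists_hasDerivAt_eq_slope G G1 (half_pos hδ0)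
    (fun t _ => (hG t).continuousAt.continuousWithinAt) (fun t _ => hG t)
  have h3 : slope G1 0 c < 0 := hδ' ⟨hc.1, by linarith [hc.2]⟩
  rw [slope_def_field, h0, sub_zero, sub_zero] at h3
  have h4 : G1 c < 0 := by
    by_contra h5
    push Not at h5
    exact absurd h3 (not_lt.2 (div_nonneg h5 hc.1.le))
  have h6 : 0 ≤ (G (δ / 2) - G 0) / (δ / 2 - 0) :=
    div_nonneg (sub_nonneg.2 (h _)) (by linarith)
  linarith

lemma qW_abs_le {U : ℝ → ℝ} {L : ℝ≥0} (hU : LipschitzWith L U) :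
    ∃ M : ℝ, 0 ≤ M ∧ ∀ σ ∈ Icc (0 : ℝ) 1, ∀ y, |qW U σ y| ≤ M + L * |y| := by
  have hc : Continuous fun σ : ℝ => qW U σ 0 :=
    (continuous_qW hU.continuous).comp (continuous_id.prodMk continuous_const)
  obtain ⟨M, hM⟩ := isCompact_Icc.exists_bound_of_continuousOn (s := Icc (0 : ℝ) 1)
    hc.continuousOn
  refine ⟨M, (norm_nonneg _).trans (hM 0 ⟨le_rfl, zero_le_one⟩), fun σ hσ y => ?_⟩
  have h1 := hM σ hσ
  rw [Real.norm_eq_abs] at h1
  have h2 := (lipschitz_qW hU σ).dist_le_mul y 0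
  rw [Real.dist_eq, Real.dist_eq, sub_zero] at h2
  calc |qW U σ y| = |qW U σ 0 + (qW U σ y - qW U σ 0)| := by ring_nf
    _ ≤ |qW U σ 0| + |qW U σ y - qW U σ 0| := abs_add_le _ _
    _ ≤ M + L * |y| := add_le_add h1 h2

/-- the algebraic heart of the maximum principle -/
lemma max_principle_alg {θ θ' σ E K L M y1 y2 f g h a b c f2 g2 h2 : ℝ}
    (hσ0 : 0 < σ) (hσ1 : σ ≤ 1) (hE : 0 < E) (hL : 0 ≤ L) (hM : 0 ≤ M)
    (hθθ : θ' + θ = 1) (hK : K = 5 + 4 * L * (M + L))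
    (hf : |f| ≤ M + L * |y1|) (hg : |g| ≤ M + L * |y2|)
    (ha : |a| ≤ L) (hb : |b| ≤ L) (hc : |c| ≤ L)
    (hneg : h - θ' * f - θ * g ≤ 0)
    (e1 : θ' * (a - b) + 2 * E * y1 = 0) (e2 : θ * (a - c) + 2 * E * y2 = 0)
    (e3 : 0 ≤ h2 - θ' * f2 - θ * g2 + 4 * E)
    (e4 : σ * (h2 - h * a ^ 2) - θ' * (σ * (f2 - f * b ^ 2)) - θ * (σ * (g2 - g * c ^ 2))
      + K * E * (1 + y1 ^ 2 + y2 ^ 2) ≤ 0) : False := by
  have t1 : θ' * (f * b ^ 2) - θ' * (f * a ^ 2) = 2 * E * (y1 * (a + b) * f) := by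
    have : θ' * (b - a) = 2 * E * y1 := by linarith
    calc θ' * (f * b ^ 2) - θ' * (f * a ^ 2) = (θ' * (b - a)) * ((a + b) * f) := by ring
      _ = _ := by rw [this]; ring
  have t2 : θ * (g * c ^ 2) - θ * (g * a ^ 2) = 2 * E * (y2 * (a + c) * g) := by
    have : θ * (c - a) = 2 * E * y2 := by linarith
    calc θ * (g * c ^ 2) - θ * (g * a ^ 2) = (θ * (c - a)) * ((a + c) * g) := by ring
      _ = _ := by rw [this]; ring
  have bnd : ∀ y u v w : ℝ, |u| ≤ L → |v| ≤ L → |w| ≤ M + L * |y| →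
      -(L * (M * (1 + y ^ 2) + 2 * L * y ^ 2)) ≤ y * (u + v) * w := by
    intro y u v w hu hv hw
    have h1 : |y * (u + v) * w| ≤ |y| * (2 * L) * (M + L * |y|) := by
      rw [abs_mul, abs_mul]
      have : |u + v| ≤ 2 * L := (abs_add_le _ _).trans (by linarith)
      gcongr
    have h2 : 2 * |y| ≤ 1 + y ^ 2 := by nlinarith [sq_abs y, sq_nonneg (|y| - 1)]
    have h3 : |y| * (2 * L) * (M + L * |y|) = L * (M * (2 * |y|) + 2 * L * y ^ 2) := by
      rw [← sq_abs y]; ring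
    have h4 : L * (M * (2 * |y|) + 2 * L * y ^ 2) ≤ L * (M * (1 + y ^ 2) + 2 * L * y ^ 2) := by
      gcongr
    linarith [neg_abs_le (y * (u + v) * w)]
  have b1 := bnd y1 a b f ha hb hf
  have b2 := bnd y2 a c g ha hc hg
  set Q := 1 + y1 ^ 2 + y2 ^ 2 with hQ
  have hQ1 : 1 ≤ Q := by nlinarith [sq_nonneg y1, sq_nonneg y2]
  have hCa : 0 ≤ -(h - θ' * f - θ * g) * a ^ 2 := mul_nonneg (by linarith) (sq_nonneg a)
  -- lower bound of the bracket
  have hS : -(E * (4 + 4 * L * (M + L)) * Q) ≤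
      (h2 - h * a ^ 2) - θ' * (f2 - f * b ^ 2) - θ * (g2 - g * c ^ 2) := by
    have s1 : (h2 - h * a ^ 2) - θ' * (f2 - f * b ^ 2) - θ * (g2 - g * c ^ 2)
        = (h2 - θ' * f2 - θ * g2) + -(h - θ' * f - θ * g) * a ^ 2
          + 2 * E * (y1 * (a + b) * f) + 2 * E * (y2 * (a + c) * g) := by
      rw [← t1, ← t2]; ring
    have s2 : -(2 * L * (M + L) * Q) ≤ y1 * (a + b) * f + y2 * (a + c) * g := by
      have hLM := mul_nonneg hL hM
      have hLL := mul_nonneg hL hL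
      nlinarith [mul_nonneg hLM (sq_nonneg y1), mul_nonneg hLM (sq_nonneg y2)]
    have s3 : 2 * E * -(2 * L * (M + L) * Q) ≤ 2 * E * (y1 * (a + b) * f + y2 * (a + c) * g) :=
      mul_le_mul_of_nonneg_left s2 (by positivity)
    have s4 : E * 1 ≤ E * Q := mul_le_mul_of_nonneg_left hQ1 hE.le
    rw [s1]; nlinarith
  have hP : 0 ≤ E * (4 + 4 * L * (M + L)) * Q := by positivity
  have hS' : -(E * (4 + 4 * L * (M + L)) * Q) ≤
      σ * ((h2 - h * a ^ 2) - θ' * (f2 - f * b ^ 2) - θ * (g2 - g * c ^ 2)) := by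
    nlinarith [mul_le_mul_of_nonneg_left hS hσ0.le]
  have hEQ : 0 < E * Q := by positivity
  rw [hK] at e4
  nlinarith

theorem ehrhard_one {Uf Ug Uh : ℝ → ℝ} {L : ℝ≥0} (hf : LipschitzWith L Uf)
    (hg : LipschitzWith L Ug) (hh : LipschitzWith L Uh) {θ θ' : ℝ} (hθ : 0 ≤ θ) (hθ' : 0 ≤ θ')
    (hθθ : θ' + θ = 1) (H : ∀ y1 y2, θ' * Uf y1 + θ * Ug y2 ≤ Uh (θ' * y1 + θ * y2)) :
    θ' * qW Uf 1 0 + θ * qW Ug 1 0 ≤ qW Uh 1 0 := by
  obtain ⟨Mf, hMf0, hMf⟩ := qW_abs_le hf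
  obtain ⟨Mg, hMg0, hMg⟩ := qW_abs_le hg
  obtain ⟨Mh, hMh0, hMh⟩ := qW_abs_le hh
  set M := Mf + Mg + Mh with hM
  have hM0 : 0 ≤ M := by positivity
  have hL0 : (0 : ℝ) ≤ L := L.2
  set K : ℝ := 5 + 4 * L * (M + L) with hK
  have hK0 : 0 ≤ K := by positivity
  have hθ1 : θ ≤ 1 := by linarith
  have hθ1' : θ' ≤ 1 := by linarith
  suffices hε : ∀ ε > 0, 0 ≤ qW Uh 1 0 - θ' * qW Uf 1 0 - θ * qW Ug 1 0 + ε * Real.exp K by
    have : 0 ≤ qW Uh 1 0 - θ' * qW Uf 1 0 - θ * qW Ug 1 0 := by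
      refine le_of_forall_pos_le_add fun δ hδ => ?_
      have := hε (δ / Real.exp K) (by positivity)
      rwa [div_mul_cancel₀ _ (Real.exp_pos K).ne'] at this
    linarith
  intro ε hε
  by_contra hneg
  push Not at hneg
  set D : ℝ → ℝ → ℝ → ℝ := fun σ y1 y2 => qW Uh σ (θ' * y1 + θ * y2) - θ' * qW Uf σ y1
    - θ * qW Ug σ y2 + ε * Real.exp (K * σ) * (1 + y1 ^ 2 + y2 ^ 2) with hD
  have hDc : Continuous fun p : ℝ × ℝ × ℝ => D p.1 p.2.1 p.2.2 := by
    have c1 : Continuous fun p : ℝ × ℝ × ℝ => qW Uh p.1 (θ' * p.2.1 + θ * p.2.2) :=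
      (continuous_qW hh.continuous).comp (f := fun p : ℝ × ℝ × ℝ => (p.1, θ' * p.2.1 + θ * p.2.2))
        (by fun_prop)
    have c2 : Continuous fun p : ℝ × ℝ × ℝ => qW Uf p.1 p.2.1 :=
      (continuous_qW hf.continuous).comp (f := fun p : ℝ × ℝ × ℝ => (p.1, p.2.1)) (by fun_prop)
    have c3 : Continuous fun p : ℝ × ℝ × ℝ => qW Ug p.1 p.2.2 :=
      (continuous_qW hg.continuous).comp (f := fun p : ℝ × ℝ × ℝ => (p.1, p.2.2)) (by fun_prop)
    simp only [hD]
    fun_prop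
  have hD100 : D 1 0 0 < 0 := by simpa [hD] using hneg
  -- coercivity
  set R : ℝ := (M + 4 * L) / ε + 1 with hR
  have hR0 : 0 ≤ R := by positivity
  have hout : ∀ σ ∈ Icc (0 : ℝ) 1, ∀ y1 y2, (R ≤ |y1| ∨ R ≤ |y2|) → 0 ≤ D σ y1 y2 := by
    intro σ hσ y1 y2 hy
    have a1 := hMf σ hσ y1
    have a2 := hMg σ hσ y2
    have a3 := hMh σ hσ (θ' * y1 + θ * y2)
    set m := max |y1| |y2| with hm
    have m1 : |y1| ≤ m := le_max_left _ _
    have m2 : |y2| ≤ m := le_max_right _ _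
    have hRm : R ≤ m := by rcases hy with hy | hy <;> linarith
    have a4 : |θ' * y1 + θ * y2| ≤ m := by
      calc |θ' * y1 + θ * y2| ≤ |θ' * y1| + |θ * y2| := abs_add_le _ _
        _ = θ' * |y1| + θ * |y2| := by rw [abs_mul, abs_mul, abs_of_nonneg hθ, abs_of_nonneg hθ']
        _ ≤ θ' * m + θ * m := by gcongr
        _ = m := by rw [← add_mul, hθθ, one_mul]
    have a5 : m ^ 2 ≤ 1 + y1 ^ 2 + y2 ^ 2 := by
      rcases le_total |y1| |y2| with h | h
      · rw [hm, max_eq_right h, sq_abs]; nlinarith [sq_nonneg y1]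
      · rw [hm, max_eq_left h, sq_abs]; nlinarith [sq_nonneg y2]
    have a6 : 1 ≤ Real.exp (K * σ) := Real.one_le_exp (mul_nonneg hK0 hσ.1)
    have a7 : ε * m ^ 2 ≤ ε * Real.exp (K * σ) * (1 + y1 ^ 2 + y2 ^ 2) := by
      rw [mul_assoc]
      gcongr
      nlinarith [sq_nonneg m]
    have a8 : θ' * qW Uf σ y1 ≤ Mf + L * m := by
      calc θ' * qW Uf σ y1 ≤ θ' * |qW Uf σ y1| := by gcongr; exact le_abs_self _
        _ ≤ 1 * (Mf + L * |y1|) := by gcongr
        _ ≤ Mf + L * m := by rw [one_mul]; gcongr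
    have a9 : θ * qW Ug σ y2 ≤ Mg + L * m := by
      calc θ * qW Ug σ y2 ≤ θ * |qW Ug σ y2| := by gcongr; exact le_abs_self _
        _ ≤ 1 * (Mg + L * |y2|) := by gcongr
        _ ≤ Mg + L * m := by rw [one_mul]; gcongr
    have a10 : -(Mh + L * m) ≤ qW Uh σ (θ' * y1 + θ * y2) := by
      have : L * |θ' * y1 + θ * y2| ≤ L * m := by gcongr
      linarith [neg_abs_le (qW Uh σ (θ' * y1 + θ * y2))]
    have a11 : M + 4 * L ≤ ε * m := by
      have : ε * R = M + 4 * L + ε := by rw [hR]; field_simp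
      nlinarith
    have hm1 : 1 ≤ m := by
      have : 0 ≤ (M + 4 * L) / ε := by positivity
      linarith
    have a12 : M + 3 * L * m ≤ ε * m ^ 2 := by nlinarith
    simp only [hD]
    linarith
  obtain ⟨⟨σ, y1, y2⟩, hp, hmin⟩ := (isCompact_Icc.prod (isCompact_Icc.prod isCompact_Icc)
    : IsCompact (Icc (0 : ℝ) 1 ×ˢ Icc (-R) R ×ˢ Icc (-R) R)).exists_isMinOn
    ⟨(1, 0, 0), ⟨zero_le_one, le_rfl⟩, ⟨by linarith, hR0⟩, ⟨by linarith, hR0⟩⟩ hDc.continuousOn
  have hσ : σ ∈ Icc (0 : ℝ) 1 := hp.1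
  have hDneg : D σ y1 y2 < 0 := by
    have := hmin (show ((1, 0, 0) : ℝ × ℝ × ℝ) ∈ Icc (0 : ℝ) 1 ×ˢ Icc (-R) R ×ˢ Icc (-R) R from
      ⟨⟨zero_le_one, le_rfl⟩, ⟨by linarith, hR0⟩, ⟨by linarith, hR0⟩⟩)
    exact lt_of_le_of_lt this hD100
  have hglob : ∀ s ∈ Icc (0 : ℝ) 1, ∀ z1 z2, D σ y1 y2 ≤ D s z1 z2 := by
    intro s hs z1 z2
    by_cases h : R ≤ |z1| ∨ R ≤ |z2|
    · exact hDneg.le.trans (hout s hs z1 z2 h)
    · push Not at h
      exact hmin (show ((s, z1, z2) : ℝ × ℝ × ℝ) ∈ Icc (0 : ℝ) 1 ×ˢ Icc (-R) R ×ˢ Icc (-R) R from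
        ⟨hs, abs_le.1 h.1.le, abs_le.1 h.2.le⟩)
  have hσ0 : 0 < σ := by
    rcases hσ.1.eq_or_lt with h | h
    · exfalso
      subst h
      have h1 := H y1 y2
      have h2 : 0 ≤ ε * Real.exp (K * 0) * (1 + y1 ^ 2 + y2 ^ 2) := by positivity
      simp only [hD, qW_zero] at hDneg
      linarith
    · exact h
  obtain ⟨F1, F2, hF1, hF2, hFt, hFL⟩ := qW_smooth hf hσ0
  obtain ⟨G1, G2, hG1, hG2, hGt, hGL⟩ := qW_smooth hg hσ0
  obtain ⟨H1, H2, hH1, hH2, hHt, hHL⟩ := qW_smooth hh hσ0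
  set E := ε * Real.exp (K * σ) with hE
  have hE0 : 0 < E := by positivity
  set y := θ' * y1 + θ * y2 with hy
  have e1 : θ' * (H1 y - F1 y1) + 2 * E * y1 = 0 := by
    have d1 : HasDerivAt (fun t => qW Uh σ (θ' * t + θ * y2)) (H1 y * θ') y1 := by
      have := (hH1 y).comp y1 (((hasDerivAt_id' y1).const_mul θ').add_const (θ * y2))
      simpa [Function.comp_def] using this
    have d2 := (((d1.fun_sub ((hF1 y1).const_mul θ')).sub_const (θ * qW Ug σ y2)).fun_add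
      ((((hasDerivAt_pow 2 y1).const_add 1).add_const (y2 ^ 2)).const_mul E))
    have := IsLocalMin.hasDerivAt_eq_zero (f := fun t => D σ t y2)
      (Eventually.of_forall fun t => hglob σ hσ t y2) d2
    simp at this
    linarith
  have e2 : θ * (H1 y - G1 y2) + 2 * E * y2 = 0 := by
    have d1 : HasDerivAt (fun t => qW Uh σ (θ' * y1 + θ * t)) (H1 y * θ) y2 := by
      have := (hH1 y).comp y2 (((hasDerivAt_id' y2).const_mul θ).const_add (θ' * y1))
      simpa [Function.comp_def] using this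
    have d2 := (((d1.sub_const (θ' * qW Uf σ y1)).fun_sub ((hG1 y2).const_mul θ)).fun_add
      (((hasDerivAt_pow 2 y2).const_add (1 + y1 ^ 2)).const_mul E))
    have := IsLocalMin.hasDerivAt_eq_zero (f := fun t => D σ y1 t)
      (Eventually.of_forall fun t => hglob σ hσ y1 t) d2
    simp at this
    linarith
  have e3 : 0 ≤ H2 y - θ' * F2 y1 - θ * G2 y2 + 4 * E := by
    have shift : ∀ (W W1 : ℝ → ℝ) (u t : ℝ), HasDerivAt W (W1 (u + t)) (u + t) →
        HasDerivAt (fun t => W (u + t)) (W1 (u + t)) t := by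
      intro W W1 u t hW
      simpa [Function.comp_def] using hW.comp t ((hasDerivAt_id' t).const_add u)
    refine second_deriv_nonneg_of_min
      (G := fun t => qW Uh σ (y + t) - θ' * qW Uf σ (y1 + t) - θ * qW Ug σ (y2 + t)
        + E * (1 + (y1 + t) ^ 2 + (y2 + t) ^ 2))
      (G1 := fun t => H1 (y + t) - θ' * F1 (y1 + t) - θ * G1 (y2 + t)
        + E * (2 * (y1 + t) + 2 * (y2 + t))) (fun t => ?_) ?_ (fun t => ?_)
    · have p1 : HasDerivAt (fun t => (y1 + t) ^ 2) (2 * (y1 + t)) t := by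
        simpa using ((hasDerivAt_id' t).const_add y1).fun_pow 2
      have p2 : HasDerivAt (fun t => (y2 + t) ^ 2) (2 * (y2 + t)) t := by
        simpa using ((hasDerivAt_id' t).const_add y2).fun_pow 2
      exact (((shift _ H1 y t (hH1 _)).fun_sub ((shift _ F1 y1 t (hF1 _)).const_mul θ')).fun_sub
        ((shift _ G1 y2 t (hG1 _)).const_mul θ)).fun_add (((p1.const_add 1).fun_add p2).const_mul E)
    · have p1 : HasDerivAt (fun t => 2 * (y1 + t) + 2 * (y2 + t)) 4 (0 : ℝ) := by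
        have := (((hasDerivAt_id' (0 : ℝ)).const_add y1).const_mul 2).fun_add
          (((hasDerivAt_id' (0 : ℝ)).const_add y2).const_mul 2)
        exact this.congr_deriv (by norm_num)
      have := (((shift _ H2 y 0 (hH2 _)).fun_sub ((shift _ F2 y1 0 (hF2 _)).const_mul θ')).fun_sub
        ((shift _ G2 y2 0 (hG2 _)).const_mul θ)).fun_add (p1.const_mul E)
      refine this.congr_deriv ?_
      simp only [add_zero]; ring
    · have := hglob σ hσ (y1 + t) (y2 + t)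
      simp only [hD] at this
      rw [show θ' * (y1 + t) + θ * (y2 + t) = y + t by
        rw [hy]; linear_combination t * hθθ] at this
      simpa using this
  have e4 : σ * (H2 y - qW Uh σ y * H1 y ^ 2) - θ' * (σ * (F2 y1 - qW Uf σ y1 * F1 y1 ^ 2))
      - θ * (σ * (G2 y2 - qW Ug σ y2 * G1 y2 ^ 2)) + K * E * (1 + y1 ^ 2 + y2 ^ 2) ≤ 0 := by
    have p1 : HasDerivAt (fun s => ε * Real.exp (K * s) * (1 + y1 ^ 2 + y2 ^ 2))
        (K * E * (1 + y1 ^ 2 + y2 ^ 2)) σ := by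
      have := ((((hasDerivAt_id' σ).const_mul K).exp).const_mul ε).mul_const (1 + y1 ^ 2 + y2 ^ 2)
      refine this.congr_deriv ?_
      rw [hE]; ring
    have d := (((hHt y).fun_sub ((hFt y1).const_mul θ')).fun_sub ((hGt y2).const_mul θ)).fun_add p1
    exact deriv_nonpos_of_left_min (F := fun s => D s y1 y2) d hσ0
      fun s hs => hglob s ⟨hs.1, hs.2.trans hσ.2⟩ y1 y2
  refine max_principle_alg (M := M) (L := L) hσ0 hσ.2 hE0 hL0 hM0 hθθ hK ?_ ?_ (hHL y) (hFL y1)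
    (hGL y2) ?_ e1 e2 e3 e4
  · linarith [hMf σ hσ y1]
  · linarith [hMg σ hσ y2]
  · have h2 : 0 ≤ E * (1 + y1 ^ 2 + y2 ^ 2) := by positivity
    simp only [hD] at hDneg
    linarith

end Crest.Agent.R215
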