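import Crest.Agent.R215.Ehrhard1

/-! Functional Ehrhard inequality in finite dimension and the resulting key inequality. -/

set_option autoImplicit false
open MeasureTheory ProbabilityTheory Set Filter Topology Real
open scoped NNReal

namespace Crest.Agent.R215

noncomputable def redU {n : ℕ} (U : (Fin (n + 1) → ℝ) → ℝ) (x : Fin n → ℝ) : ℝ :=
  qW (fun y => U (Fin.cons y x)) 1 0

lemma dist_cons_left {n : ℕ} (y y' : ℝ) (x : Fin n → ℝ) :
    dist (Fin.cons y x : Fin (n + 1) → ℝ) (Fin.cons y' x) ≤ dist y y' := by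
  rw [dist_pi_le_iff dist_nonneg]
  intro i
  refine Fin.cases ?_ (fun j => ?_) i <;> simp

lemma dist_cons_right {n : ℕ} (y : ℝ) (x x' : Fin n → ℝ) :
    dist (Fin.cons y x : Fin (n + 1) → ℝ) (Fin.cons y x') ≤ dist x x' := by
  rw [dist_pi_le_iff dist_nonneg]
  intro i
  refine Fin.cases ?_ (fun j => ?_) i
  · simp
  · simpa using dist_le_pi_dist x x' j

lemma lipschitz_cons_left {n : ℕ} {U : (Fin (n + 1) → ℝ) → ℝ} {L : ℝ≥0} (hU : LipschitzWith L U)
    (x : Fin n → ℝ) : LipschitzWith L (fun y => U (Fin.cons y x)) :=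
  LipschitzWith.of_dist_le_mul fun y y' => (hU.dist_le_mul _ _).trans
    (mul_le_mul_of_nonneg_left (dist_cons_left y y' x) L.2)

lemma redU_eq {n : ℕ} (U : (Fin (n + 1) → ℝ) → ℝ) (x : Fin n → ℝ) :
    redU U x = PhiInv (∫ y, Phi (U (Fin.cons y x)) ∂gam) := by
  simp [redU, qW, heat]

lemma lipschitz_redU {n : ℕ} {U : (Fin (n + 1) → ℝ) → ℝ} {L : ℝ≥0} (hU : LipschitzWith L U) :
    LipschitzWith L (redU U) := by
  have key : ∀ x x', redU U x ≤ redU U x' + L * dist x x' := by
    intro x x'
    rw [redU_eq, redU_eq]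
    refine PhiInv_integral_le_add (lipschitz_cons_left hU x).continuous.measurable
      (lipschitz_cons_left hU x').continuous.measurable (by positivity) fun y => ?_
    have h1 := hU.dist_le_mul (Fin.cons y x) (Fin.cons y x')
    have h2 := mul_le_mul_of_nonneg_left (dist_cons_right y x x') L.2
    rw [Real.dist_eq] at h1
    have h3 := le_abs_self (U (Fin.cons y x) - U (Fin.cons y x'))
    have h4 : (L : ℝ) * dist (Fin.cons y x : Fin (n + 1) → ℝ) (Fin.cons y x') ≤ L * dist x x' := h2
    linarith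
  refine LipschitzWith.of_dist_le_mul fun x x' => ?_
  rw [Real.dist_eq, abs_le]
  have h1 := key x x'
  have h2 := key x' x
  rw [dist_comm] at h2
  constructor <;> linarith

lemma integral_pi_succ {n : ℕ} {F : (Fin (n + 1) → ℝ) → ℝ}
    (hF : Integrable F (Measure.pi fun _ => gam)) :
    ∫ x, F x ∂(Measure.pi fun _ => gam) =
      ∫ x, ∫ y, F (Fin.cons y x) ∂gam ∂(Measure.pi fun _ : Fin n => gam) := by
  have hmp := (measurePreserving_piFinSuccAbove (fun _ : Fin (n + 1) => gam) 0).symm
  rw [← hmp.integral_comp', integral_prod_symm]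
  · simp [MeasurableEquiv.piFinSuccAbove, Fin.insertNthEquiv]
  · exact (hmp.integrable_comp_emb (MeasurableEquiv.measurableEmbedding _)).2 hF

lemma integral_Phi_redU {n : ℕ} {U : (Fin (n + 1) → ℝ) → ℝ} {L : ℝ≥0} (hU : LipschitzWith L U) :
    ∫ x, Phi (U x) ∂(Measure.pi fun _ => gam) =
      ∫ x, Phi (redU U x) ∂(Measure.pi fun _ : Fin n => gam) := by
  rw [integral_pi_succ (integrable_Phi_comp hU.continuous.measurable)]
  congr 1
  funext x
  have hm := (lipschitz_cons_left hU x).continuous.measurable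
  rw [redU_eq, Phi_PhiInv (integral_Phi_pos hm) (integral_Phi_lt_one hm)]

theorem ehrhard_pi {θ θ' : ℝ} (hθ : 0 ≤ θ) (hθ' : 0 ≤ θ') (hθθ : θ' + θ = 1) {L : ℝ≥0} (n : ℕ) :
    ∀ {Uf Ug Uh : (Fin n → ℝ) → ℝ}, LipschitzWith L Uf → LipschitzWith L Ug →
      LipschitzWith L Uh → (∀ x y, θ' * Uf x + θ * Ug y ≤ Uh (θ' • x + θ • y)) →
      θ' * PhiInv (∫ x, Phi (Uf x) ∂(Measure.pi fun _ => gam))
        + θ * PhiInv (∫ x, Phi (Ug x) ∂(Measure.pi fun _ => gam))
        ≤ PhiInv (∫ x, Phi (Uh x) ∂(Measure.pi fun _ => gam)) := by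
  induction n with
  | zero =>
    intro Uf Ug Uh _ _ _ H
    simp only [integral_unique, probReal_univ, one_smul, PhiInv_Phi]
    exact (H _ _).trans (le_of_eq (congrArg Uh (Subsingleton.elim _ _)))
  | succ n ih =>
    intro Uf Ug Uh hf hg hh H
    rw [integral_Phi_redU hf, integral_Phi_redU hg, integral_Phi_redU hh]
    refine ih (lipschitz_redU hf) (lipschitz_redU hg) (lipschitz_redU hh) fun x y => ?_
    refine ehrhard_one (lipschitz_cons_left hf x) (lipschitz_cons_left hg y)
      (lipschitz_cons_left hh _) hθ hθ' hθθ fun y1 y2 => ?_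
    have := H (Fin.cons y1 x) (Fin.cons y2 y)
    refine this.trans (le_of_eq ?_)
    congr 1
    funext i
    refine Fin.cases ?_ (fun j => ?_) i <;> simp

section E
variable {E : Type*} [NormedAddCommGroup E] [InnerProductSpace ℝ E] [FiniteDimensional ℝ E]
  [MeasurableSpace E] [BorelSpace E]

theorem ehrhard_E {θ θ' : ℝ} (hθ : 0 ≤ θ) (hθ' : 0 ≤ θ') (hθθ : θ' + θ = 1) {L : ℝ≥0}
    {Uf Ug Uh : E → ℝ} (hf : LipschitzWith L Uf) (hg : LipschitzWith L Ug)
    (hh : LipschitzWith L Uh) (H : ∀ x y, θ' * Uf x + θ * Ug y ≤ Uh (θ' • x + θ • y)) :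
    θ' * PhiInv (∫ x, Phi (Uf x) ∂stdGaussian E) + θ * PhiInv (∫ x, Phi (Ug x) ∂stdGaussian E)
        ≤ PhiInv (∫ x, Phi (Uh x) ∂stdGaussian E) := by
  set b := stdOrthonormalBasis ℝ E
  let T : (Fin (Module.finrank ℝ E) → ℝ) →L[ℝ] E :=
    LinearMap.toContinuousLinearMap (Fintype.linearCombination ℝ b)
  have hT : (fun x : Fin (Module.finrank ℝ E) → ℝ => ∑ i, x i • b i) = T := by
    funext x; simp [T, Fintype.linearCombination_apply]
  have hint : ∀ U : E → ℝ, Continuous U → ∫ x, Phi (U x) ∂stdGaussian E =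
      ∫ x, Phi (U (T x)) ∂(Measure.pi fun _ => gam) := by
    intro U hU
    rw [stdGaussian, hT, integral_map T.continuous.aemeasurable
      (Continuous.aestronglyMeasurable (by fun_prop))]
  rw [hint _ hf.continuous, hint _ hg.continuous, hint _ hh.continuous]
  refine ehrhard_pi hθ hθ' hθθ _ (hf.comp T.lipschitz) (hg.comp T.lipschitz)
    (hh.comp T.lipschitz) fun x y => ?_
  simpa using H (T x) (T y)

lemma integrable_of_lipschitz {U : E → ℝ} {L : ℝ≥0} (hU : LipschitzWith L U) :
    Integrable U (stdGaussian E) := by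
  have h1 : Integrable (fun x : E => ‖x‖) (stdGaussian E) := IsGaussian.integrable_id.norm
  refine Integrable.mono' ((integrable_const |U 0|).add (h1.const_mul L))
    hU.continuous.aestronglyMeasurable (Eventually.of_forall fun x => ?_)
  have := hU.dist_le_mul x 0
  rw [Real.dist_eq, dist_zero_right] at this
  simp only [Pi.add_apply, Real.norm_eq_abs]
  calc |U x| = |U 0 + (U x - U 0)| := by ring_nf
    _ ≤ |U 0| + |U x - U 0| := abs_add_le _ _
    _ ≤ _ := by linarith

lemma integral_Ioi_Phi_sub (u b : ℝ) (hb : 0 < b) :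
    IntegrableOn (fun t => Phi (u - b * t)) (Ioi 0) ∧
      ∫ t in Ioi (0 : ℝ), Phi (u - b * t) = Psi u / b := by
  have hd : ∀ t, HasDerivAt (fun t => -(Psi (u - b * t) / b)) (Phi (u - b * t)) t := by
    intro t
    have h1 := (hasDerivAt_Psi (u - b * t)).comp t (((hasDerivAt_id' t).const_mul b).const_sub u)
    refine ((h1.div_const b).fun_neg).congr_deriv ?_
    field_simp
  have ht : Tendsto (fun t => -(Psi (u - b * t) / b)) atTop (𝓝 0) := by
    have h1 : Tendsto (fun t => u - b * t) atTop atBot := by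
      simp only [sub_eq_add_neg]
      exact tendsto_atBot_add_const_left _ _
        (tendsto_neg_atTop_atBot.comp (tendsto_id.const_mul_atTop hb))
    simpa using ((tendsto_Psi_atBot.comp h1).div_const b).neg
  refine ⟨integrableOn_Ioi_deriv_of_nonneg' (fun t _ => hd t) (fun t _ => Phi_nonneg _) ht, ?_⟩
  have := integral_Ioi_of_hasDerivAt_of_nonneg' (a := 0) (fun t _ => hd t)
    (fun t _ => Phi_nonneg _) ht
  simpa using this

/-- The consequence of Ehrhard's inequality used in the proof. -/
theorem key_concave {U : E → ℝ} {L : ℝ≥0} (hU : LipschitzWith L U) (hc : ConcaveOn ℝ univ U)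
    {a : ℝ} (ha : Phi a = ∫ x, Phi (U x) ∂stdGaussian E) :
    (∫ x, Psi (U x) ∂stdGaussian E) * (∫ x, phi (U x) ∂stdGaussian E) ≤ phi a * Psi a := by
  have hUc := hU.continuous
  set μ := stdGaussian E
  set h : ℝ → ℝ := fun t => ∫ x, Phi (U x - t) ∂μ with hh
  set r := ∫ x, phi (U x) ∂μ with hr
  have hphiint : Integrable (fun x => phi (U x)) μ :=
    Integrable.mono' (integrable_const (phi 0)) (Continuous.aestronglyMeasurable (by fun_prop))
      (Eventually.of_forall fun x => by
        rw [Real.norm_eq_abs, abs_of_pos (phi_pos _)]; exact phi_le _)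
  have hr0 : 0 < r := by
    rw [hr, integral_pos_iff_support_of_nonneg (fun x => (phi_pos _).le) hphiint]
    have : Function.support (fun x => phi (U x)) = univ :=
      eq_univ_of_forall fun x => (phi_pos _).ne'
    simp [this]
  have hpos : ∀ t, 0 < h t := fun t => integral_Phi_pos (U := fun x => U x - t) (by fun_prop)
  have hlt : ∀ t, h t < 1 := fun t => integral_Phi_lt_one (U := fun x => U x - t) (by fun_prop)
  have hder : HasDerivAt h (-r) 0 := by
    have := (hasDerivAt_integral_of_dominated_loc_of_deriv_le (μ := μ)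
      (F := fun t x => Phi (U x - t)) (F' := fun t x => -phi (U x - t))
      (bound := fun _ => phi 0) (x₀ := (0 : ℝ)) (s := univ) univ_mem ?_ ?_ ?_ ?_ ?_ ?_).2
    · refine this.congr_deriv ?_
      simp [hr, integral_neg]
    · exact Eventually.of_forall fun t => Continuous.aestronglyMeasurable (by fun_prop)
    · exact integrable_Phi_comp (by fun_prop)
    · exact Continuous.aestronglyMeasurable (by fun_prop)
    · refine Eventually.of_forall fun x t _ => ?_
      rw [norm_neg, Real.norm_eq_abs, abs_of_pos (phi_pos _)]; exact phi_le _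
    · exact integrable_const _
    · refine Eventually.of_forall fun x t _ => ?_
      have := (hasDerivAt_Phi (U x - t)).comp t ((hasDerivAt_id' t).const_sub (U x))
      simpa [Function.comp_def] using this
  have h0 : h 0 = Phi a := by simp [hh, ha]
  set H : ℝ → ℝ := fun t => PhiInv (h t) with hH
  have hH0 : H 0 = a := by simp [hH, h0, PhiInv_Phi]
  set b := r / phi a with hb
  have hb0 : 0 < b := div_pos hr0 (phi_pos a)
  have hHder : HasDerivAt H (-b) 0 := by
    have := (hasDerivAt_PhiInv (hpos 0) (hlt 0)).comp 0 hder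
    refine this.congr_deriv ?_
    rw [h0, PhiInv_Phi, hb]; ring
  have hsh : ∀ t, LipschitzWith L (fun x => U x - t) := fun t =>
    LipschitzWith.of_dist_le_mul fun x y => by simpa using hU.dist_le_mul x y
  have hconc : ConcaveOn ℝ univ H := by
    refine ⟨convex_univ, fun s _ t _ θ' θ hθ' hθ hθθ => ?_⟩
    refine ehrhard_E hθ hθ' hθθ (hsh s) (hsh t) (hsh _) fun x y => ?_
    have := hc.2 (mem_univ x) (mem_univ y) hθ' hθ hθθ
    simp only [smul_eq_mul] at this ⊢
    linarith
  have htan : ∀ t, 0 < t → h t ≤ Phi (a - b * t) := by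
    intro t ht
    have := hconc.slope_le_of_hasDerivAt (mem_univ 0) (mem_univ t) ht hHder
    rw [slope_def_field, hH0, sub_zero, div_le_iff₀ ht] at this
    rw [← PhiInv_le_iff (hpos t) (hlt t)]
    change H t ≤ _
    linarith
  have hUint := integrable_of_lipschitz hU
  have hPsiint : Integrable (fun x => Psi (U x)) μ :=
    Integrable.mono' (hUint.abs.add (integrable_const 1))
      (Continuous.aestronglyMeasurable (by fun_prop))
      (Eventually.of_forall fun x => by
        rw [Real.norm_eq_abs, abs_of_pos (Psi_pos _)]; exact Psi_le _)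
  have hPsi : ∀ u, ∫ t in Ioi (0 : ℝ), Phi (u - t) = Psi u := fun u => by
    simpa using (integral_Ioi_Phi_sub u 1 one_pos).2
  have hprod : Integrable (Function.uncurry fun (x : E) (t : ℝ) => Phi (U x - t))
      (μ.prod (volume.restrict (Ioi 0))) := by
    rw [integrable_prod_iff (Continuous.aestronglyMeasurable (by fun_prop))]
    refine ⟨Eventually.of_forall fun x => ?_, ?_⟩
    · simpa [IntegrableOn] using (integral_Ioi_Phi_sub (U x) 1 one_pos).1
    · refine hPsiint.congr (Eventually.of_forall fun x => ?_)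
      simp only [Function.uncurry, Real.norm_eq_abs, abs_of_pos (Phi_pos _), hPsi]
  have hswap : ∫ x, Psi (U x) ∂μ = ∫ t in Ioi (0 : ℝ), h t := by
    rw [← integral_integral_swap hprod]
    simp only [hPsi]
  have hle : ∫ t in Ioi (0 : ℝ), h t ≤ Psi a / b := by
    rw [← (integral_Ioi_Phi_sub a b hb0).2]
    refine integral_mono_of_nonneg (Eventually.of_forall fun t => (hpos t).le)
      (integral_Ioi_Phi_sub a b hb0).1 ?_
    filter_upwards [ae_restrict_mem measurableSet_Ioi] with t ht using htan t ht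
  rw [hswap]
  calc (∫ t in Ioi (0 : ℝ), h t) * r ≤ Psi a / b * r := by gcongr
    _ = phi a * Psi a := by rw [hb]; field_simp

end E

end Crest.Agent.R215
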