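import Crest.Agent.R215.Crit
import Crest.Agent.R215.BB4
import Crest.Agent.R215.Cert5

/-! No minimal counterexample exists. -/

set_option autoImplicit false
set_option linter.unusedSectionVars false
open MeasureTheory ProbabilityTheory Set Filter Topology Real
open scoped NNReal RealInnerProductSpace

namespace Crest.Agent.R215

lemma heron_le {x y z H1 H2 H3 σ : ℝ} (h1 : 0 ≤ H1) (h2 : 0 ≤ H2) (h3 : 0 ≤ H3)
    (hσ : H1 + H2 + H3 ≤ σ) (hzy : z ≤ y) (hyx : y ≤ x) (hx : 0 ≤ x) :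
    x * y - ((x + y - z + σ) / 2) ^ 2
      ≤ (x - H1) * (y - H2) - (((x - H1) + (y - H2) - (z - H3)) / 2) ^ 2 := by
  have e1 : H1 + H2 ≤ (σ + H1 + H2 - H3) / 2 := by linarith
  have e2 : x ≤ x + y - z + (σ - H1 - H2 + H3) / 2 := by linarith
  have e3 : (H1 + H2) * x ≤ (σ + H1 + H2 - H3) / 2 * (x + y - z + (σ - H1 - H2 + H3) / 2) :=
    mul_le_mul e1 e2 hx (by linarith)
  nlinarith [mul_nonneg h1 h2, mul_nonneg h1 (sub_nonneg.2 hyx)]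

variable {E : Type*} [NormedAddCommGroup E] [InnerProductSpace ℝ E]

lemma quad5 {v1 v2 v3 v4 R : E} (h : v1 + v2 + v3 + v4 + R = 0) (c1 c2 c3 c4 : ℝ) :
    ‖c1 • v1 + c2 • v2 + c3 • v3 + c4 • v4‖ ^ 2 =
      -⟪v1, v2⟫ * (c1 - c2) ^ 2 + -⟪v1, v3⟫ * (c1 - c3) ^ 2 + -⟪v2, v3⟫ * (c2 - c3) ^ 2
      + -⟪v1, v4⟫ * (c1 - c4) ^ 2 + -⟪v2, v4⟫ * (c2 - c4) ^ 2 + -⟪v3, v4⟫ * (c3 - c4) ^ 2
      + -⟪v1, R⟫ * c1 ^ 2 + -⟪v2, R⟫ * c2 ^ 2 + -⟪v3, R⟫ * c3 ^ 2 + -⟪v4, R⟫ * c4 ^ 2 := by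
  have hR : R = -(v1 + v2 + v3 + v4) := by rw [eq_neg_iff_add_eq_zero, add_comm, h]
  subst hR
  rw [← real_inner_self_eq_norm_sq]
  simp only [inner_add_left, inner_add_right, real_inner_smul_left, real_inner_smul_right,
    inner_neg_right, real_inner_comm v1 v2, real_inner_comm v1 v3, real_inner_comm v1 v4,
    real_inner_comm v2 v3, real_inner_comm v2 v4, real_inner_comm v3 v4]
  ring

lemma norm_sum_sq_le {ι : Type*} [Fintype ι] {v : ι → E} (h : ∀ i j, i ≠ j → ⟪v i, v j⟫ ≤ 0) :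
    ‖∑ i, v i‖ ^ 2 ≤ ∑ i, ‖v i‖ ^ 2 := by
  classical
  rw [← real_inner_self_eq_norm_sq, sum_inner]
  refine Finset.sum_le_sum fun i _ => ?_
  rw [inner_sum, ← Finset.add_sum_erase _ _ (Finset.mem_univ i), real_inner_self_eq_norm_sq]
  have : ∑ j ∈ Finset.univ.erase i, ⟪v i, v j⟫ ≤ 0 :=
    Finset.sum_nonpos fun j hj => h i j (Finset.ne_of_mem_erase hj).symm
  linarith

variable [FiniteDimensional ℝ E] [MeasurableSpace E] [BorelSpace E]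

lemma needle5 {v1 v2 v3 v4 R : E} {k σ T : ℝ} (hk : 0 ≤ k) (h : v1 + v2 + v3 + v4 + R = 0)
    (h12 : ⟪v1, v2⟫ < 0) (h13 : ⟪v1, v3⟫ ≤ 0) (h14 : ⟪v1, v4⟫ ≤ 0)
    (h24 : ⟪v2, v4⟫ ≤ 0) (h34 : ⟪v3, v4⟫ ≤ 0) (h1 : ⟪v1, R⟫ ≤ 0) (h2 : ⟪v2, R⟫ ≤ 0)
    (h3 : ⟪v3, R⟫ ≤ 0) (h4 : ⟪v4, R⟫ ≤ 0) (hR : ‖R‖ ^ 2 ≤ σ) {S : Set E}
    (hS : ∀ x ∈ S, ⟪v1, x⟫ ≤ ⟪v4, x⟫ ∧ ⟪v2, x⟫ ≤ ⟪v4, x⟫ ∧ ⟪v3, x⟫ ≤ (k - 2) * ⟪v4, x⟫)
    (hT : 0 < T)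
    (hT' : T ≤ (-⟪v1, v2⟫ + -⟪v1, v3⟫) * (-⟪v1, v2⟫ + -⟪v2, v3⟫) - (-⟪v1, v2⟫) ^ 2) :
    (stdGaussian E).real S * (8 * π * √T) ≤ (k + 1) ^ 2 * ‖v4‖ ^ 2 + σ := by
  have key := needle (v4 - v1) (v4 - v2) (k • v4 - v1 - v2 - v3)
    (A := -⟪v1, v2⟫ + -⟪v1, v3⟫) (B := -⟪v1, v2⟫ + -⟪v2, v3⟫) (C := -⟪v1, v2⟫) (by linarith)
    (by linarith) (fun α β γ => by
      have e : α • (v4 - v1) + β • (v4 - v2) + γ • (k • v4 - v1 - v2 - v3)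
          = (-(α + γ)) • v1 + (-(β + γ)) • v2 + (-γ) • v3 + (α + β + γ * k) • v4 := by module
      rw [e, quad5 h]
      have t1 := mul_nonneg (neg_nonneg.2 h14) (sq_nonneg (-(α + γ) - (α + β + γ * k)))
      have t2 := mul_nonneg (neg_nonneg.2 h24) (sq_nonneg (-(β + γ) - (α + β + γ * k)))
      have t3 := mul_nonneg (neg_nonneg.2 h34) (sq_nonneg (-γ - (α + β + γ * k)))
      have t4 := mul_nonneg (neg_nonneg.2 h1) (sq_nonneg (-(α + γ)))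
      have t5 := mul_nonneg (neg_nonneg.2 h2) (sq_nonneg (-(β + γ)))
      have t6 := mul_nonneg (neg_nonneg.2 h3) (sq_nonneg (-γ))
      have t7 := mul_nonneg (neg_nonneg.2 h4) (sq_nonneg (α + β + γ * k))
      linarith)
  have hq : ‖k • v4 - v1 - v2 - v3‖ ^ 2 ≤ (k + 1) ^ 2 * ‖v4‖ ^ 2 + σ := by
    have hR' : R = -(v1 + v2 + v3 + v4) := by rw [eq_neg_iff_add_eq_zero, add_comm, h]
    have e : k • v4 - v1 - v2 - v3 = (k + 1) • v4 + R := by rw [hR']; module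
    rw [e, norm_add_sq_real, norm_smul, mul_pow, Real.norm_eq_abs, sq_abs, real_inner_smul_left]
    nlinarith
  refine le_trans ?_ (key.trans hq)
  refine mul_le_mul (measureReal_mono (fun x hx => ?_) (measure_ne_top _ _)) (by gcongr)
    (by positivity) measureReal_nonneg
  obtain ⟨a1, a2, a3⟩ := hS x hx
  simp only [mem_ofPred_eq, inner_sub_left, real_inner_smul_left]
  refine ⟨by linarith, by linarith, by linarith⟩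

variable {n : ℕ} {z : Fin (n + 2) → E} {lam : ℝ}

lemma Crit.good (h : Crit z lam) (hc : Claim E n) (j : Fin (n + 2)) :
    Good (‖z j‖ ^ 2) (pc z j) := by
  have hl0 := lam0_pos
  have hl := h.lam_gt
  refine ⟨sq_nonneg _, ?_, fun a => ?_⟩
  · obtain ⟨a, ha, h2⟩ := h.deletion j
    refine ⟨a, ha, le_trans ?_ h2⟩
    set s := ‖z j‖ ^ 2 with hs
    set θ : ℝ := (n + 1) / (n + 2) with hθ
    have hθ0 : 0 < θ := by positivity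
    have hθ1 : θ ≤ 1 := by rw [hθ, div_le_one (by positivity)]; linarith
    have h3 := hc fun l => z (j.succAbove l) - (-((n : ℝ) + 1)⁻¹) • z j
    rw [Mz_sub_const] at h3
    have h4 : ∑ l, ‖z (j.succAbove l) - (-((n : ℝ) + 1)⁻¹) • z j‖ ^ 2 = 1 - s / θ := by
      have e1 : ∑ l, z (j.succAbove l) = -z j := by
        have := h.sum_zero
        rw [Fin.sum_univ_succAbove _ j] at this
        exact eq_neg_of_add_eq_zero_right this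
      have e2 : ∑ l, ‖z (j.succAbove l)‖ ^ 2 = 1 - s := by
        have := h.norm
        rw [Fin.sum_univ_succAbove _ j] at this
        linarith
      simp_rw [norm_sub_sq_real, real_inner_smul_right]
      rw [Finset.sum_add_distrib, Finset.sum_sub_distrib, ← Finset.mul_sum, ← Finset.mul_sum,
        ← sum_inner, e1, e2, inner_neg_left, real_inner_self_eq_norm_sq, norm_smul, mul_pow,
        Real.norm_eq_abs, sq_abs, ← hs, hθ]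
      simp only [Finset.sum_const, Finset.card_univ, Fintype.card_fin, nsmul_eq_mul]
      push_cast
      field_simp
      ring
    have h5 : 0 ≤ 1 - s / θ := by
      rw [← h4]; exact Finset.sum_nonneg fun _ _ => sq_nonneg _
    rw [h4] at h3
    set q := √(1 - s / θ) with hq
    have hq0 : 0 ≤ q := Real.sqrt_nonneg _
    have hq2 : q ^ 2 = 1 - s / θ := Real.sq_sqrt h5
    have hs0 : 0 ≤ s := sq_nonneg _
    have hq1 : q ≤ 1 := Real.sqrt_le_one.2 (by linarith [div_nonneg hs0 hθ0.le])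
    have h6 : (1 - θ) + θ * q ≤ √(1 - s) := by
      apply Real.le_sqrt_of_sq_le
      have : θ * q ^ 2 = θ - s := by rw [hq2]; field_simp
      nlinarith [mul_nonneg (mul_nonneg hθ0.le (sub_nonneg.2 hθ1)) (sq_nonneg (1 - q))]
    calc lam0 ^ 2 * (1 - √(1 - s)) ≤ lam0 ^ 2 * (θ * (1 - q)) := by gcongr; linarith
      _ = (lam0 - lam0 * q) * (lam0 * θ) := by ring
      _ ≤ _ := by
          gcongr
          nlinarith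
  · rw [Real.sqrt_sq (norm_nonneg _)]
    exact le_trans (by gcongr) (h.level j a)

lemma Crit.big {z : Fin 4 → E} (h : Crit (n := 2) z lam) (j : Fin 4) (hj : j.succAbove 2 = 3) :
    Big (‖z j‖ ^ 2) (pc z j) (‖z 3‖ ^ 2) := by
  have hl0 := lam0_pos
  have hl := h.lam_gt
  obtain ⟨a, ha, h2⟩ := h.deletion j
  rw [Mz_three] at h2
  have e1 := h.sum_zero
  have e2 := h.norm
  rw [Fin.sum_univ_succAbove _ j, Fin.sum_univ_three] at e1 e2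
  have hneg : ⟪z j, z (j.succAbove 2)⟫ ≤ 0 := (h.neg _ _ (Fin.succAbove_ne j 2).symm).le
  rw [← hj]
  set u0 := z j
  set u1 := z (j.succAbove 0)
  set u2 := z (j.succAbove 1)
  set u3 := z (j.succAbove 2)
  have hu0 : u0 = -(u1 + u2 + u3) := eq_neg_of_add_eq_zero_left e1
  have f1 : ‖u1 - u2‖ ^ 2 + ‖u1 - u3‖ ^ 2 + ‖u2 - u3‖ ^ 2 = 3 - 4 * ‖u0‖ ^ 2 := by
    have : ‖u0‖ ^ 2 = ‖u1 + u2 + u3‖ ^ 2 := by rw [hu0, norm_neg]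
    rw [norm_add_sq_real, norm_add_sq_real, inner_add_left] at this
    rw [norm_sub_sq_real, norm_sub_sq_real, norm_sub_sq_real]
    linarith
  have f2 : ‖u1 - u3‖ ^ 2 + ‖u2 - u3‖ ^ 2 ≤ 1 - ‖u0‖ ^ 2 + 3 * ‖u3‖ ^ 2 := by
    rw [hu0, inner_neg_left, inner_add_left, inner_add_left, real_inner_self_eq_norm_sq] at hneg
    rw [norm_sub_sq_real, norm_sub_sq_real]
    linarith
  refine ⟨‖u1 - u2‖, ‖u1 - u3‖, ‖u2 - u3‖, f1.le, f2, a, ha, le_trans ?_ h2⟩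
  set d := ‖u1 - u2‖ + ‖u1 - u3‖ + ‖u2 - u3‖ with hd
  have q1 : d ≤ 3 := by
    nlinarith [sq_nonneg (‖u1 - u2‖ - 1), sq_nonneg (‖u1 - u3‖ - 1), sq_nonneg (‖u2 - u3‖ - 1),
      sq_nonneg ‖u0‖]
  have q2 : 27 / (32 * π) = 3 / 4 * lam0 ^ 2 := by rw [lam0_sq]; field_simp; norm_num
  have q3 : phi 0 / 2 * d = lam0 * (d / 3) := by unfold lam0; ring
  rw [q2, q3]
  calc 3 / 4 * lam0 ^ 2 * (1 - d / 3) = (lam0 - lam0 * (d / 3)) * (lam0 * (3 / 4)) := by ring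
    _ ≤ (lam - lam0 * (d / 3)) * (lam * (3 / 4)) := by
        gcongr
        nlinarith
    _ = _ := by norm_num

lemma n4_of {v1 v2 v3 v4 R : E} {σ : ℝ} (h : v1 + v2 + v3 + v4 + R = 0)
    (h12 : ⟪v1, v2⟫ < 0) (h13 : ⟪v1, v3⟫ ≤ 0) (h14 : ⟪v1, v4⟫ ≤ 0)
    (h24 : ⟪v2, v4⟫ ≤ 0) (h34 : ⟪v3, v4⟫ ≤ 0) (h1 : ⟪v1, R⟫ ≤ 0) (h2 : ⟪v2, R⟫ ≤ 0)
    (h3 : ⟪v3, R⟫ ≤ 0) (h4 : ⟪v4, R⟫ ≤ 0) (hR : ‖R‖ ^ 2 ≤ σ)
    (hsum : ‖v1‖ ^ 2 + ‖v2‖ ^ 2 + ‖v3‖ ^ 2 + ‖v4‖ ^ 2 + σ = 1)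
    (o1 : ‖v2‖ ^ 2 ≤ ‖v1‖ ^ 2) (o2 : ‖v3‖ ^ 2 ≤ ‖v2‖ ^ 2) {S : Set E}
    (hS : ∀ x ∈ S, ⟪v1, x⟫ ≤ ⟪v4, x⟫ ∧ ⟪v2, x⟫ ≤ ⟪v4, x⟫ ∧ ⟪v3, x⟫ ≤ ⟪v4, x⟫)
    (hT : 0 < ‖v1‖ ^ 2 * ‖v2‖ ^ 2 - (1 / 2 - ‖v3‖ ^ 2) ^ 2) :
    (stdGaussian E).real S * (8 * π * √(‖v1‖ ^ 2 * ‖v2‖ ^ 2 - (1 / 2 - ‖v3‖ ^ 2) ^ 2))
      ≤ 16 * ‖v4‖ ^ 2 + σ := by
  have s1 := quad5 h 1 0 0 0
  have s2 := quad5 h 0 1 0 0
  have s3 := quad5 h 0 0 1 0
  have s4 := quad5 h 0 0 0 1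
  have s5 := quad5 h 1 1 1 1
  have hR' : v1 + v2 + v3 + v4 = -R := eq_neg_of_add_eq_zero_left h
  simp only [one_smul, zero_smul, add_zero, zero_add, hR', norm_neg] at s1 s2 s3 s4 s5
  have := needle5 (k := 3) (by norm_num) h h12 h13 h14 h24 h34 h1 h2 h3 h4 hR (S := S)
    (fun x hx => by have := hS x hx; norm_num; exact this) hT ?_
  · norm_num at this ⊢; exact this
  have hh := heron_le (x := ‖v1‖ ^ 2) (y := ‖v2‖ ^ 2) (z := ‖v3‖ ^ 2)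
    (H1 := -⟪v1, v4⟫ + -⟪v1, R⟫) (H2 := -⟪v2, v4⟫ + -⟪v2, R⟫) (H3 := -⟪v3, v4⟫ + -⟪v3, R⟫)
    (σ := ‖v4‖ ^ 2 + σ) (by linarith) (by linarith) (by linarith) (by linarith) o2 o1 (sq_nonneg _)
  rw [show (‖v1‖ ^ 2 + ‖v2‖ ^ 2 - ‖v3‖ ^ 2 + (‖v4‖ ^ 2 + σ)) / 2 = 1 / 2 - ‖v3‖ ^ 2 by linarith,
    show ‖v1‖ ^ 2 - (-⟪v1, v4⟫ + -⟪v1, R⟫) = -⟪v1, v2⟫ + -⟪v1, v3⟫ by linarith,
    show ‖v2‖ ^ 2 - (-⟪v2, v4⟫ + -⟪v2, R⟫) = -⟪v1, v2⟫ + -⟪v2, v3⟫ by linarith,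
    show ‖v3‖ ^ 2 - (-⟪v3, v4⟫ + -⟪v3, R⟫) = -⟪v1, v3⟫ + -⟪v2, v3⟫ by linarith] at hh
  refine hh.trans (le_of_eq ?_)
  ring

lemma not_crit_four {z : Fin 4 → E} (h : Crit (n := 2) z lam) (hc : Claim E 2) : False := by
  have e1 := h.sum_zero
  have e2 := h.norm
  have e3 := h.sum_pc
  rw [Fin.sum_univ_four] at e1 e2 e3
  have o : ∀ i j : Fin 4, i ≤ j → ‖z j‖ ^ 2 ≤ ‖z i‖ ^ 2 := fun i j hij =>
    pow_le_pow_left₀ (norm_nonneg _) (h.anti hij) 2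
  refine not_P4 ⟨h.good hc 0, h.good hc 1, h.good hc 2, h.good hc 3, h.big 0 rfl, h.big 1 rfl,
    h.big 2 rfl, o 0 1 (by decide), o 1 2 (by decide), o 2 3 (by decide),
    pow_pos (norm_pos_iff.2 (h.ne_zero 3)) 2, e2, e3.le, fun hT => ?_⟩
  have := n4_of (R := 0) (σ := 0) (by rw [add_zero]; exact e1) (h.neg 0 1 (by decide))
    (h.neg 0 2 (by decide)).le (h.neg 0 3 (by decide)).le (h.neg 1 3 (by decide)).le
    (h.neg 2 3 (by decide)).le (by simp) (by simp) (by simp) (by simp) (by simp)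
    (by rw [add_zero]; exact e2) (o 0 1 (by decide)) (o 1 2 (by decide)) (S := cell z 3)
    (fun x hx => ⟨hx 0, hx 1, hx 2⟩) hT
  rw [add_zero] at this
  exact this

lemma n5_of {v1 v2 v3 v4 v5 R : E} {w : ℝ} (h : v1 + v2 + v3 + v4 + v5 + R = 0)
    (h12 : ⟪v1, v2⟫ < 0) (h13 : ⟪v1, v3⟫ < 0) (h14 : ⟪v1, v4⟫ ≤ 0) (h15 : ⟪v1, v5⟫ ≤ 0)
    (h23 : ⟪v2, v3⟫ ≤ 0) (h24 : ⟪v2, v4⟫ ≤ 0) (h25 : ⟪v2, v5⟫ ≤ 0)
    (h34 : ⟪v3, v4⟫ ≤ 0) (h35 : ⟪v3, v5⟫ ≤ 0) (h45 : ⟪v4, v5⟫ ≤ 0)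
    (h1 : ⟪v1, R⟫ ≤ 0) (h2 : ⟪v2, R⟫ ≤ 0) (h3 : ⟪v3, R⟫ ≤ 0) (h4 : ⟪v4, R⟫ ≤ 0)
    (h5 : ⟪v5, R⟫ ≤ 0) (hR : ‖R‖ ^ 2 ≤ w)
    (hsum : ‖v1‖ ^ 2 + ‖v2‖ ^ 2 + ‖v3‖ ^ 2 + ‖v4‖ ^ 2 + ‖v5‖ ^ 2 + w = 1)
    (o1 : ‖v2‖ ^ 2 ≤ ‖v1‖ ^ 2) (o2 : ‖v3‖ ^ 2 ≤ ‖v2‖ ^ 2) {S : Set E}
    (hS : ∀ x ∈ S, ⟪v1, x⟫ ≤ ⟪v5, x⟫ ∧ ⟪v2, x⟫ ≤ ⟪v5, x⟫ ∧ ⟪v3, x⟫ ≤ ⟪v5, x⟫ ∧
      ⟪v4, x⟫ ≤ ⟪v5, x⟫)
    (hT : 0 < ‖v1‖ ^ 2 * ‖v2‖ ^ 2 - (1 / 2 - ‖v3‖ ^ 2 - ‖v4‖ ^ 2 / 2) ^ 2) :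
    (stdGaussian E).real S *
        (8 * π * √(‖v1‖ ^ 2 * ‖v2‖ ^ 2 - (1 / 2 - ‖v3‖ ^ 2 - ‖v4‖ ^ 2 / 2) ^ 2))
      ≤ 25 * ‖v5‖ ^ 2 + w := by
  have h' : v1 + v2 + v3 + v4 + (v5 + R) = 0 := by rw [← h]; abel
  have s1 := quad5 h' 1 0 0 0
  have s2 := quad5 h' 0 1 0 0
  have s3 := quad5 h' 0 0 1 0
  have s5 := quad5 h' 1 1 1 1
  have hR' : v1 + v2 + v3 + v4 = -(v5 + R) := eq_neg_of_add_eq_zero_left h'
  simp only [one_smul, zero_smul, add_zero, zero_add, hR', norm_neg, inner_add_right]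
    at s1 s2 s3 s5
  have hn : ‖v5 + R‖ ^ 2 ≤ ‖v5‖ ^ 2 + w := by rw [norm_add_sq_real]; linarith
  have hh := heron_le (x := ‖v1‖ ^ 2) (y := ‖v2‖ ^ 2) (z := ‖v3‖ ^ 2)
    (H1 := -⟪v1, v5⟫ + -⟪v1, R⟫) (H2 := -⟪v2, v5⟫ + -⟪v2, R⟫) (H3 := -⟪v3, v5⟫ + -⟪v3, R⟫)
    (σ := ‖v5‖ ^ 2 + w) (by linarith) (by linarith) (by linarith) (by linarith) o2 o1 (sq_nonneg _)
  rw [show (‖v1‖ ^ 2 + ‖v2‖ ^ 2 - ‖v3‖ ^ 2 + (‖v5‖ ^ 2 + w)) / 2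
      = 1 / 2 - ‖v3‖ ^ 2 - ‖v4‖ ^ 2 / 2 by linarith,
    show ‖v1‖ ^ 2 - (-⟪v1, v5⟫ + -⟪v1, R⟫) = -⟪v1, v2⟫ + -⟪v1, v3⟫ + -⟪v1, v4⟫ by linarith,
    show ‖v2‖ ^ 2 - (-⟪v2, v5⟫ + -⟪v2, R⟫) = -⟪v1, v2⟫ + -⟪v2, v3⟫ + -⟪v2, v4⟫ by linarith,
    show ‖v3‖ ^ 2 - (-⟪v3, v5⟫ + -⟪v3, R⟫) = -⟪v1, v3⟫ + -⟪v2, v3⟫ + -⟪v3, v4⟫ by linarith] at hh
  rcases le_total (-⟪v3, v4⟫) (-⟪v1, v4⟫ + -⟪v2, v4⟫) with hc | hc
  · have := needle5 (v1 := v1) (v2 := v2) (v3 := v3 + v4) (v4 := v5) (R := R) (k := 4)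
      (by norm_num) (by rw [← h]; abel) h12 (by rw [inner_add_right]; linarith) h15 h25
      (by rw [inner_add_left]; linarith) h1 h2 (by rw [inner_add_left]; linarith) h5 hR (S := S)
      (fun x hx => by
        obtain ⟨a1, a2, a3, a4⟩ := hS x hx
        refine ⟨a1, a2, ?_⟩
        rw [inner_add_left]; linarith) hT (hh.trans ?_)
    · norm_num at this ⊢; exact this
    rw [inner_add_right, inner_add_right]
    set g12 := -⟪v1, v2⟫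
    set g13 := -⟪v1, v3⟫ with e13
    set g14 := -⟪v1, v4⟫ with e14
    set g23 := -⟪v2, v3⟫ with e23
    set g24 := -⟪v2, v4⟫ with e24
    set g34 := -⟪v3, v4⟫
    rw [neg_add, neg_add, ← e13, ← e14, ← e23, ← e24]
    have p12 : 0 ≤ g12 := by simp only [g12]; linarith
    nlinarith [mul_nonneg p12 (sub_nonneg.2 hc), sq_nonneg (g14 + g24 - g34)]
  · have := needle5 (v1 := v1) (v2 := v3) (v3 := v2 + v4) (v4 := v5) (R := R) (k := 4)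
      (by norm_num) (by rw [← h]; abel) h13 (by rw [inner_add_right]; linarith) h15 h35
      (by rw [inner_add_left]; linarith) h1 h3 (by rw [inner_add_left]; linarith) h5 hR (S := S)
      (fun x hx => by
        obtain ⟨a1, a2, a3, a4⟩ := hS x hx
        refine ⟨a1, a3, ?_⟩
        rw [inner_add_left]; linarith) hT (hh.trans ?_)
    · norm_num at this ⊢; exact this
    rw [inner_add_right, inner_add_right, real_inner_comm v2 v3]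
    set g12 := -⟪v1, v2⟫ with e12
    set g13 := -⟪v1, v3⟫
    set g14 := -⟪v1, v4⟫ with e14
    set g23 := -⟪v2, v3⟫ with e23
    set g24 := -⟪v2, v4⟫
    set g34 := -⟪v3, v4⟫ with e34
    rw [neg_add, neg_add, ← e12, ← e14, ← e23, ← e34]
    have p13 : 0 ≤ g13 := by simp only [g13]; linarith
    have p14 : 0 ≤ g14 := by simp only [g14]; linarith
    have q : 0 ≤ g14 + (g34 - g14 - g24) / 2 := by linarith
    nlinarith [mul_nonneg p13 q, sq_nonneg (g14 + (g34 - g14 - g24) / 2)]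

def r5 {k : ℕ} (l : Fin k) : Fin (k + 5) := l.succ.succ.succ.succ.succ

lemma sum5 {M : Type*} [AddCommMonoid M] {k : ℕ} (f : Fin (k + 5) → M) :
    ∑ i, f i = f 0 + f 1 + f 2 + f 3 + f 4 + ∑ l, f (r5 l) := by
  rw [Fin.sum_univ_succ, Fin.sum_univ_succ, Fin.sum_univ_succ, Fin.sum_univ_succ,
    Fin.sum_univ_succ]
  simp only [add_assoc]
  rfl

lemma r5_val {k : ℕ} (l : Fin k) : (r5 l : ℕ) = l + 5 := rfl

lemma not_crit_five {k : ℕ} {z : Fin (k + 5) → E} (h : Crit (n := k + 3) z lam)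
    (hc : Claim E (k + 3)) : False := by
  have e1 := h.sum_zero
  have e2 := h.norm
  have e3 := h.sum_pc
  rw [sum5] at e1 e2 e3
  have v0 : ((0 : Fin (k + 5)) : ℕ) = 0 := rfl
  have v1 : ((1 : Fin (k + 5)) : ℕ) = 1 := rfl
  have v2 : ((2 : Fin (k + 5)) : ℕ) = 2 := rfl
  have v3 : ((3 : Fin (k + 5)) : ℕ) = 3 := rfl
  have v4 : ((4 : Fin (k + 5)) : ℕ) = 4 := rfl
  have o' : ∀ i j : Fin (k + 5), (i : ℕ) ≤ j → ‖z j‖ ≤ ‖z i‖ := fun i j hij => h.anti hij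
  have o : ∀ i j : Fin (k + 5), (i : ℕ) ≤ j → ‖z j‖ ^ 2 ≤ ‖z i‖ ^ 2 := fun i j hij =>
    pow_le_pow_left₀ (norm_nonneg _) (o' i j hij) 2
  have ng : ∀ i j : Fin (k + 5), (i : ℕ) < j → ⟪z i, z j⟫ < 0 := fun i j hij =>
    h.neg i j fun e => by rw [e] at hij; exact lt_irrefl _ hij
  set R := ∑ l : Fin k, z (r5 l) with hR
  set w := ∑ l : Fin k, ‖z (r5 l)‖ ^ 2 with hw
  have hRi : ∀ i : Fin (k + 5), (i : ℕ) < 5 → ⟪z i, R⟫ ≤ 0 := fun i hi => by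
    rw [hR, inner_sum]
    exact Finset.sum_nonpos fun l _ => (ng _ _ (by rw [r5_val]; omega)).le
  have hRw : ‖R‖ ^ 2 ≤ w := norm_sum_sq_le fun i j hij => (h.neg _ _ fun e => hij (by
    have := congrArg Fin.val e
    rw [r5_val, r5_val] at this
    exact Fin.ext (by omega))).le
  have n01 := ng 0 1 (by omega)
  have n02 := ng 0 2 (by omega)
  have n03 := ng 0 3 (by omega)
  have n04 := ng 0 4 (by omega)
  have n12 := ng 1 2 (by omega)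
  have n13 := ng 1 3 (by omega)
  have n14 := ng 1 4 (by omega)
  have n23 := ng 2 3 (by omega)
  have n24 := ng 2 4 (by omega)
  have n34 := ng 3 4 (by omega)
  have r0 := hRi 0 (by omega)
  have r1 := hRi 1 (by omega)
  have r2 := hRi 2 (by omega)
  have r3 := hRi 3 (by omega)
  have r4 := hRi 4 (by omega)
  refine not_P5 (r := ∑ l : Fin k, pc z (r5 l)) (w := w) ⟨h.good hc 0, h.good hc 1, h.good hc 2,
    h.good hc 3, h.good hc 4, o 0 1 (by omega), o 1 2 (by omega), o 2 3 (by omega),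
    o 3 4 (by omega), pow_pos (norm_pos_iff.2 (h.ne_zero 4)) 2,
    Finset.sum_nonneg fun _ _ => sq_nonneg _, e2, e3.le, ?_, fun hT => ?_, fun hT => ?_⟩
  · rw [hw, Finset.mul_sum, Finset.sum_mul]
    refine Finset.sum_le_sum fun l _ => ?_
    have a1 := (h.good hc (r5 l)).c0_le
    rw [Real.sqrt_sq (norm_nonneg _)] at a1 ⊢
    have a2 := o' 4 (r5 l) (by rw [r5_val]; omega)
    have a3 : 0 ≤ pc z (r5 l) := (h.pc_pos _).le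
    calc c0 * ‖z (r5 l)‖ ^ 2 = c0 * ‖z (r5 l)‖ * ‖z (r5 l)‖ := by ring
      _ ≤ _ := by gcongr
  · have := n4_of (v1 := z 0) (v2 := z 1) (v3 := z 2) (v4 := z 3) (R := z 4 + R)
      (σ := ‖z 4‖ ^ 2 + w) (by rw [← e1]; abel) n01 n02.le n03.le n13.le n23.le
      (by rw [inner_add_right]; linarith) (by rw [inner_add_right]; linarith)
      (by rw [inner_add_right]; linarith) (by rw [inner_add_right]; linarith)
      (by rw [norm_add_sq_real]; linarith) (by linarith) (o 0 1 (by omega)) (o 1 2 (by omega))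
      (S := cell z 3) (fun x hx => ⟨hx 0, hx 1, hx 2⟩) hT
    rw [← add_assoc] at this
    exact this
  · exact n5_of e1 n01 n02 n03.le n04.le n12.le n13.le n14.le n23.le n24.le n34.le r0 r1 r2 r3 r4
      hRw e2 (o 0 1 (by omega)) (o 1 2 (by omega)) (S := cell z 4)
      (fun x hx => ⟨hx 0, hx 1, hx 2, hx 3⟩) hT

variable (E) in
theorem claim_all (n : ℕ) : Claim E (n + 2) := by
  induction n with
  | zero => exact claim_three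
  | succ n ih =>
    by_contra hn
    obtain ⟨z, lam, h⟩ := exists_crit ih hn
    rcases n with _ | k
    · exact not_crit_four h ih
    · exact not_crit_five h ih

end Crest.Agent.R215
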