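import Crest.Agent.R215.Needle

/-! Expected maximum of finitely many Gaussian linear forms. -/

set_option autoImplicit false
set_option linter.unusedSectionVars false
open MeasureTheory ProbabilityTheory Set Filter Topology Real
open scoped NNReal RealInnerProductSpace

namespace Crest.Agent.R215

variable {E : Type*} [NormedAddCommGroup E] [InnerProductSpace ℝ E]

noncomputable def gmax {ι : Type*} (z : ι → E) (x : E) : ℝ := ⨆ i, ⟪z i, x⟫

noncomputable def lam0 : ℝ := 3 / 2 * phi 0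

lemma lam0_pos : 0 < lam0 := by unfold lam0; have := phi_pos 0; positivity

lemma phi_zero_sq : phi 0 ^ 2 = (2 * π)⁻¹ := by
  rw [sq, phi_zero, ← mul_inv, Real.mul_self_sqrt (by positivity)]

lemma lam0_sq : lam0 ^ 2 = 9 / (8 * π) := by
  unfold lam0; rw [mul_pow, phi_zero_sq]; field_simp; norm_num

section
variable {ι : Type*} [Fintype ι]

lemma le_gmax (z : ι → E) (x : E) (i : ι) : ⟪z i, x⟫ ≤ gmax z x :=
  le_ciSup (f := fun i => ⟪z i, x⟫) (Set.finite_range _).bddAbove i

variable [Nonempty ι]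

omit [Fintype ι] in
lemma gmax_le {z : ι → E} {x : E} {c : ℝ} (h : ∀ i, ⟪z i, x⟫ ≤ c) : gmax z x ≤ c := ciSup_le h

lemma exists_gmax_eq (z : ι → E) (x : E) : ∃ i, ⟪z i, x⟫ = gmax z x :=
  exists_eq_ciSup_of_finite

lemma lipschitz_gmax (z : ι → E) : LipschitzWith (∑ i, ‖z i‖₊) (gmax z) := by
  have key : ∀ x y, gmax z x ≤ gmax z y + (∑ i, ‖z i‖) * ‖x - y‖ := by
    intro x y
    refine gmax_le fun i => ?_
    have h1 : ⟪z i, x⟫ = ⟪z i, y⟫ + ⟪z i, x - y⟫ := by rw [inner_sub_right]; ring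
    have h2 : ⟪z i, x - y⟫ ≤ ‖z i‖ * ‖x - y‖ := real_inner_le_norm _ _
    have h3 : ‖z i‖ ≤ ∑ i, ‖z i‖ :=
      Finset.single_le_sum (f := fun i => ‖z i‖) (fun _ _ => norm_nonneg _) (Finset.mem_univ i)
    have h4 := le_gmax z y i
    nlinarith [norm_nonneg (x - y)]
  refine LipschitzWith.of_dist_le_mul fun x y => ?_
  rw [Real.dist_eq, dist_eq_norm, abs_le]
  have h1 := key x y
  have h2 := key y x
  rw [norm_sub_rev] at h2
  push_cast
  constructor <;> linarith

lemma convexOn_gmax (z : ι → E) : ConvexOn ℝ univ (gmax z) := by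
  refine ⟨convex_univ, fun x _ y _ a b ha hb _ => gmax_le fun i => ?_⟩
  rw [inner_add_right, real_inner_smul_right, real_inner_smul_right, smul_eq_mul, smul_eq_mul]
  gcongr
  exacts [le_gmax z x i, le_gmax z y i]

lemma gmax_le_add (z w : ι → E) (x : E) : gmax z x ≤ gmax w x + dist z w * ‖x‖ := by
  refine gmax_le fun i => ?_
  have h1 : ⟪z i, x⟫ = ⟪w i, x⟫ + ⟪z i - w i, x⟫ := by rw [inner_sub_left]; ring
  have h2 : ⟪z i - w i, x⟫ ≤ ‖z i - w i‖ * ‖x‖ := real_inner_le_norm _ _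
  have h3 : ‖z i - w i‖ ≤ dist z w := by rw [← dist_eq_norm]; exact dist_le_pi_dist z w i
  have h4 := le_gmax w x i
  nlinarith [norm_nonneg x]

lemma gmax_smul (z : ι → E) {c : ℝ} (hc : 0 ≤ c) (x : E) : gmax (c • z) x = c * gmax z x := by
  apply le_antisymm
  · refine gmax_le fun i => ?_
    rw [Pi.smul_apply, real_inner_smul_left]
    exact mul_le_mul_of_nonneg_left (le_gmax z x i) hc
  · obtain ⟨i, hi⟩ := exists_gmax_eq z x
    rw [← hi, ← real_inner_smul_left]
    exact le_gmax (c • z) x i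

lemma gmax_sub_const (z : ι → E) (c x : E) :
    gmax (fun i => z i - c) x = gmax z x - ⟪c, x⟫ := by
  apply le_antisymm
  · refine gmax_le fun i => ?_
    rw [inner_sub_left]; linarith [le_gmax z x i]
  · obtain ⟨i, hi⟩ := exists_gmax_eq z x
    rw [← hi, ← inner_sub_left]
    exact le_gmax (fun i => z i - c) x i

lemma gmax_comp_equiv {κ : Type*} [Fintype κ] [Nonempty κ] (z : ι → E) (σ : κ ≃ ι) (x : E) :
    gmax (fun k => z (σ k)) x = gmax z x := by
  apply le_antisymm
  · exact gmax_le fun k => le_gmax z x _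
  · refine gmax_le fun i => ?_
    have := le_gmax (fun k => z (σ k)) x (σ.symm i)
    simpa using this

end

lemma gmax_succAbove {n : ℕ} (z : Fin (n + 2) → E) (j : Fin (n + 2)) (x : E) :
    gmax z x = max ⟪z j, x⟫ (gmax (fun l => z (j.succAbove l)) x) := by
  apply le_antisymm
  · refine gmax_le fun i => ?_
    refine Fin.succAboveCases j (le_max_left _ _) (fun l => ?_) i
    exact (le_gmax (fun l => z (j.succAbove l)) x l).trans (le_max_right _ _)
  · exact max_le (le_gmax z x j) (gmax_le fun l => le_gmax z x _)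

lemma gmax_of_dup {n : ℕ} (z : Fin (n + 2) → E) {i j : Fin (n + 2)} (hij : j ≠ i)
    (h : z i = z j) (x : E) : gmax z x = gmax (fun l => z (i.succAbove l)) x := by
  rw [gmax_succAbove z i, max_eq_right]
  obtain ⟨l, hl⟩ := Fin.exists_succAbove_eq hij
  rw [h, ← hl]
  exact le_gmax (fun l => z (i.succAbove l)) x l

lemma gmax_three (z : Fin 3 → E) (x : E) :
    gmax z x = max (max ⟪z 0, x⟫ ⟪z 1, x⟫) ⟪z 2, x⟫ := by
  apply le_antisymm
  · refine gmax_le fun i => ?_
    fin_cases i <;> simp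
  · exact max_le (max_le (le_gmax z x 0) (le_gmax z x 1)) (le_gmax z x 2)

lemma max_three_add (a b c : ℝ) : max (max a b) c + max (max (-a) (-b)) (-c)
    = (|a - b| + |a - c| + |b - c|) / 2 := by
  simp only [max_def, abs_eq_max_neg]
  split_ifs <;> linarith

variable [FiniteDimensional ℝ E] [MeasurableSpace E] [BorelSpace E]

/-- expected maximum -/
noncomputable def Mz {ι : Type*} (z : ι → E) : ℝ := ∫ x, gmax z x ∂stdGaussian E

section
variable {ι : Type*} [Fintype ι] [Nonempty ι]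

lemma integrable_gmax (z : ι → E) : Integrable (gmax z) (stdGaussian E) :=
  integrable_of_lipschitz (lipschitz_gmax z)

lemma continuous_Mz : Continuous (Mz : (ι → E) → ℝ) := by
  have hn : Integrable (fun x : E => ‖x‖) (stdGaussian E) := IsGaussian.integrable_id.norm
  set C := ∫ x : E, ‖x‖ ∂stdGaussian E
  have hC : 0 ≤ C := integral_nonneg fun x => norm_nonneg x
  have key : ∀ z w : ι → E, Mz z ≤ Mz w + C * dist z w := by
    intro z w
    calc Mz z ≤ ∫ x, (gmax w x + dist z w * ‖x‖) ∂stdGaussian E :=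
          integral_mono (integrable_gmax z) ((integrable_gmax w).add (hn.const_mul _))
            (gmax_le_add z w)
      _ = Mz w + C * dist z w := by
          rw [integral_add (integrable_gmax w) (hn.const_mul _), integral_const_mul, mul_comm]
          rfl
  refine (LipschitzWith.of_dist_le_mul (K := ⟨C, hC⟩) fun z w => ?_).continuous
  rw [Real.dist_eq, abs_le]
  have h1 := key z w
  have h2 := key w z
  rw [dist_comm] at h2
  change -(C * dist z w) ≤ _ ∧ _ ≤ C * dist z w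
  constructor <;> linarith

lemma Mz_smul (z : ι → E) {c : ℝ} (hc : 0 ≤ c) : Mz (c • z) = c * Mz z := by
  unfold Mz
  simp_rw [gmax_smul z hc, integral_const_mul]

lemma Mz_sub_const (z : ι → E) (c : E) : Mz (fun i => z i - c) = Mz z := by
  unfold Mz
  simp_rw [gmax_sub_const z c]
  rw [integral_sub (integrable_gmax z) (integrable_inner c), integral_inner_eq_zero, sub_zero]

lemma Mz_comp_equiv {κ : Type*} [Fintype κ] [Nonempty κ] (z : ι → E) (σ : κ ≃ ι) :
    Mz (fun k => z (σ k)) = Mz z := by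
  unfold Mz
  simp_rw [gmax_comp_equiv z σ]

end

lemma inner_setIntegral (w : E) (A : Set E) :
    ⟪w, ∫ x in A, x ∂stdGaussian E⟫ = ∫ x in A, ⟪w, x⟫ ∂stdGaussian E :=
  (integral_inner (𝕜 := ℝ) (f := fun x => x) IsGaussian.integrable_id.integrableOn w).symm

lemma sum_setIntegral_eq {ι : Type*} [Fintype ι] {A : ι → Set E} (hA : ∀ i, MeasurableSet (A i))
    {F : ι → E → ℝ} (hF : ∀ i, Integrable (F i) (stdGaussian E)) :
    ∑ i, ∫ x in A i, F i x ∂stdGaussian E
      = ∫ x, ∑ i, (A i).indicator (F i) x ∂stdGaussian E := by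
  rw [integral_finsetSum _ fun i _ => (hF i).indicator (hA i)]
  exact Finset.sum_congr rfl fun i _ => (integral_indicator (hA i)).symm

omit [InnerProductSpace ℝ E] [FiniteDimensional ℝ E] [MeasurableSpace E] [BorelSpace E]
  [NormedAddCommGroup E] in
lemma sum_indicator_eq {ι : Type*} [Fintype ι] {A : ι → Set E} {x : E} {i : ι} (hi : x ∈ A i)
    (hu : ∀ j, x ∈ A j → j = i) (F : ι → E → ℝ) : ∑ j, (A j).indicator (F j) x = F i x := by
  rw [Finset.sum_eq_single i]
  · exact indicator_of_mem hi _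
  · intro j _ hj
    exact indicator_of_notMem (fun h => hj (hu j h)) _
  · simp

/-- the partition bound -/
lemma sum_inner_setIntegral_le {ι : Type*} [Fintype ι] {A : ι → Set E}
    (hA : ∀ i, MeasurableSet (A i)) (hu : ∀ᵐ x ∂stdGaussian E, ∃! i, x ∈ A i) (w : ι → E)
    {G : E → ℝ} (hG : Integrable G (stdGaussian E)) (hw : ∀ i x, ⟪w i, x⟫ ≤ G x) :
    ∑ i, ⟪w i, ∫ x in A i, x ∂stdGaussian E⟫ ≤ ∫ x, G x ∂stdGaussian E := by
  simp_rw [inner_setIntegral]
  rw [sum_setIntegral_eq hA fun i => integrable_inner (w i)]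
  refine integral_mono_ae (integrable_finsetSum _ fun i _ =>
    (integrable_inner (w i)).indicator (hA i)) hG ?_
  filter_upwards [hu] with x ⟨i, hi, hu⟩
  rw [sum_indicator_eq hi hu]
  exact hw i x

lemma Mz_three (z : Fin 3 → E) :
    Mz z = phi 0 / 2 * (‖z 0 - z 1‖ + ‖z 0 - z 2‖ + ‖z 1 - z 2‖) := by
  have hm : Measurable (gmax z) := (lipschitz_gmax z).continuous.measurable
  have h1 : ∫ x, gmax z (-x) ∂stdGaussian E = Mz z := integral_comp_neg _ hm
  have hi : Integrable (fun x => gmax z (-x)) (stdGaussian E) :=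
    integrable_of_lipschitz ((lipschitz_gmax z).comp (LipschitzWith.id.neg))
  have h2 : ∫ x, (gmax z x + gmax z (-x)) ∂stdGaussian E = 2 * Mz z := by
    rw [integral_add (integrable_gmax z) hi, h1, Mz]; ring
  have h3 : ∀ x, gmax z x + gmax z (-x)
      = (|⟪z 0 - z 1, x⟫| + |⟪z 0 - z 2, x⟫| + |⟪z 1 - z 2, x⟫|) / 2 := by
    intro x
    simp only [gmax_three, inner_neg_right, inner_sub_left, max_three_add]
  simp_rw [h3] at h2
  have i1 := (integrable_inner (z 0 - z 1)).abs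
  have i2 := (integrable_inner (z 0 - z 2)).abs
  have i3 := (integrable_inner (z 1 - z 2)).abs
  have i4 : Integrable (fun x => |⟪z 0 - z 1, x⟫| + |⟪z 0 - z 2, x⟫|) (stdGaussian E) := i1.add i2
  rw [integral_div, integral_add i4 i3, integral_add i1 i2, integral_abs_inner,
    integral_abs_inner, integral_abs_inner] at h2
  linarith

lemma claim_three (z : Fin 3 → E) : Mz z ≤ lam0 * √(∑ i, ‖z i‖ ^ 2) := by
  rw [Mz_three, lam0, Fin.sum_univ_three]
  have hp := phi_pos 0
  have h1 : ‖z 0 - z 1‖ ^ 2 + ‖z 0 - z 2‖ ^ 2 + ‖z 1 - z 2‖ ^ 2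
      ≤ 3 * (‖z 0‖ ^ 2 + ‖z 1‖ ^ 2 + ‖z 2‖ ^ 2) := by
    have := sq_nonneg ‖z 0 + z 1 + z 2‖
    rw [norm_add_sq_real, norm_add_sq_real, inner_add_left] at this
    rw [norm_sub_sq_real, norm_sub_sq_real, norm_sub_sq_real]
    linarith
  have h2 : (‖z 0 - z 1‖ + ‖z 0 - z 2‖ + ‖z 1 - z 2‖) / 3
      ≤ √(‖z 0‖ ^ 2 + ‖z 1‖ ^ 2 + ‖z 2‖ ^ 2) := by
    apply Real.le_sqrt_of_sq_le
    nlinarith [sq_nonneg (‖z 0 - z 1‖ - ‖z 0 - z 2‖), sq_nonneg (‖z 0 - z 1‖ - ‖z 1 - z 2‖),
      sq_nonneg (‖z 0 - z 2‖ - ‖z 1 - z 2‖)]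
  nlinarith

end Crest.Agent.R215
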