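import Crest.Agent.R215.Basic

/-! Gaussian smoothing `heat f σ y = E f (y + σ N)` of a bounded function and its derivatives. -/

set_option autoImplicit false
open MeasureTheory ProbabilityTheory Set Filter Topology Real

namespace Crest.Agent.R215

noncomputable def heat (f : ℝ → ℝ) (σ y : ℝ) : ℝ := ∫ n, f (y + σ * n) ∂gam

noncomputable def k0 (σ x : ℝ) : ℝ := σ⁻¹ * phi (x / σ)
noncomputable def k1 (σ x : ℝ) : ℝ := σ⁻¹ ^ 2 * (-(x / σ) * phi (x / σ))
noncomputable def k2 (σ x : ℝ) : ℝ := σ⁻¹ ^ 3 * (((x / σ) ^ 2 - 1) * phi (x / σ))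

lemma phi_le_exp (t : ℝ) : phi t ≤ Real.exp (-t ^ 2 / 2) := by
  unfold phi
  have h : (√(2 * π))⁻¹ ≤ 1 := by
    apply inv_le_one_of_one_le₀
    rw [Real.one_le_sqrt]
    nlinarith [Real.pi_gt_three]
  exact mul_le_of_le_one_left (Real.exp_pos _).le h

lemma sq_add_one_mul_phi_le (t : ℝ) : (t ^ 2 + 1) * phi t ≤ 5 * Real.exp (-t ^ 2 / 4) := by
  have h1 := phi_le_exp t
  have h2 : Real.exp (-t ^ 2 / 2) = Real.exp (-t ^ 2 / 4) * Real.exp (-t ^ 2 / 4) := by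
    rw [← Real.exp_add]; congr 1; ring
  have h3 : Real.exp (-t ^ 2 / 4) * Real.exp (t ^ 2 / 4) = 1 := by
    rw [← Real.exp_add]; simp [neg_div]
  have h4 : t ^ 2 / 4 + 1 ≤ Real.exp (t ^ 2 / 4) := Real.add_one_le_exp _
  have h5 := Real.exp_pos (-t ^ 2 / 4)
  have h6 : (t ^ 2 + 1) * Real.exp (-t ^ 2 / 4) ≤ 5 := by nlinarith [sq_nonneg t]
  calc (t ^ 2 + 1) * phi t ≤ (t ^ 2 + 1) * Real.exp (-t ^ 2 / 2) := by gcongr
    _ = ((t ^ 2 + 1) * Real.exp (-t ^ 2 / 4)) * Real.exp (-t ^ 2 / 4) := by rw [h2]; ring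
    _ ≤ 5 * Real.exp (-t ^ 2 / 4) := by gcongr

lemma abs_phi_le (t : ℝ) : |phi t| ≤ 5 * Real.exp (-t ^ 2 / 4) := by
  rw [abs_of_pos (phi_pos t)]
  refine le_trans ?_ (sq_add_one_mul_phi_le t)
  nlinarith [phi_pos t, sq_nonneg t]

lemma abs_mul_phi_le (t : ℝ) : |-t * phi t| ≤ 5 * Real.exp (-t ^ 2 / 4) := by
  rw [abs_mul, abs_of_pos (phi_pos t), abs_neg]
  refine le_trans ?_ (sq_add_one_mul_phi_le t)
  have : |t| ≤ t ^ 2 + 1 := by nlinarith [sq_abs t, sq_nonneg (|t| - 1)]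
  exact mul_le_mul_of_nonneg_right this (phi_pos t).le

lemma abs_sq_sub_one_mul_phi_le (t : ℝ) :
    |(t ^ 2 - 1) * phi t| ≤ 5 * Real.exp (-t ^ 2 / 4) := by
  rw [abs_mul, abs_of_pos (phi_pos t)]
  refine le_trans ?_ (sq_add_one_mul_phi_le t)
  have : |t ^ 2 - 1| ≤ t ^ 2 + 1 := by
    rw [abs_le]; constructor <;> nlinarith [sq_nonneg t]
  exact mul_le_mul_of_nonneg_right this (phi_pos t).le

lemma hasDerivAt_k0 {σ : ℝ} (x : ℝ) : HasDerivAt (k0 σ) (k1 σ x) x := by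
  have h := ((hasDerivAt_phi (x / σ)).comp x ((hasDerivAt_id' x).div_const σ)).const_mul σ⁻¹
  refine h.congr_deriv ?_
  unfold k1; rw [one_div]; ring

lemma hasDerivAt_k1 {σ : ℝ} (x : ℝ) : HasDerivAt (k1 σ) (k2 σ x) x := by
  have h0 : HasDerivAt (fun t => -t * phi t) (((x / σ) ^ 2 - 1) * phi (x / σ)) (x / σ) := by
    refine ((hasDerivAt_id' (x / σ)).fun_neg.fun_mul (hasDerivAt_phi (x / σ))).congr_deriv ?_
    ring
  have h := (h0.comp x ((hasDerivAt_id' x).div_const σ)).const_mul (σ⁻¹ ^ 2)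
  refine h.congr_deriv ?_
  unfold k2; rw [one_div]; ring

lemma hasDerivAt_k0_sigma {σ : ℝ} (hσ : σ ≠ 0) (x : ℝ) :
    HasDerivAt (fun s => k0 s x) (σ * k2 σ x) σ := by
  have h1 : HasDerivAt (fun s : ℝ => x / s) (-x / σ ^ 2) σ := by
    have := (hasDerivAt_inv hσ).const_mul x
    refine (this.congr_deriv (by ring)).congr_of_eventuallyEq ?_
    exact Eventually.of_forall fun s => div_eq_mul_inv x s
  have h := (hasDerivAt_inv hσ).fun_mul ((hasDerivAt_phi (x / σ)).comp σ h1)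
  refine h.congr_deriv ?_
  unfold k2
  simp only [Function.comp]
  field_simp
  ring

lemma exp_shift_le {b y y0 s : ℝ} (hb : 0 < b) (hy : |y - y0| ≤ 1) :
    Real.exp (-b * (y - s) ^ 2) ≤ Real.exp b * Real.exp (-(b / 2) * (y0 - s) ^ 2) := by
  rw [← Real.exp_add]
  apply Real.exp_le_exp.2
  have h1 : (y - y0) ^ 2 ≤ 1 := by rw [← sq_abs]; nlinarith [abs_nonneg (y - y0)]
  have h2 : (y0 - s) ^ 2 ≤ 2 * (y - s) ^ 2 + 2 * (y - y0) ^ 2 := by
    nlinarith [sq_nonneg ((y - s) + (y - y0))]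
  nlinarith

lemma integrable_exp_shift {b : ℝ} (hb : 0 < b) (y : ℝ) :
    Integrable (fun s => Real.exp (-b * (y - s) ^ 2)) :=
  (integrable_exp_neg_mul_sq hb).comp_sub_left y

/-- differentiation of a convolution with a kernel with Gaussian decay -/
lemma hasDerivAt_conv {f K K' : ℝ → ℝ} (hf : Measurable f) (hf1 : ∀ s, |f s| ≤ 1)
    (hK : ∀ x, HasDerivAt K (K' x) x) (hK' : Measurable K') {C b : ℝ} (hb : 0 < b)
    (h0 : ∀ x, |K x| ≤ C * Real.exp (-b * x ^ 2)) (h1 : ∀ x, |K' x| ≤ C * Real.exp (-b * x ^ 2))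
    (y0 : ℝ) :
    HasDerivAt (fun y => ∫ s, f s * K (y - s)) (∫ s, f s * K' (y0 - s)) y0 := by
  have hKc : Continuous K := continuous_iff_continuousAt.2 fun x => (hK x).continuousAt
  have hKm : Measurable K := hKc.measurable
  have hC : 0 ≤ C := by
    have := (abs_nonneg _).trans (h0 0)
    simpa using this
  refine (hasDerivAt_integral_of_dominated_loc_of_deriv_le (μ := volume)
    (F := fun y s => f s * K (y - s)) (F' := fun y s => f s * K' (y - s))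
    (bound := fun s => C * (Real.exp b * Real.exp (-(b / 2) * (y0 - s) ^ 2)))
    (Metric.closedBall_mem_nhds y0 one_pos) ?_ ?_ ?_ ?_ ?_ ?_).2
  · exact Eventually.of_forall fun y => Measurable.aestronglyMeasurable (by fun_prop)
  · refine Integrable.mono' ((integrable_exp_shift hb y0).const_mul C)
      (Measurable.aestronglyMeasurable (by fun_prop)) (Eventually.of_forall fun s => ?_)
    rw [Real.norm_eq_abs, abs_mul]
    calc |f s| * |K (y0 - s)| ≤ 1 * |K (y0 - s)| := by gcongr; exact hf1 s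
      _ ≤ _ := by rw [one_mul]; exact h0 _
  · exact Measurable.aestronglyMeasurable (by fun_prop)
  · refine Eventually.of_forall fun s y hy => ?_
    rw [Real.norm_eq_abs, abs_mul]
    have hy' : |y - y0| ≤ 1 := by simpa [Real.dist_eq] using hy
    calc |f s| * |K' (y - s)| ≤ 1 * |K' (y - s)| := by gcongr; exact hf1 s
      _ ≤ C * Real.exp (-b * (y - s) ^ 2) := by rw [one_mul]; exact h1 _
      _ ≤ _ := by gcongr; exact exp_shift_le hb hy'
  · exact ((integrable_exp_shift (half_pos hb) y0).const_mul _).const_mul _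
  · refine Eventually.of_forall fun s y _ => ?_
    have := ((hK (y - s)).comp y ((hasDerivAt_id' y).sub_const s)).const_mul (f s)
    simpa [Function.comp_def] using this

lemma exp_div_eq (σ x : ℝ) : Real.exp (-(x / σ) ^ 2 / 4) = Real.exp (-(σ⁻¹ ^ 2 / 4) * x ^ 2) := by
  congr 1; rw [div_eq_mul_inv x σ]; ring

lemma heat_eq_conv {f : ℝ → ℝ} {σ : ℝ} (hσ : 0 < σ) (y : ℝ) :
    heat f σ y = ∫ s, f s * k0 σ (y - s) := by
  unfold heat
  rw [integral_gam]
  have h1 := Measure.integral_comp_mul_left (fun s => f (y + s) * k0 σ (-s)) σ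
  have h2 : ∫ s, f (y + s) * k0 σ (-s) = ∫ s, f s * k0 σ (y - s) := by
    have := integral_add_left_eq_self (μ := volume) (fun s => f s * k0 σ (y - s)) y
    simpa using this
  rw [← h2]
  have h3 : (fun x => f (y + σ * x) * k0 σ (-(σ * x)))
      = fun x => σ⁻¹ * (phi x * f (y + σ * x)) := by
    funext x
    unfold k0
    rw [show -(σ * x) / σ = -x by field_simp, phi_neg]; ring
  simp only [h3, integral_const_mul, abs_of_pos (inv_pos.2 hσ), smul_eq_mul] at h1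
  exact mul_left_cancel₀ (inv_pos.2 hσ).ne' h1

noncomputable def heat1 (f : ℝ → ℝ) (σ y : ℝ) : ℝ := ∫ s, f s * k1 σ (y - s)
noncomputable def heat2 (f : ℝ → ℝ) (σ y : ℝ) : ℝ := ∫ s, f s * k2 σ (y - s)

lemma measurable_k1 (σ : ℝ) : Measurable (k1 σ) := by unfold k1; fun_prop
lemma measurable_k2 (σ : ℝ) : Measurable (k2 σ) := by unfold k2; fun_prop

lemma abs_k0_le {σ : ℝ} (hσ : 0 < σ) (x : ℝ) :
    |k0 σ x| ≤ σ⁻¹ * 5 * Real.exp (-(σ⁻¹ ^ 2 / 4) * x ^ 2) := by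
  unfold k0
  rw [abs_mul, abs_of_pos (inv_pos.2 hσ), mul_assoc, ← exp_div_eq]
  gcongr; exact abs_phi_le _

lemma abs_k1_le {σ : ℝ} (hσ : 0 < σ) (x : ℝ) :
    |k1 σ x| ≤ σ⁻¹ ^ 2 * 5 * Real.exp (-(σ⁻¹ ^ 2 / 4) * x ^ 2) := by
  unfold k1
  rw [abs_mul, abs_of_pos (by positivity), mul_assoc, ← exp_div_eq]
  gcongr; exact abs_mul_phi_le _

lemma abs_k2_le {σ : ℝ} (hσ : 0 < σ) (x : ℝ) :
    |k2 σ x| ≤ σ⁻¹ ^ 3 * 5 * Real.exp (-(σ⁻¹ ^ 2 / 4) * x ^ 2) := by
  unfold k2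
  rw [abs_mul, abs_of_pos (by positivity), mul_assoc, ← exp_div_eq]
  gcongr; exact abs_sq_sub_one_mul_phi_le _

lemma hasDerivAt_heat {f : ℝ → ℝ} (hf : Measurable f) (hf1 : ∀ s, |f s| ≤ 1) {σ : ℝ}
    (hσ : 0 < σ) (y : ℝ) : HasDerivAt (heat f σ) (heat1 f σ y) y := by
  have : heat f σ = fun y => ∫ s, f s * k0 σ (y - s) := funext (heat_eq_conv hσ)
  rw [this]
  refine hasDerivAt_conv hf hf1 hasDerivAt_k0 (measurable_k1 σ)
    (C := σ⁻¹ * 5 + σ⁻¹ ^ 2 * 5) (b := σ⁻¹ ^ 2 / 4) (by positivity) (fun x => ?_) (fun x => ?_) y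
  · refine (abs_k0_le hσ x).trans ?_
    gcongr; exact le_add_of_nonneg_right (by positivity)
  · refine (abs_k1_le hσ x).trans ?_
    gcongr; exact le_add_of_nonneg_left (by positivity)

lemma hasDerivAt_heat1 {f : ℝ → ℝ} (hf : Measurable f) (hf1 : ∀ s, |f s| ≤ 1) {σ : ℝ}
    (hσ : 0 < σ) (y : ℝ) : HasDerivAt (heat1 f σ) (heat2 f σ y) y := by
  refine hasDerivAt_conv hf hf1 hasDerivAt_k1 (measurable_k2 σ)
    (C := σ⁻¹ ^ 2 * 5 + σ⁻¹ ^ 3 * 5) (b := σ⁻¹ ^ 2 / 4) (by positivity) (fun x => ?_)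
    (fun x => ?_) y
  · refine (abs_k1_le hσ x).trans ?_
    gcongr; exact le_add_of_nonneg_right (by positivity)
  · refine (abs_k2_le hσ x).trans ?_
    gcongr; exact le_add_of_nonneg_left (by positivity)

lemma hasDerivAt_heat_sigma {f : ℝ → ℝ} (hf : Measurable f) (hf1 : ∀ s, |f s| ≤ 1) {σ : ℝ}
    (hσ : 0 < σ) (y : ℝ) : HasDerivAt (fun s => heat f s y) (σ * heat2 f σ y) σ := by
  have hev : (fun s => heat f s y) =ᶠ[𝓝 σ] fun t => ∫ s, f s * k0 t (y - s) := by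
    filter_upwards [lt_mem_nhds hσ] with t ht using heat_eq_conv ht y
  refine HasDerivAt.congr_of_eventuallyEq ?_ hev
  have hb : 0 < (2 * σ)⁻¹ ^ 2 / 4 := by positivity
  have key := (hasDerivAt_integral_of_dominated_loc_of_deriv_le (μ := volume)
    (F := fun t s => f s * k0 t (y - s)) (F' := fun t s => f s * (t * k2 t (y - s)))
    (bound := fun s => (σ / 2)⁻¹ ^ 2 * 5 * Real.exp (-((2 * σ)⁻¹ ^ 2 / 4) * (y - s) ^ 2))
    (Icc_mem_nhds (half_lt_self hσ) (by linarith : σ < 2 * σ)) ?_ ?_ ?_ ?_ ?_ ?_).2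
  · refine key.congr_deriv ?_
    unfold heat2
    rw [← integral_const_mul]
    congr 1; funext s; ring
  · exact Eventually.of_forall fun t => Measurable.aestronglyMeasurable (by unfold k0; fun_prop)
  · refine Integrable.mono' ((integrable_exp_shift (b := σ⁻¹ ^ 2 / 4) (by positivity) y).const_mul
      (σ⁻¹ * 5)) (Measurable.aestronglyMeasurable (by unfold k0; fun_prop))
      (Eventually.of_forall fun s => ?_)
    rw [Real.norm_eq_abs, abs_mul]
    calc |f s| * |k0 σ (y - s)| ≤ 1 * |k0 σ (y - s)| := by gcongr; exact hf1 s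
      _ ≤ _ := by rw [one_mul]; exact abs_k0_le hσ _
  · exact Measurable.aestronglyMeasurable (by unfold k2; fun_prop)
  · refine Eventually.of_forall fun s t ht => ?_
    have ht0 : 0 < t := (half_pos hσ).trans_le ht.1
    rw [Real.norm_eq_abs, abs_mul, abs_mul, abs_of_pos ht0]
    have e1 : t⁻¹ ≤ (σ / 2)⁻¹ := inv_anti₀ (half_pos hσ) ht.1
    have e2 : (2 * σ)⁻¹ ≤ t⁻¹ := inv_anti₀ ht0 ht.2
    calc |f s| * (t * |k2 t (y - s)|) ≤ 1 * (t * |k2 t (y - s)|) := by gcongr; exact hf1 s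
      _ ≤ t * (t⁻¹ ^ 3 * 5 * Real.exp (-(t⁻¹ ^ 2 / 4) * (y - s) ^ 2)) := by
          rw [one_mul]; gcongr; exact abs_k2_le ht0 _
      _ = t⁻¹ ^ 2 * 5 * Real.exp (-(t⁻¹ ^ 2 / 4) * (y - s) ^ 2) := by field_simp
      _ ≤ _ := by
          gcongr
  · exact (integrable_exp_shift hb y).const_mul _
  · refine Eventually.of_forall fun s t ht => ?_
    have ht0 : 0 < t := (half_pos hσ).trans_le ht.1
    exact (hasDerivAt_k0_sigma ht0.ne' (y - s)).const_mul (f s)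

lemma continuous_heat {f : ℝ → ℝ} (hf : Continuous f) (hf1 : ∀ s, |f s| ≤ 1) :
    Continuous (fun p : ℝ × ℝ => heat f p.1 p.2) := by
  unfold heat
  refine continuous_of_dominated (bound := fun _ => 1) (fun p => ?_)
    (fun p => Eventually.of_forall fun n => hf1 _) (integrable_const _)
    (Eventually.of_forall fun n => by fun_prop)
  exact Continuous.aestronglyMeasurable (by fun_prop)

lemma heat_zero (f : ℝ → ℝ) (y : ℝ) : heat f 0 y = f y := by
  simp [heat]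

end Crest.Agent.R215
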