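import Crest.Agent.R215.Split

/-! The needle bound for the Gaussian measure of a trihedral cone. -/

set_option autoImplicit false
open MeasureTheory ProbabilityTheory Set Filter Topology Real
open scoped NNReal RealInnerProductSpace

namespace Crest.Agent.R215

lemma integral_gam_le_of_le {g h : ℝ → ℝ} (hg0 : ∀ n, 0 ≤ g n) (hh : Integrable h)
    (hgh : ∀ n, g n ≤ h n) : ∫ n, g n ∂gam ≤ phi 0 * ∫ n, h n := by
  rw [integral_gam, ← integral_const_mul]
  refine integral_mono_of_nonneg (Eventually.of_forall fun n => mul_nonneg (phi_pos n).le (hg0 n))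
    (hh.const_mul _) (Eventually.of_forall fun n => ?_)
  exact mul_le_mul (phi_le n) (hgh n) (hg0 n) (phi_pos 0).le

lemma needle_a (c T : ℝ) {γ : ℝ} (hγ : 0 < γ) :
    ∫ n, (if 0 ≤ c + γ * n ∧ c + γ * n ≤ T then (1 : ℝ) else 0) ∂gam
      ≤ phi 0 * (max T 0 / γ) := by
  have h := integral_gam_le_of_le (g := fun n => if 0 ≤ c + γ * n ∧ c + γ * n ≤ T then (1 : ℝ) else 0)
    (h := (Icc (-c / γ) ((T - c) / γ)).indicator 1) (fun n => by split_ifs <;> norm_num)
    ((integrable_indicator_iff measurableSet_Icc).2 (integrableOn_const (by simp))) (fun n => by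
      split_ifs with hn
      · have : n ∈ Icc (-c / γ) ((T - c) / γ) := by
          constructor
          · rw [div_le_iff₀ hγ]; linarith [hn.1]
          · rw [le_div_iff₀ hγ]; linarith [hn.2]
        simp [this]
      · exact indicator_nonneg (fun _ _ => zero_le_one) n)
  refine h.trans (le_of_eq ?_)
  rw [integral_indicator_one measurableSet_Icc, Real.volume_real_Icc]
  congr 1
  rw [show (T - c) / γ - -c / γ = T / γ by ring, ← max_div_div_right hγ.le, zero_div]

lemma needle_b (c T : ℝ) {α : ℝ} (hα : 0 < α) :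
    ∫ n, (if 0 ≤ c + α * n then max (T - (c + α * n)) 0 else 0) ∂gam
      ≤ phi 0 * (max T 0 ^ 2 / (2 * α)) := by
  set T' := max T 0 with hT'
  have hT0 : 0 ≤ T' := le_max_right _ _
  have hTT : T ≤ T' := le_max_left _ _
  have hle : -c / α ≤ (T' - c) / α := by gcongr; linarith
  have h := integral_gam_le_of_le
    (g := fun n => if 0 ≤ c + α * n then max (T - (c + α * n)) 0 else 0)
    (h := (Icc (-c / α) ((T' - c) / α)).indicator fun n => T' - (c + α * n))
    (fun n => by split_ifs; exacts [le_max_right _ _, le_rfl])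
    ((integrable_indicator_iff measurableSet_Icc).2
      (Continuous.integrableOn_Icc (by fun_prop))) (fun n => by
      have hnn : 0 ≤ (Icc (-c / α) ((T' - c) / α)).indicator (fun n => T' - (c + α * n)) n := by
        refine indicator_nonneg (fun m hm => ?_) n
        have := hm.2
        rw [le_div_iff₀ hα] at this
        linarith
      split_ifs with hn
      · refine max_le ?_ hnn
        by_cases h2 : c + α * n ≤ T'
        · have : n ∈ Icc (-c / α) ((T' - c) / α) := by
            constructor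
            · rw [div_le_iff₀ hα]; linarith
            · rw [le_div_iff₀ hα]; linarith
          rw [indicator_of_mem this]; linarith
        · linarith [not_le.1 h2]
      · exact hnn)
  refine h.trans (le_of_eq ?_)
  rw [integral_indicator measurableSet_Icc, integral_Icc_eq_integral_Ioc,
    ← intervalIntegral.integral_of_le hle]
  congr 1
  rw [intervalIntegral.integral_eq_sub_of_hasDerivAt
    (f := fun n => -(T' - (c + α * n)) ^ 2 / (2 * α))]
  · field_simp; ring
  · intro n _
    have := ((((((hasDerivAt_id' n).const_mul α).const_add c).const_sub T').fun_pow 2).fun_neg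
      ).div_const (2 * α)
    refine this.congr_deriv ?_
    field_simp; ring
  · exact Continuous.intervalIntegrable (by fun_prop) _ _

lemma integrable_sq_gam : Integrable (fun n : ℝ => n ^ 2) gam :=
  (memLp_id_gaussianReal (μ := 0) (v := 1) 2).integrable_sq

lemma integral_sq_gam : ∫ n, n ^ 2 ∂gam = 1 := by
  have := variance_fun_id_gaussianReal (μ := 0) (v := 1)
  rw [variance_eq_integral (by fun_prop)] at this
  simpa using this

lemma integral_posPart_sq_gam : ∫ n, max n 0 ^ 2 ∂gam = 1 / 2 := by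
  have h1 : ∫ n, max (-n) 0 ^ 2 ∂gam = ∫ n, max n 0 ^ 2 ∂gam := by
    have h : gam.map (fun x => -x) = gam := by simpa using gaussianReal_map_neg (μ := 0) (v := 1)
    conv_rhs => rw [← h]
    rw [integral_map (by fun_prop) (Continuous.aestronglyMeasurable (by fun_prop))]
  have i1 : Integrable (fun n : ℝ => max n 0 ^ 2) gam :=
    Integrable.mono' integrable_sq_gam (Continuous.aestronglyMeasurable (by fun_prop))
      (Eventually.of_forall fun n => by
        rw [Real.norm_eq_abs, abs_of_nonneg (sq_nonneg _)]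
        rcases le_total n 0 with h | h <;> simp [h, sq_nonneg])
  have i2 : Integrable (fun n : ℝ => max (-n) 0 ^ 2) gam :=
    Integrable.mono' integrable_sq_gam (Continuous.aestronglyMeasurable (by fun_prop))
      (Eventually.of_forall fun n => by
        rw [Real.norm_eq_abs, abs_of_nonneg (sq_nonneg _)]
        rcases le_total n 0 with h | h <;> simp [h, sq_nonneg])
  have h2 : ∫ n, (max n 0 ^ 2 + max (-n) 0 ^ 2) ∂gam = 1 := by
    rw [← integral_sq_gam]
    congr 1; funext n
    rcases le_total n 0 with h | h <;> simp [h]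
  rw [integral_add i1 i2, h1] at h2
  linarith

variable {E : Type*} [NormedAddCommGroup E] [InnerProductSpace ℝ E] [FiniteDimensional ℝ E]
  [MeasurableSpace E] [BorelSpace E]

lemma integral_posPart_sq_inner (q : E) :
    ∫ x, max ⟪q, x⟫ 0 ^ 2 ∂stdGaussian E = ‖q‖ ^ 2 / 2 := by
  rw [integral_comp_inner q (F := fun t => max t 0 ^ 2) (by fun_prop)]
  have : (fun n : ℝ => max (‖q‖ * n) 0 ^ 2) = fun n => ‖q‖ ^ 2 * max n 0 ^ 2 := by
    funext n
    rw [← mul_pow, mul_max_of_nonneg _ _ (norm_nonneg q), mul_zero]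
  rw [this, integral_const_mul, integral_posPart_sq_gam]; ring

lemma integrable_posPart_sq_inner (q : E) :
    Integrable (fun x => max ⟪q, x⟫ 0 ^ 2) (stdGaussian E) := by
  by_contra h
  have h1 := integral_posPart_sq_inner q
  rw [integral_undef h] at h1
  have : q = 0 := by
    have : ‖q‖ ^ 2 = 0 := by linarith
    simpa using this
  apply h
  simp [this]

omit [FiniteDimensional ℝ E] [MeasurableSpace E] [BorelSpace E] in
/-- the component of `y` orthogonal to `q` -/
lemma exists_sub_orth (y q : E) : ∃ t : ℝ, ⟪q, y - t • q⟫ = 0 := by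
  by_cases hq : q = 0
  · exact ⟨0, by simp [hq]⟩
  · refine ⟨⟪q, y⟫ / ‖q‖ ^ 2, ?_⟩
    rw [inner_sub_right, real_inner_smul_right, real_inner_self_eq_norm_sq]
    have : ‖q‖ ^ 2 ≠ 0 := pow_ne_zero 2 (norm_ne_zero_iff.2 hq)
    field_simp; ring

omit [FiniteDimensional ℝ E] [MeasurableSpace E] [BorelSpace E] in
lemma inner_split_of_orth {e u : E} (h : ⟪u, e⟫ = 0) (x : E) (n : ℝ) :
    ⟪u, x - ⟪e, x⟫ • e + n • e⟫ = ⟪u, x⟫ := by
  simp [inner_add_right, inner_sub_right, real_inner_smul_right, h]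

omit [FiniteDimensional ℝ E] [MeasurableSpace E] [BorelSpace E] in
lemma inner_split (e u x : E) (n : ℝ) :
    ⟪u, x - ⟪e, x⟫ • e + n • e⟫ = ⟪u, x - ⟪e, x⟫ • e⟫ + ⟪u, e⟫ * n := by
  simp [inner_add_right, real_inner_smul_right, mul_comm]

theorem needle (y1 y2 q : E) {A B C : ℝ} (hA : 0 < A) (hτ : 0 < A * B - C ^ 2)
    (hQ : ∀ α β γ : ℝ, A * α ^ 2 - 2 * C * α * β + B * β ^ 2 ≤ ‖α • y1 + β • y2 + γ • q‖ ^ 2) :
    (stdGaussian E).real {x | 0 ≤ ⟪y1, x⟫ ∧ 0 ≤ ⟪y2, x⟫ ∧ ⟪y1, x⟫ + ⟪y2, x⟫ ≤ ⟪q, x⟫}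
      * (8 * π * √(A * B - C ^ 2)) ≤ ‖q‖ ^ 2 := by
  obtain ⟨t1, ht1⟩ := exists_sub_orth y1 q
  set u1 := y1 - t1 • q with hu1
  obtain ⟨t2, ht2⟩ := exists_sub_orth y2 q
  obtain ⟨s, hs⟩ := exists_sub_orth (y2 - t2 • q) u1
  set u2 := y2 - t2 • q - s • u1 with hu2
  have hq2 : ⟪q, u2⟫ = 0 := by rw [hu2, inner_sub_right, ht2, real_inner_smul_right, ht1]; simp
  have hα2 : A ≤ ‖u1‖ ^ 2 := by
    have := hQ 1 0 (-t1)
    simpa [hu1, sub_eq_add_neg] using this
  have hγ2 : A * B - C ^ 2 ≤ A * ‖u2‖ ^ 2 := by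
    have h1 := hQ (-s) 1 (s * t1 - t2)
    have h2 : (-s) • y1 + (1 : ℝ) • y2 + (s * t1 - t2) • q = u2 := by
      rw [hu2, hu1]; module
    rw [h2] at h1
    nlinarith [sq_nonneg (A * s + C)]
  have hα0 : 0 < ‖u1‖ := by
    by_contra h
    have : ‖u1‖ = 0 := le_antisymm (not_lt.1 h) (norm_nonneg _)
    rw [this] at hα2; linarith
  have hγ0 : 0 < ‖u2‖ := by
    by_contra h
    have : ‖u2‖ = 0 := le_antisymm (not_lt.1 h) (norm_nonneg _)
    rw [this] at hγ2; linarith
  set α := ‖u1‖ with hα
  set γ := ‖u2‖ with hγ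
  have hsq : √(A * B - C ^ 2) ≤ α * γ := by
    rw [Real.sqrt_le_left (by positivity), mul_pow]
    nlinarith [sq_nonneg γ]
  set e1 := α⁻¹ • u1 with he1
  set e2 := γ⁻¹ • u2 with he2
  have n1 : ‖e1‖ = 1 := by rw [he1, norm_smul, norm_inv, hα, norm_norm]; exact inv_mul_cancel₀ hα0.ne'
  have n2 : ‖e2‖ = 1 := by rw [he2, norm_smul, norm_inv, hγ, norm_norm]; exact inv_mul_cancel₀ hγ0.ne'
  have q1 : ⟪q, e1⟫ = 0 := by rw [he1, real_inner_smul_right, ht1, mul_zero]
  have q2 : ⟪q, e2⟫ = 0 := by rw [he2, real_inner_smul_right, hq2, mul_zero]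
  have y1e1 : ⟪y1, e1⟫ = α := by
    have : y1 = u1 + t1 • q := by rw [hu1]; abel
    rw [this, inner_add_left, real_inner_smul_left, q1, he1, real_inner_smul_right,
      real_inner_self_eq_norm_sq, ← hα]
    field_simp; ring
  have y1e2 : ⟪y1, e2⟫ = 0 := by
    have : y1 = u1 + t1 • q := by rw [hu1]; abel
    rw [this, inner_add_left, real_inner_smul_left, q2, he2, real_inner_smul_right, hs]
    simp
  have y2e2 : ⟪y2, e2⟫ = γ := by
    have : y2 = u2 + t2 • q + s • u1 := by rw [hu2]; abel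
    rw [this, inner_add_left, inner_add_left, real_inner_smul_left, real_inner_smul_left, q2, he2,
      real_inner_smul_right, real_inner_smul_right, hs, real_inner_self_eq_norm_sq, ← hγ]
    field_simp; ring
  set S := {x : E | 0 ≤ ⟪y1, x⟫ ∧ 0 ≤ ⟪y2, x⟫ ∧ ⟪y1, x⟫ + ⟪y2, x⟫ ≤ ⟪q, x⟫} with hS
  have hSm : MeasurableSet S := by
    have m : ∀ u : E, Measurable fun x : E => ⟪u, x⟫ := fun u =>
      Continuous.measurable (by fun_prop)
    exact (measurableSet_le measurable_const (m y1)).inter
      ((measurableSet_le measurable_const (m y2)).inter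
        (measurableSet_le ((m y1).add (m y2)) (m q)))
  set G : E → ℝ := fun x => if 0 ≤ ⟪y1, x⟫ then max (⟪q, x⟫ - ⟪y1, x⟫) 0 else 0 with hG
  have hGi : Integrable G (stdGaussian E) := by
    have h1 : Integrable (fun x => max (⟪q, x⟫ - ⟪y1, x⟫) 0) (stdGaussian E) :=
      ((integrable_inner q).sub (integrable_inner y1)).sup (integrable_const 0)
    exact h1.indicator (s := {x | 0 ≤ ⟪y1, x⟫})
      (measurableSet_le measurable_const (Continuous.measurable (by fun_prop)))
  have hSi : Integrable (S.indicator (1 : E → ℝ)) (stdGaussian E) :=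
    (integrable_const 1).indicator hSm
  have step1 : (stdGaussian E).real S ≤ phi 0 / γ * ∫ x, G x ∂stdGaussian E := by
    rw [← integral_indicator_one hSm, integral_split n2 hSi, ← integral_const_mul]
    refine integral_mono (integrable_split n2 hSi) (hGi.const_mul _) fun x => ?_
    simp only [hG]
    split_ifs with hx
    · have := needle_a ⟪y2, x - ⟪e2, x⟫ • e2⟫ (⟪q, x⟫ - ⟪y1, x⟫) hγ0
      refine le_trans (le_of_eq ?_) (this.trans (le_of_eq (by ring)))
      congr 1; funext n
      simp only [indicator, hS, mem_ofPred_eq, inner_split_of_orth y1e2, inner_split_of_orth q2,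
        inner_split e2 y2, y2e2, hx, true_and, Pi.one_apply, le_sub_iff_add_le']
    · refine le_of_eq ?_
      simp [indicator, hS, inner_split_of_orth y1e2, hx]
  have step2 : ∫ x, G x ∂stdGaussian E ≤ phi 0 / (2 * α) * (‖q‖ ^ 2 / 2) := by
    rw [integral_split n1 hGi, ← integral_posPart_sq_inner, ← integral_const_mul]
    refine integral_mono (integrable_split n1 hGi) ((integrable_posPart_sq_inner q).const_mul _)
      fun x => ?_
    have := needle_b ⟪y1, x - ⟪e1, x⟫ • e1⟫ ⟪q, x⟫ hα0
    refine le_trans (le_of_eq ?_) (this.trans (le_of_eq (by ring)))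
    congr 1; funext n
    simp only [hG, inner_split_of_orth q1, inner_split e1 y1, y1e1]
  have hphi : phi 0 * phi 0 = (2 * π)⁻¹ := by
    rw [phi_zero, ← mul_inv, Real.mul_self_sqrt (by positivity)]
  have hp0 := phi_pos 0
  calc (stdGaussian E).real S * (8 * π * √(A * B - C ^ 2))
      ≤ (phi 0 / γ * (phi 0 / (2 * α) * (‖q‖ ^ 2 / 2))) * (8 * π * (α * γ)) := by
        gcongr
        exact step1.trans (by gcongr)
    _ = (phi 0 * phi 0) * (2 * π) * ‖q‖ ^ 2 := by field_simp; ring
    _ = ‖q‖ ^ 2 := by rw [hphi]; field_simp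

end Crest.Agent.R215
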