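import Crest.Agent.R215.EhrhardN

/-! Splitting the standard Gaussian along a unit vector; the cone inequality, the level-one
inequality and the needle bound. -/

set_option autoImplicit false
open MeasureTheory ProbabilityTheory Set Filter Topology Real
open scoped NNReal RealInnerProductSpace

namespace Crest.Agent.R215

variable {E : Type*} [NormedAddCommGroup E] [InnerProductSpace ℝ E] [FiniteDimensional ℝ E]
  [MeasurableSpace E] [BorelSpace E]

lemma measurePreserving_split {e : E} (he : ‖e‖ = 1) :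
    MeasurePreserving (fun p : E × ℝ => p.1 - ⟪e, p.1⟫ • e + p.2 • e)
      ((stdGaussian E).prod gam) (stdGaussian E) := by
  have hm : Measurable (fun p : E × ℝ => p.1 - ⟪e, p.1⟫ • e + p.2 • e) :=
    Continuous.measurable (by fun_prop)
  refine ⟨hm, ?_⟩
  apply Measure.ext_of_charFun
  ext t
  rw [charFun_apply, integral_map hm.aemeasurable (Continuous.aestronglyMeasurable (by fun_prop))]
  have h1 : ∀ p : E × ℝ, Complex.exp ((⟪p.1 - ⟪e, p.1⟫ • e + p.2 • e, t⟫ : ℝ) * Complex.I)
      = Complex.exp ((⟪p.1, t - ⟪e, t⟫ • e⟫ : ℝ) * Complex.I)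
        * Complex.exp ((⟪e, t⟫ : ℝ) * (p.2 : ℂ) * Complex.I) := by
    intro p
    rw [← Complex.exp_add]
    congr 1
    simp only [inner_add_left, inner_sub_left, inner_sub_right, real_inner_smul_left,
      real_inner_smul_right, real_inner_comm e p.1]
    push_cast
    ring
  simp_rw [h1]
  rw [integral_prod_mul (fun x : E => Complex.exp ((⟪x, t - ⟪e, t⟫ • e⟫ : ℝ) * Complex.I))
    (fun n : ℝ => Complex.exp ((⟪e, t⟫ : ℝ) * (n : ℂ) * Complex.I)), ← charFun_apply,
    ← charFun_apply_real, charFun_stdGaussian, charFun_stdGaussian, charFun_gaussianReal,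
    ← Complex.exp_add]
  congr 1
  have h2 : ‖t - ⟪e, t⟫ • e‖ ^ 2 = ‖t‖ ^ 2 - ⟪e, t⟫ ^ 2 := by
    rw [norm_sub_sq_real, norm_smul, he, real_inner_smul_right, real_inner_comm e t]
    simp; ring
  have h3 : ((‖t - ⟪e, t⟫ • e‖ : ℝ) : ℂ) ^ 2 = ((‖t‖ : ℝ) : ℂ) ^ 2 - ((⟪e, t⟫ : ℝ) : ℂ) ^ 2 := by
    exact_mod_cast h2
  rw [h3]
  simp; ring

lemma integral_split {e : E} (he : ‖e‖ = 1) {F : E → ℝ} (hF : Integrable F (stdGaussian E)) :
    ∫ x, F x ∂stdGaussian E = ∫ x, ∫ n, F (x - ⟪e, x⟫ • e + n • e) ∂gam ∂stdGaussian E := by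
  have hmp := measurePreserving_split he
  have h1 : Integrable (fun p : E × ℝ => F (p.1 - ⟪e, p.1⟫ • e + p.2 • e))
      ((stdGaussian E).prod gam) := hmp.integrable_comp_of_integrable hF
  rw [← integral_prod _ h1]
  conv_lhs => rw [← hmp.map_eq]
  rw [integral_map hmp.measurable.aemeasurable (by rw [hmp.map_eq]; exact hF.aestronglyMeasurable)]

lemma integrable_split {e : E} (he : ‖e‖ = 1) {F : E → ℝ} (hF : Integrable F (stdGaussian E)) :
    Integrable (fun x => ∫ n, F (x - ⟪e, x⟫ • e + n • e) ∂gam) (stdGaussian E) :=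
  ((measurePreserving_split he).integrable_comp_of_integrable hF).integral_prod_left

lemma integrable_inner (y : E) : Integrable (fun x => ⟪y, x⟫) (stdGaussian E) :=
  IsGaussian.integrable_id.const_inner y

lemma integral_inner_eq_zero (y : E) : ∫ x, ⟪y, x⟫ ∂stdGaussian E = 0 := by
  have := integral_inner (𝕜 := ℝ) (μ := stdGaussian E) (f := fun x => x) IsGaussian.integrable_id y
  rw [this]; simp

lemma map_inner_stdGaussian (y : E) :
    (stdGaussian E).map (fun x => ⟪y, x⟫) = gam.map (fun n => ‖y‖ * n) := by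
  apply Measure.ext_of_charFun
  ext t
  rw [gaussianReal_map_const_mul, charFun_gaussianReal, charFun_apply_real,
    integral_map (Continuous.aemeasurable (by fun_prop))
      (Continuous.aestronglyMeasurable (by fun_prop))]
  have h1 : ∀ x : E, Complex.exp ((t : ℂ) * (⟪y, x⟫ : ℝ) * Complex.I)
      = Complex.exp ((⟪x, t • y⟫ : ℝ) * Complex.I) := by
    intro x
    rw [real_inner_smul_right, real_inner_comm]; push_cast; rfl
  simp_rw [h1]
  rw [← charFun_apply, charFun_stdGaussian, norm_smul]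
  congr 1
  have : ((‖t‖ * ‖y‖ : ℝ) : ℂ) ^ 2 = (t : ℂ) ^ 2 * (‖y‖ : ℂ) ^ 2 := by
    have : (‖t‖ * ‖y‖) ^ 2 = t ^ 2 * ‖y‖ ^ 2 := by rw [mul_pow, Real.norm_eq_abs, sq_abs]
    exact_mod_cast this
  rw [this]
  simp; ring

lemma integral_comp_inner (y : E) {F : ℝ → ℝ} (hF : Measurable F) :
    ∫ x, F ⟪y, x⟫ ∂stdGaussian E = ∫ n, F (‖y‖ * n) ∂gam := by
  rw [← integral_map (φ := fun x => ⟪y, x⟫) (Continuous.aemeasurable (by fun_prop))
    hF.aestronglyMeasurable, map_inner_stdGaussian,
    integral_map (Continuous.aemeasurable (by fun_prop)) hF.aestronglyMeasurable]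

lemma ae_inner_ne_zero {y : E} (hy : y ≠ 0) : ∀ᵐ x ∂stdGaussian E, ⟪y, x⟫ ≠ 0 := by
  have h1 : ∀ᵐ t ∂(gam.map (fun n => ‖y‖ * n)), t ≠ 0 := by
    refine (ae_map_iff (p := fun t : ℝ => t ≠ 0) (Continuous.aemeasurable (by fun_prop))
      (measurableSet_singleton (0 : ℝ)).compl).2 ?_
    have := nullSingletonClass_gaussianReal (μ := 0) (v := 1) one_ne_zero
    filter_upwards [(countable_singleton (0 : ℝ)).ae_notMem gam] with n hn
    exact mul_ne_zero (norm_ne_zero_iff.2 hy) hn
  rw [← map_inner_stdGaussian] at h1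
  exact ae_of_ae_map (f := fun x : E => ⟪y, x⟫) (p := fun t : ℝ => t ≠ 0)
    (Continuous.aemeasurable (by fun_prop)) h1

lemma integral_abs_gam : ∫ n, |n| ∂gam = 2 * phi 0 := by
  have h1 : (fun n : ℝ => |n|) = fun n => 2 * max (n + 0) 0 - n := by
    funext n
    rcases le_total 0 n with h | h
    · simp [abs_of_nonneg h, h]; ring
    · simp [abs_of_nonpos h, h]
  have hid : Integrable (fun n : ℝ => n) gam := IsGaussian.integrable_id
  have h2 : Integrable (fun n : ℝ => max (n + 0) 0) gam :=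
    (hid.add (integrable_const 0)).sup (integrable_const 0)
  rw [h1, integral_sub (h2.const_mul 2) hid, integral_const_mul]
  rw [integral_posPart_gam, integral_id_gaussianReal]
  simp [Psi]

lemma integral_abs_inner (y : E) : ∫ x, |⟪y, x⟫| ∂stdGaussian E = 2 * phi 0 * ‖y‖ := by
  rw [integral_comp_inner y (F := fun t => |t|) (by fun_prop)]
  simp_rw [abs_mul, abs_norm]
  rw [integral_const_mul, integral_abs_gam]; ring

lemma integral_comp_neg (F : E → ℝ) (hF : Measurable F) :
    ∫ x, F (-x) ∂stdGaussian E = ∫ x, F x ∂stdGaussian E := by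
  have h := stdGaussian_map (LinearIsometryEquiv.neg ℝ (E := E))
  conv_rhs => rw [← h]
  rw [integral_map (Continuous.aemeasurable (by fun_prop)) hF.aestronglyMeasurable]
  rfl

/-- level-one inequality -/
lemma level_one (A : Set E) {e : E} (he : ‖e‖ = 1) (a : ℝ) :
    ∫ x in A, ⟪e, x⟫ ∂stdGaussian E ≤ Psi a - a * (stdGaussian E).real A := by
  have h1 : ∫ x, max (⟪e, x⟫ + a) 0 ∂stdGaussian E = Psi a := by
    rw [integral_comp_inner e (F := fun t => max (t + a) 0) (by fun_prop), he]
    simp only [one_mul]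
    exact integral_posPart_gam a
  have hi : Integrable (fun x => ⟪e, x⟫ + a) (stdGaussian E) :=
    (integrable_inner e).add (integrable_const a)
  have hi2 : Integrable (fun x => max (⟪e, x⟫ + a) 0) (stdGaussian E) :=
    hi.sup (integrable_const 0)
  have h2 : ∫ x in A, (⟪e, x⟫ + a) ∂stdGaussian E ≤ Psi a := by
    rw [← h1]
    calc ∫ x in A, (⟪e, x⟫ + a) ∂stdGaussian E ≤ ∫ x in A, max (⟪e, x⟫ + a) 0 ∂stdGaussian E :=
          integral_mono hi.integrableOn hi2.integrableOn fun x => le_max_left _ _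
      _ ≤ _ := setIntegral_le_integral hi2 (Eventually.of_forall fun x => le_max_right _ _)
  rw [integral_add (integrable_inner e).integrableOn (integrable_const a)] at h2
  simp only [integral_const, MeasurableSet.univ, measureReal_restrict_apply, univ_inter,
    smul_eq_mul] at h2
  linarith

/-- the cone inequality: Ehrhard's inequality for translates of `{W ≥ 0}` in direction `v` -/
theorem key_cone {W : E → ℝ} {L : ℝ≥0} (hW : LipschitzWith L W) (hc : ConcaveOn ℝ univ W)
    {v : E} (hv : ∀ x (t : ℝ), W (x + t • v) = W x + t) {a : ℝ}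
    (ha : Phi a = (stdGaussian E).real {x | 0 ≤ W x}) :
    (∫ x, max (W x) 0 ∂stdGaussian E) * (∫ x in {x | 0 ≤ W x}, ⟪v, x⟫ ∂stdGaussian E)
      ≤ phi a * Psi a := by
  have hv0 : v ≠ 0 := by
    rintro rfl
    simpa using hv 0 1
  set c := ‖v‖ with hcdef
  have hc0 : 0 < c := norm_pos_iff.2 hv0
  set e := c⁻¹ • v with hedef
  have he : ‖e‖ = 1 := by rw [hedef, norm_smul, norm_inv, norm_norm]; exact inv_mul_cancel₀ hc0.ne'
  let P : E →L[ℝ] E := ContinuousLinearMap.id ℝ E - (innerSL ℝ e).smulRight e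
  have hP : ∀ x, P x = x - ⟪e, x⟫ • e := fun x => by simp [P]
  set U : E → ℝ := fun x => c * W (P x) with hU
  have hUL : LipschitzWith (‖c‖₊ * (L * ‖P‖₊)) U :=
    (lipschitzWith_smul c).comp (hW.comp P.lipschitz)
  have hUc : ConcaveOn ℝ univ U := by
    have := (hc.comp_linearMap (P : E →ₗ[ℝ] E)).smul hc0.le
    simpa [hU, Function.comp_def] using this
  have hWs : ∀ x (n : ℝ), W (x - ⟪e, x⟫ • e + n • e) = c⁻¹ * (n + U x) := by
    intro x n
    rw [← hP, hedef, smul_smul, hv, hU]
    field_simp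
    ring
  have hiff : ∀ x (n : ℝ), 0 ≤ W (x - ⟪e, x⟫ • e + n • e) ↔ 0 ≤ n + U x := by
    intro x n
    rw [hWs, mul_nonneg_iff_of_pos_left (inv_pos.2 hc0)]
  have hvs : ∀ x (n : ℝ), ⟪v, x - ⟪e, x⟫ • e + n • e⟫ = c * n := by
    intro x n
    have hve : v = c • e := by rw [hedef, smul_smul, mul_inv_cancel₀ hc0.ne', one_smul]
    have hee : ⟪e, e⟫ = 1 := by rw [real_inner_self_eq_norm_sq, he]; norm_num
    rw [hve]
    simp only [inner_add_right, inner_sub_right, real_inner_smul_left, real_inner_smul_right, hee]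
    ring
  have hms : MeasurableSet {x | 0 ≤ W x} :=
    measurableSet_le measurable_const hW.continuous.measurable
  have e1 : (stdGaussian E).real {x | 0 ≤ W x} = ∫ x, Phi (U x) ∂stdGaussian E := by
    rw [← integral_indicator_one hms, integral_split he (F := indicator {x | 0 ≤ W x} 1)
      ((integrable_const 1).indicator hms)]
    congr 1; funext x
    rw [← integral_indicator_gam]
    congr 1; funext n
    simp [indicator, hiff]
  have e2 : ∫ x in {x | 0 ≤ W x}, ⟪v, x⟫ ∂stdGaussian E = c * ∫ x, phi (U x) ∂stdGaussian E := by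
    rw [← integral_indicator hms, integral_split he ((integrable_inner v).indicator hms),
      ← integral_const_mul]
    congr 1; funext x
    rw [← integral_id_indicator_gam, ← integral_const_mul]
    congr 1; funext n
    simp [indicator, hiff, hvs]
  have e3 : ∫ x, max (W x) 0 ∂stdGaussian E = c⁻¹ * ∫ x, Psi (U x) ∂stdGaussian E := by
    rw [integral_split he (F := fun x => max (W x) 0)
      ((integrable_of_lipschitz hW).sup (integrable_const 0)), ← integral_const_mul]
    congr 1; funext x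
    rw [← integral_posPart_gam, ← integral_const_mul]
    congr 1; funext n
    rw [hWs, mul_max_of_nonneg _ _ (inv_pos.2 hc0).le, mul_zero]
  rw [e2, e3]
  have := key_concave hUL hUc (ha.trans e1)
  calc c⁻¹ * (∫ x, Psi (U x) ∂stdGaussian E) * (c * ∫ x, phi (U x) ∂stdGaussian E)
      = (∫ x, Psi (U x) ∂stdGaussian E) * (∫ x, phi (U x) ∂stdGaussian E) := by field_simp
    _ ≤ _ := this

end Crest.Agent.R215
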