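import Crest.Agent.R215.Gmax

/-! Numerical bounds for the Gaussian functions. -/

set_option autoImplicit false
open MeasureTheory ProbabilityTheory Set Filter Topology Real

namespace Crest.Agent.R215

def HasY (p Y : ℝ) : Prop := ∃ a, Phi a = p ∧ Y ≤ phi a * Psi a

def Level (s p : ℝ) : Prop := ∀ a, lam0 * √s ≤ Psi a - a * p

lemma nonneg_of_deriv_nonneg_atBot {F F' : ℝ → ℝ} {a : ℝ} (hF : ∀ t, HasDerivAt F (F' t) t)
    (h0 : ∀ t ≤ a, 0 ≤ F' t) (hl : Tendsto F atBot (𝓝 0)) : 0 ≤ F a := by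
  have hm : MonotoneOn F (Iic a) :=
    monotoneOn_of_deriv_nonneg (convex_Iic a)
      (fun t _ => (hF t).continuousAt.continuousWithinAt)
      (fun t _ => (hF t).differentiableAt.differentiableWithinAt) fun t ht => by
        rw [(hF t).deriv]; exact h0 t (le_of_lt (by simpa using ht))
  refine le_of_tendsto hl ?_
  filter_upwards [eventually_le_atBot a] with t ht using hm ht (mem_Iic.2 le_rfl) ht

lemma tendsto_mul_Psi_atBot : Tendsto (fun a => a * Psi a) atBot (𝓝 0) := by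
  have h1 : Tendsto (fun t : ℝ => 5 * Real.exp (-t ^ 2 / 4)) atBot (𝓝 0) := by
    have h : Tendsto (fun x : ℝ => -x ^ 2 / 4) atTop atBot := by
      apply Tendsto.atBot_div_const (by norm_num)
      exact tendsto_neg_atTop_atBot.comp (tendsto_pow_atTop two_ne_zero)
    have := ((Real.tendsto_exp_atBot.comp h).const_mul 5).comp tendsto_neg_atBot_atTop
    simpa [Function.comp_def] using this
  refine squeeze_zero_norm' ?_ h1
  filter_upwards [eventually_le_atBot 0] with t ht
  refine le_trans ?_ (abs_mul_phi_le t)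
  rw [Real.norm_eq_abs, abs_mul, abs_mul, abs_neg, abs_of_pos (Psi_pos t), abs_of_pos (phi_pos t)]
  exact mul_le_mul_of_nonneg_left (Psi_le_phi ht) (abs_nonneg t)

lemma hasDerivAt_psi (a : ℝ) :
    HasDerivAt (fun a => phi a * Psi a) (phi a * (Phi a - a * Psi a)) a :=
  ((hasDerivAt_phi a).fun_mul (hasDerivAt_Psi a)).congr_deriv (by ring)

lemma tendsto_psi_atBot : Tendsto (fun a => phi a * Psi a) atBot (𝓝 0) := by
  simpa using tendsto_phi_atBot.mul tendsto_Psi_atBot

lemma psi_le_sq (a : ℝ) : phi a * Psi a ≤ Phi a ^ 2 := by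
  have h1 : ∀ t, 0 ≤ Phi t + t * Psi t := fun t => by
    refine nonneg_of_deriv_nonneg_atBot (F := fun t => Phi t + t * Psi t)
      (F' := fun t => 2 * Psi t) (fun t => ?_) (fun t _ => by linarith [Psi_pos t]) ?_
    · refine ((hasDerivAt_Phi t).fun_add
        ((hasDerivAt_id' t).fun_mul (hasDerivAt_Psi t))).congr_deriv ?_
      unfold Psi; ring
    · simpa using tendsto_Phi_atBot.add tendsto_mul_Psi_atBot
  have := nonneg_of_deriv_nonneg_atBot (F := fun t => Phi t ^ 2 - phi t * Psi t)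
    (F' := fun t => phi t * (Phi t + t * Psi t)) (a := a) (fun t => ?_)
    (fun t _ => mul_nonneg (phi_pos t).le (h1 t)) ?_
  · linarith
  · refine (((hasDerivAt_Phi t).fun_pow 2).fun_sub (hasDerivAt_psi t)).congr_deriv ?_
    simp; ring
  · simpa using (tendsto_Phi_atBot.pow 2).sub tendsto_psi_atBot

lemma kappa_mono : MonotoneOn (fun a => Phi a - a * Psi a) (Iic 0) := by
  have hd : ∀ t, HasDerivAt (fun a => Phi a - a * Psi a) (-2 * t * Phi t) t := fun t => by
    refine ((hasDerivAt_Phi t).fun_sub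
      ((hasDerivAt_id' t).fun_mul (hasDerivAt_Psi t))).congr_deriv ?_
    unfold Psi; ring
  refine monotoneOn_of_deriv_nonneg (convex_Iic 0)
    (fun t _ => (hd t).continuousAt.continuousWithinAt)
    (fun t _ => (hd t).differentiableAt.differentiableWithinAt) fun t ht => ?_
  rw [(hd t).deriv]
  have : t < 0 := by simpa using ht
  nlinarith [Phi_pos t]

lemma hasDerivAt_G (A B t : ℝ) : HasDerivAt (fun a => Phi a - A - B * (phi a * Psi a))
    (phi t * (1 - B * (Phi t - t * Psi t))) t :=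
  (((hasDerivAt_Phi t).sub_const A).fun_sub ((hasDerivAt_psi t).const_mul B)).congr_deriv (by ring)

lemma chord_right {A B a r : ℝ} (hB : 0 ≤ B) (har : a ≤ r) (hr0 : r ≤ 0)
    (hr : A + B * (phi r * Psi r) ≤ Phi r) (hneg : 1 - B * (Phi a - a * Psi a) ≤ 0) :
    A + B * (phi a * Psi a) ≤ Phi a := by
  have hm : AntitoneOn (fun a => Phi a - A - B * (phi a * Psi a)) (Icc a r) :=
    antitoneOn_of_deriv_nonpos (convex_Icc a r)
      (fun t _ => (hasDerivAt_G A B t).continuousAt.continuousWithinAt)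
      (fun t _ => (hasDerivAt_G A B t).differentiableAt.differentiableWithinAt) fun t ht => by
        rw [(hasDerivAt_G A B t).deriv]
        rw [interior_Icc] at ht
        have h1 := kappa_mono (mem_Iic.2 (har.trans hr0)) (mem_Iic.2 (ht.2.le.trans hr0)) ht.1.le
        simp only at h1
        have h2 : 1 - B * (Phi t - t * Psi t) ≤ 0 := by nlinarith
        exact mul_nonpos_of_nonneg_of_nonpos (phi_pos t).le h2
  have := hm ⟨le_rfl, har⟩ ⟨har, le_rfl⟩ har
  simp only at this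
  linarith

lemma chord_fin {A B l a r : ℝ} (hB : 0 ≤ B) (hla : l ≤ a) (har : a ≤ r) (hr0 : r ≤ 0)
    (hl : A + B * (phi l * Psi l) ≤ Phi l) (hr : A + B * (phi r * Psi r) ≤ Phi r) :
    A + B * (phi a * Psi a) ≤ Phi a := by
  rcases le_total (1 - B * (Phi a - a * Psi a)) 0 with h | h
  · exact chord_right hB har hr0 hr h
  have hm : MonotoneOn (fun a => Phi a - A - B * (phi a * Psi a)) (Icc l a) :=
    monotoneOn_of_deriv_nonneg (convex_Icc l a)
      (fun t _ => (hasDerivAt_G A B t).continuousAt.continuousWithinAt)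
      (fun t _ => (hasDerivAt_G A B t).differentiableAt.differentiableWithinAt) fun t ht => by
        rw [(hasDerivAt_G A B t).deriv]
        rw [interior_Icc] at ht
        have h1 := kappa_mono (mem_Iic.2 ((ht.2.le.trans har).trans hr0))
          (mem_Iic.2 (har.trans hr0)) ht.2.le
        simp only at h1
        have h2 : 0 ≤ 1 - B * (Phi t - t * Psi t) := by nlinarith
        exact mul_nonneg (phi_pos t).le h2
  have := hm ⟨le_rfl, hla⟩ ⟨hla, le_rfl⟩ hla
  simp only at this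
  linarith

lemma chord_inf {B a r : ℝ} (hB : 0 ≤ B) (har : a ≤ r) (hr0 : r ≤ 0)
    (hr : 0 + B * (phi r * Psi r) ≤ Phi r) : 0 + B * (phi a * Psi a) ≤ Phi a := by
  rcases le_total (1 - B * (Phi a - a * Psi a)) 0 with h | h
  · exact chord_right hB har hr0 hr h
  have := nonneg_of_deriv_nonneg_atBot (a := a) (hasDerivAt_G 0 B) (fun t ht => by
    have h1 := kappa_mono (mem_Iic.2 ((ht.trans har).trans hr0)) (mem_Iic.2 (har.trans hr0)) ht
    simp only at h1
    have h2 : 0 ≤ 1 - B * (Phi t - t * Psi t) := by nlinarith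
    exact mul_nonneg (phi_pos t).le h2)
    (by simpa using tendsto_Phi_atBot.sub (tendsto_psi_atBot.const_mul B))
  linarith

noncomputable def expT (n : ℕ) (u : ℝ) : ℝ := ∑ i ∈ Finset.range n, (-u) ^ i / (i.factorial : ℝ)

lemma hasDerivAt_expT (n : ℕ) (u : ℝ) : HasDerivAt (expT (n + 1)) (-expT n u) u := by
  induction n with
  | zero => 
    have : expT 1 = fun _ => 1 := by funext u; simp [expT]
    rw [this]; simpa [expT] using hasDerivAt_const u (1 : ℝ)
  | succ n ih =>
    have : expT (n + 2) = fun u => expT (n + 1) u + (-u) ^ (n + 1) / ((n + 1).factorial : ℝ) := by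
      funext u; simp only [expT]; rw [Finset.sum_range_succ]
    rw [this]
    refine (ih.fun_add (((hasDerivAt_id' u).fun_neg.fun_pow (n + 1)).div_const _)).congr_deriv ?_
    simp only [expT]
    rw [Finset.sum_range_succ, Nat.factorial_succ]
    have : (n.factorial : ℝ) ≠ 0 := by positivity
    push_cast
    field_simp
    ring

lemma nonneg_of_deriv_nonneg_zero {F F' : ℝ → ℝ} {a : ℝ} (ha : 0 ≤ a)
    (hF : ∀ t, HasDerivAt F (F' t) t) (h0 : ∀ t, 0 ≤ t → 0 ≤ F' t) (hl : F 0 = 0) : 0 ≤ F a := by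
  have hm : MonotoneOn F (Ici 0) :=
    monotoneOn_of_deriv_nonneg (convex_Ici 0)
      (fun t _ => (hF t).continuousAt.continuousWithinAt)
      (fun t _ => (hF t).differentiableAt.differentiableWithinAt) fun t ht => by
        rw [(hF t).deriv]; exact h0 t (le_of_lt (by simpa using ht))
  rw [← hl]
  exact hm (mem_Ici.2 le_rfl) ha ha

lemma expT_sign (n : ℕ) : ∀ u, 0 ≤ u → 0 ≤ (-1) ^ n * (expT (n + 1) u - Real.exp (-u)) := by
  have he : ∀ u : ℝ, HasDerivAt (fun u => Real.exp (-u)) (-Real.exp (-u)) u := fun u => by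
    simpa using (hasDerivAt_id' u).fun_neg.exp
  induction n with
  | zero =>
    intro u hu
    have : Real.exp (-u) ≤ 1 := Real.exp_le_one_iff.2 (by linarith)
    simpa [expT] using this
  | succ n ih =>
    intro u hu
    refine nonneg_of_deriv_nonneg_zero (F := fun u => (-1) ^ (n + 1) * (expT (n + 2) u - Real.exp (-u)))
      (F' := fun u => (-1) ^ n * (expT (n + 1) u - Real.exp (-u))) hu (fun t => ?_) ih ?_
    · refine (((hasDerivAt_expT (n + 1) t).fun_sub (he t)).const_mul _).congr_deriv ?_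
      ring
    · simp [expT, Finset.sum_range_succ']

noncomputable def Jn (n : ℕ) (t : ℝ) : ℝ :=
  ∑ i ∈ Finset.range n, (-1) ^ i * t ^ (2 * i + 1) / (2 ^ i * (i.factorial : ℝ) * (2 * i + 1))

lemma hasDerivAt_Jn (n : ℕ) (t : ℝ) : HasDerivAt (Jn n) (expT n (t ^ 2 / 2)) t := by
  unfold Jn expT
  refine HasDerivAt.fun_sum fun i _ => ?_
  refine (((hasDerivAt_pow (2 * i + 1) t).const_mul _).div_const _).congr_deriv ?_
  have : (i.factorial : ℝ) ≠ 0 := by positivity
  rw [neg_pow (t ^ 2 / 2), div_pow, ← pow_mul]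
  simp only [Nat.add_sub_cancel]
  push_cast
  field_simp

lemma phi_zero_le : phi 0 ≤ 39894229 / 100000000 := by
  rw [phi_zero, inv_le_comm₀ sqrt_two_pi_pos (by norm_num)]
  apply Real.le_sqrt_of_sq_le
  nlinarith [Real.pi_gt_d20]

lemma le_phi_zero : 39894228 / 100000000 ≤ phi 0 := by
  rw [phi_zero, le_inv_comm₀ (by norm_num) sqrt_two_pi_pos]
  rw [Real.sqrt_le_left (by norm_num)]
  nlinarith [Real.pi_lt_d20]

lemma phi_eq_mul (t : ℝ) : phi t = phi 0 * Real.exp (-(t ^ 2 / 2)) := by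
  simp [phi, neg_div]

lemma grid_bound {t f P Y : ℝ} (ht : 0 ≤ t)
    (hf : 39894229 / 100000000 ≤ f * ∑ i ∈ Finset.range 14, (t ^ 2 / 2) ^ i / (i.factorial : ℝ))
    (hf0 : 0 ≤ f) (hP : P ≤ 1 / 2 - 39894229 / 100000000 * Jn 17 t) (hY : f * (f - t * P) ≤ Y) :
    P ≤ Phi (-t) ∧ Psi (-t) ≤ f - t * P ∧ phi (-t) * Psi (-t) ≤ Y := by
  have h1 : P ≤ Phi (-t) := by
    have := nonneg_of_deriv_nonneg_zero
      (F := fun t => 39894229 / 100000000 * Jn 17 t - (1 / 2 - Phi (-t)))
      (F' := fun t => 39894229 / 100000000 * expT 17 (t ^ 2 / 2) - phi t) ht (fun s => ?_)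
      (fun s _ => ?_) (by simp [Jn, Phi_zero])
    · linarith
    · have h2 := (hasDerivAt_Phi (-s)).comp s (hasDerivAt_id' s).fun_neg
      refine (((hasDerivAt_Jn 17 s).const_mul _).fun_sub (h2.const_sub _)).congr_deriv ?_
      rw [phi_neg]; ring
    · have h3 := expT_sign 16 (s ^ 2 / 2) (by positivity)
      have h4 : Real.exp (-(s ^ 2 / 2)) ≤ expT 17 (s ^ 2 / 2) := by
        norm_num at h3; exact h3
      rw [phi_eq_mul s]
      have := mul_le_mul phi_zero_le h4 (Real.exp_pos _).le (by norm_num)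
      linarith
  have h2 : phi (-t) ≤ f := by
    rw [phi_neg, phi_eq_mul t, Real.exp_neg, ← div_eq_mul_inv, div_le_iff₀ (Real.exp_pos _)]
    have := Real.sum_le_exp_of_nonneg (x := t ^ 2 / 2) (by positivity) 14
    nlinarith [phi_zero_le]
  have h3 : Psi (-t) ≤ f - t * P := by
    unfold Psi; nlinarith
  exact ⟨h1, h3, (mul_le_mul h2 h3 (Psi_pos _).le hf0).trans hY⟩

lemma grid0 : (1390343 / 100000000 : ℝ) ≤ Phi (-(11 / 5 : ℝ)) ∧ Psi (-(11 / 5 : ℝ)) ≤ (3547461 / 100000000 : ℝ) - (11 / 5 : ℝ) * (1390343 / 100000000 : ℝ) ∧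
    phi (-(11 / 5 : ℝ)) * Psi (-(11 / 5 : ℝ)) ≤ (17337 / 100000000 : ℝ) :=
  grid_bound (by norm_num) (by norm_num [Finset.sum_range_succ, Nat.factorial]) (by norm_num)
    (by norm_num [Jn, Finset.sum_range_succ, Nat.factorial]) (by norm_num)

lemma grid1 : (1435827 / 50000000 : ℝ) ≤ Phi (-(19 / 10 : ℝ)) ∧ Psi (-(19 / 10 : ℝ)) ≤ (3280791 / 50000000 : ℝ) - (19 / 10 : ℝ) * (1435827 / 50000000 : ℝ) ∧
    phi (-(19 / 10 : ℝ)) * Psi (-(19 / 10 : ℝ)) ≤ (14507 / 20000000 : ℝ) :=
  grid_bound (by norm_num) (by norm_num [Finset.sum_range_succ, Nat.factorial]) (by norm_num)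
    (by norm_num [Jn, Finset.sum_range_succ, Nat.factorial]) (by norm_num)

lemma grid2 : (989429 / 20000000 : ℝ) ≤ Phi (-(33 / 20 : ℝ)) ∧ Psi (-(33 / 20 : ℝ)) ≤ (10226493 / 100000000 : ℝ) - (33 / 20 : ℝ) * (989429 / 20000000 : ℝ) ∧
    phi (-(33 / 20 : ℝ)) * Psi (-(33 / 20 : ℝ)) ≤ (42209 / 20000000 : ℝ) :=
  grid_bound (by norm_num) (by norm_num [Finset.sum_range_succ, Nat.factorial]) (by norm_num)
    (by norm_num [Jn, Finset.sum_range_succ, Nat.factorial]) (by norm_num)

lemma grid3 : (1838231 / 25000000 : ℝ) ≤ Phi (-(29 / 20 : ℝ)) ∧ Psi (-(29 / 20 : ℝ)) ≤ (13943057 / 100000000 : ℝ) - (29 / 20 : ℝ) * (1838231 / 25000000 : ℝ) ∧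
    phi (-(29 / 20 : ℝ)) * Psi (-(29 / 20 : ℝ)) ≤ (114379 / 25000000 : ℝ) :=
  grid_bound (by norm_num) (by norm_num [Finset.sum_range_succ, Nat.factorial]) (by norm_num)
    (by norm_num [Jn, Finset.sum_range_succ, Nat.factorial]) (by norm_num)

lemma grid4 : (660311 / 6250000 : ℝ) ≤ Phi (-(5 / 4 : ℝ)) ∧ Psi (-(5 / 4 : ℝ)) ≤ (18264909 / 100000000 : ℝ) - (5 / 4 : ℝ) * (660311 / 6250000 : ℝ) ∧
    phi (-(5 / 4 : ℝ)) * Psi (-(5 / 4 : ℝ)) ≤ (184793 / 20000000 : ℝ) :=
  grid_bound (by norm_num) (by norm_num [Finset.sum_range_succ, Nat.factorial]) (by norm_num)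
    (by norm_num [Jn, Finset.sum_range_succ, Nat.factorial]) (by norm_num)

lemma grid5 : (2713321 / 20000000 : ℝ) ≤ Phi (-(11 / 10 : ℝ)) ∧ Psi (-(11 / 10 : ℝ)) ≤ (21785219 / 100000000 : ℝ) - (11 / 10 : ℝ) * (2713321 / 20000000 : ℝ) ∧
    phi (-(11 / 10 : ℝ)) * Psi (-(11 / 10 : ℝ)) ≤ (373723 / 25000000 : ℝ) :=
  grid_bound (by norm_num) (by norm_num [Finset.sum_range_succ, Nat.factorial]) (by norm_num)
    (by norm_num [Jn, Finset.sum_range_succ, Nat.factorial]) (by norm_num)

lemma grid6 : (17105611 / 100000000 : ℝ) ≤ Phi (-(19 / 20 : ℝ)) ∧ Psi (-(19 / 20 : ℝ)) ≤ (25405907 / 100000000 : ℝ) - (19 / 20 : ℝ) * (17105611 / 100000000 : ℝ) ∧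
    phi (-(19 / 20 : ℝ)) * Psi (-(19 / 20 : ℝ)) ≤ (1163029 / 50000000 : ℝ) :=
  grid_bound (by norm_num) (by norm_num [Finset.sum_range_succ, Nat.factorial]) (by norm_num)
    (by norm_num [Jn, Finset.sum_range_succ, Nat.factorial]) (by norm_num)

lemma grid7 : (21185539 / 100000000 : ℝ) ≤ Phi (-(4 / 5 : ℝ)) ∧ Psi (-(4 / 5 : ℝ)) ≤ (7242289 / 25000000 : ℝ) - (4 / 5 : ℝ) * (21185539 / 100000000 : ℝ) ∧
    phi (-(4 / 5 : ℝ)) * Psi (-(4 / 5 : ℝ)) ≤ (3482303 / 100000000 : ℝ) :=
  grid_bound (by norm_num) (by norm_num [Finset.sum_range_succ, Nat.factorial]) (by norm_num)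
    (by norm_num [Jn, Finset.sum_range_succ, Nat.factorial]) (by norm_num)

lemma grid8 : (3142861 / 12500000 : ℝ) ≤ Phi (-(67 / 100 : ℝ)) ∧ Psi (-(67 / 100 : ℝ)) ≤ (6374743 / 20000000 : ℝ) - (67 / 100 : ℝ) * (3142861 / 12500000 : ℝ) ∧
    phi (-(67 / 100 : ℝ)) * Psi (-(67 / 100 : ℝ)) ≤ (598747 / 12500000 : ℝ) :=
  grid_bound (by norm_num) (by norm_num [Finset.sum_range_succ, Nat.factorial]) (by norm_num)
    (by norm_num [Jn, Finset.sum_range_succ, Nat.factorial]) (by norm_num)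

lemma grid9 : (454937 / 1562500 : ℝ) ≤ Phi (-(11 / 20 : ℝ)) ∧ Psi (-(11 / 20 : ℝ)) ≤ (34294387 / 100000000 : ℝ) - (11 / 20 : ℝ) * (454937 / 1562500 : ℝ) ∧
    phi (-(11 / 20 : ℝ)) * Psi (-(11 / 20 : ℝ)) ≤ (3134611 / 50000000 : ℝ) :=
  grid_bound (by norm_num) (by norm_num [Finset.sum_range_succ, Nat.factorial]) (by norm_num)
    (by norm_num [Jn, Finset.sum_range_succ, Nat.factorial]) (by norm_num)

lemma grid10 : (32635521 / 100000000 : ℝ) ≤ Phi (-(9 / 20 : ℝ)) ∧ Psi (-(9 / 20 : ℝ)) ≤ (18026349 / 50000000 : ℝ) - (9 / 20 : ℝ) * (32635521 / 100000000 : ℝ) ∧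
    phi (-(9 / 20 : ℝ)) * Psi (-(9 / 20 : ℝ)) ≤ (7703277 / 100000000 : ℝ) :=
  grid_bound (by norm_num) (by norm_num [Finset.sum_range_succ, Nat.factorial]) (by norm_num)
    (by norm_num [Jn, Finset.sum_range_succ, Nat.factorial]) (by norm_num)

lemma grid11 : (18158467 / 50000000 : ℝ) ≤ Phi (-(7 / 20 : ℝ)) ∧ Psi (-(7 / 20 : ℝ)) ≤ (9381009 / 25000000 : ℝ) - (7 / 20 : ℝ) * (18158467 / 50000000 : ℝ) ∧
    phi (-(7 / 20 : ℝ)) * Psi (-(7 / 20 : ℝ)) ≤ (58193 / 625000 : ℝ) :=
  grid_bound (by norm_num) (by norm_num [Finset.sum_range_succ, Nat.factorial]) (by norm_num)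
    (by norm_num [Jn, Finset.sum_range_succ, Nat.factorial]) (by norm_num)

lemma grid12 : (40129367 / 100000000 : ℝ) ≤ Phi (-(1 / 4 : ℝ)) ∧ Psi (-(1 / 4 : ℝ)) ≤ (38666813 / 100000000 : ℝ) - (1 / 4 : ℝ) * (40129367 / 100000000 : ℝ) ∧
    phi (-(1 / 4 : ℝ)) * Psi (-(1 / 4 : ℝ)) ≤ (5536019 / 50000000 : ℝ) :=
  grid_bound (by norm_num) (by norm_num [Finset.sum_range_succ, Nat.factorial]) (by norm_num)
    (by norm_num [Jn, Finset.sum_range_succ, Nat.factorial]) (by norm_num)

lemma grid13 : (4403823 / 10000000 : ℝ) ≤ Phi (-(3 / 20 : ℝ)) ∧ Psi (-(3 / 20 : ℝ)) ≤ (7889587 / 20000000 : ℝ) - (3 / 20 : ℝ) * (4403823 / 10000000 : ℝ) ∧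
    phi (-(3 / 20 : ℝ)) * Psi (-(3 / 20 : ℝ)) ≤ (1295557 / 10000000 : ℝ) :=
  grid_bound (by norm_num) (by norm_num [Finset.sum_range_succ, Nat.factorial]) (by norm_num)
    (by norm_num [Jn, Finset.sum_range_succ, Nat.factorial]) (by norm_num)

lemma grid14 : (1 / 2 : ℝ) ≤ Phi (-(0 : ℝ)) ∧ Psi (-(0 : ℝ)) ≤ (39894229 / 100000000 : ℝ) - (0 : ℝ) * (1 / 2 : ℝ) ∧
    phi (-(0 : ℝ)) * Psi (-(0 : ℝ)) ≤ (1989437 / 12500000 : ℝ) :=
  grid_bound (by norm_num) (by norm_num [Finset.sum_range_succ, Nat.factorial]) (by norm_num)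
    (by norm_num [Jn, Finset.sum_range_succ, Nat.factorial]) (by norm_num)

def lines : List (ℕ × ℕ) :=
  [(0, 801951),
   (92508206, 268363),
   (178476054, 149844),
   (288715585, 97609),
   (420242307, 68861),
   (570732240, 52574),
   (720165384, 42578),
   (889788274, 35286),
   (1064739366, 30262),
   (1227797045, 26858),
   (1373004336, 24542),
   (1499501667, 22900),
   (1616167206, 21647),
   (1715267374, 20752),
   (1794441646, 20141),
   (5000000000, 0)]

lemma line_of {p Y a : ℝ} (A B : ℕ) (ha : Phi a = p) (hY : Y ≤ phi a * Psi a)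
    (h : (A : ℝ) / 10000000000 + (B : ℝ) / 10000 * (phi a * Psi a) ≤ Phi a) :
    (A : ℝ) + B * (1000000 * Y) ≤ 10000000000 * p := by
  have : (B : ℝ) * Y ≤ B * (phi a * Psi a) := mul_le_mul_of_nonneg_left hY (Nat.cast_nonneg B)
  rw [← ha]
  linarith

lemma HasY.exists_line {p Y : ℝ} (h : HasY p Y) :
    ∃ l ∈ lines, (l.1 : ℝ) + l.2 * (1000000 * Y) ≤ 10000000000 * p := by
  obtain ⟨a, ha, hY⟩ := h
  rcases le_total a (-(11 / 5 : ℝ)) with h0 | h0
  · refine ⟨(0, 801951), by simp [lines], line_of 0 801951 ha hY ?_⟩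
    have := chord_inf (B := 801951 / 10000) (by norm_num) h0 (by norm_num)
      (by linarith [grid0.1, grid0.2.2])
    simpa using this
  rcases le_total a (-(19 / 10 : ℝ)) with h1 | h1
  · refine ⟨(92508206, 268363), by simp [lines], line_of 92508206 268363 ha hY ?_⟩
    push_cast
    exact chord_fin (by norm_num) h0 h1 (by norm_num)
      (by linarith [grid0.1, grid0.2.2]) (by linarith [grid1.1, grid1.2.2])
  rcases le_total a (-(33 / 20 : ℝ)) with h2 | h2
  · refine ⟨(178476054, 149844), by simp [lines], line_of 178476054 149844 ha hY ?_⟩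
    push_cast
    exact chord_fin (by norm_num) h1 h2 (by norm_num)
      (by linarith [grid1.1, grid1.2.2]) (by linarith [grid2.1, grid2.2.2])
  rcases le_total a (-(29 / 20 : ℝ)) with h3 | h3
  · refine ⟨(288715585, 97609), by simp [lines], line_of 288715585 97609 ha hY ?_⟩
    push_cast
    exact chord_fin (by norm_num) h2 h3 (by norm_num)
      (by linarith [grid2.1, grid2.2.2]) (by linarith [grid3.1, grid3.2.2])
  rcases le_total a (-(5 / 4 : ℝ)) with h4 | h4
  · refine ⟨(420242307, 68861), by simp [lines], line_of 420242307 68861 ha hY ?_⟩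
    push_cast
    exact chord_fin (by norm_num) h3 h4 (by norm_num)
      (by linarith [grid3.1, grid3.2.2]) (by linarith [grid4.1, grid4.2.2])
  rcases le_total a (-(11 / 10 : ℝ)) with h5 | h5
  · refine ⟨(570732240, 52574), by simp [lines], line_of 570732240 52574 ha hY ?_⟩
    push_cast
    exact chord_fin (by norm_num) h4 h5 (by norm_num)
      (by linarith [grid4.1, grid4.2.2]) (by linarith [grid5.1, grid5.2.2])
  rcases le_total a (-(19 / 20 : ℝ)) with h6 | h6
  · refine ⟨(720165384, 42578), by simp [lines], line_of 720165384 42578 ha hY ?_⟩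
    push_cast
    exact chord_fin (by norm_num) h5 h6 (by norm_num)
      (by linarith [grid5.1, grid5.2.2]) (by linarith [grid6.1, grid6.2.2])
  rcases le_total a (-(4 / 5 : ℝ)) with h7 | h7
  · refine ⟨(889788274, 35286), by simp [lines], line_of 889788274 35286 ha hY ?_⟩
    push_cast
    exact chord_fin (by norm_num) h6 h7 (by norm_num)
      (by linarith [grid6.1, grid6.2.2]) (by linarith [grid7.1, grid7.2.2])
  rcases le_total a (-(67 / 100 : ℝ)) with h8 | h8
  · refine ⟨(1064739366, 30262), by simp [lines], line_of 1064739366 30262 ha hY ?_⟩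
    push_cast
    exact chord_fin (by norm_num) h7 h8 (by norm_num)
      (by linarith [grid7.1, grid7.2.2]) (by linarith [grid8.1, grid8.2.2])
  rcases le_total a (-(11 / 20 : ℝ)) with h9 | h9
  · refine ⟨(1227797045, 26858), by simp [lines], line_of 1227797045 26858 ha hY ?_⟩
    push_cast
    exact chord_fin (by norm_num) h8 h9 (by norm_num)
      (by linarith [grid8.1, grid8.2.2]) (by linarith [grid9.1, grid9.2.2])
  rcases le_total a (-(9 / 20 : ℝ)) with h10 | h10
  · refine ⟨(1373004336, 24542), by simp [lines], line_of 1373004336 24542 ha hY ?_⟩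
    push_cast
    exact chord_fin (by norm_num) h9 h10 (by norm_num)
      (by linarith [grid9.1, grid9.2.2]) (by linarith [grid10.1, grid10.2.2])
  rcases le_total a (-(7 / 20 : ℝ)) with h11 | h11
  · refine ⟨(1499501667, 22900), by simp [lines], line_of 1499501667 22900 ha hY ?_⟩
    push_cast
    exact chord_fin (by norm_num) h10 h11 (by norm_num)
      (by linarith [grid10.1, grid10.2.2]) (by linarith [grid11.1, grid11.2.2])
  rcases le_total a (-(1 / 4 : ℝ)) with h12 | h12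
  · refine ⟨(1616167206, 21647), by simp [lines], line_of 1616167206 21647 ha hY ?_⟩
    push_cast
    exact chord_fin (by norm_num) h11 h12 (by norm_num)
      (by linarith [grid11.1, grid11.2.2]) (by linarith [grid12.1, grid12.2.2])
  rcases le_total a (-(3 / 20 : ℝ)) with h13 | h13
  · refine ⟨(1715267374, 20752), by simp [lines], line_of 1715267374 20752 ha hY ?_⟩
    push_cast
    exact chord_fin (by norm_num) h12 h13 (by norm_num)
      (by linarith [grid12.1, grid12.2.2]) (by linarith [grid13.1, grid13.2.2])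
  rcases le_total a (-(0 : ℝ)) with h14 | h14
  · refine ⟨(1794441646, 20141), by simp [lines], line_of 1794441646 20141 ha hY ?_⟩
    push_cast
    exact chord_fin (by norm_num) h13 h14 (by norm_num)
      (by linarith [grid13.1, grid13.2.2]) (by linarith [grid14.1, grid14.2.2])
  refine ⟨(5000000000, 0), by simp [lines], ?_⟩
  have := monotone_Phi h14
  rw [neg_zero, Phi_zero, ha] at this
  push_cast
  linarith

lemma lam0_ge : (598413 / 1000000 : ℝ) ≤ lam0 := by
  unfold lam0; linarith [le_phi_zero]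

lemma Level.le_four_ninths {s p : ℝ} (h : Level s p) : s ≤ 4 / 9 := by
  have h1 := h 0
  simp only [Psi, zero_mul, zero_add, sub_zero, lam0] at h1
  have h2 : √s ≤ 2 / 3 := by nlinarith [phi_pos 0]
  rw [Real.sqrt_le_left (by norm_num)] at h2
  linarith

lemma Level.qline {s p t q ps : ℝ} (h : Level s p) (hq : 0 ≤ q) (hs : q ^ 2 ≤ s)
    (hps : Psi (-t) ≤ ps) :
    598413 / 1000000 * (s + 2 / 3 * q) ≤ (q + 2 / 3) * (ps + t * p) := by
  have h1 := h (-t)
  have hs0 : 0 ≤ s := (sq_nonneg q).trans hs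
  have h2 : q ≤ √s := Real.le_sqrt_of_sq_le hs
  have h3 : √s ≤ 2 / 3 := by
    rw [Real.sqrt_le_left (by norm_num)]; linarith [h.le_four_ninths]
  have h4 := Real.sq_sqrt hs0
  have h5 : s + 2 / 3 * q ≤ (q + 2 / 3) * √s := by nlinarith
  have h6 : 598413 / 1000000 * √s ≤ ps + t * p := by
    nlinarith [lam0_ge, Real.sqrt_nonneg s]
  nlinarith

def qlines : List (ℕ × ℕ × ℕ) :=
  [(302500, 223854743, 14713),
   (342225, 3023431982, 23121),
   (372100, 8216270740, 36961),
   (403225, 18345280017, 61945),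
   (422500, 43825318123, 121496)]

lemma Level.qlines_spec {s p : ℝ} (h : Level s p) :
    ∀ l ∈ qlines, (l.1 : ℝ) ≤ 1000000 * s →
      (l.2.2 : ℝ) * (1000000 * s) - l.2.1 ≤ 50000000000 * p - 30000 * (1000000 * s) := by
  intro l hl
  simp only [qlines, List.mem_cons, List.not_mem_nil, or_false] at hl
  rcases hl with rfl | rfl | rfl | rfl | rfl
  · intro hs
    push_cast at hs ⊢
    have := h.qline (q := (11 / 20 : ℝ)) (by norm_num) (by linarith) grid9.2.1
    linarith
  · intro hs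
    push_cast at hs ⊢
    have := h.qline (q := (117 / 200 : ℝ)) (by norm_num) (by linarith) grid10.2.1
    linarith
  · intro hs
    push_cast at hs ⊢
    have := h.qline (q := (61 / 100 : ℝ)) (by norm_num) (by linarith) grid11.2.1
    linarith
  · intro hs
    push_cast at hs ⊢
    have := h.qline (q := (127 / 200 : ℝ)) (by norm_num) (by linarith) grid12.2.1
    linarith
  · intro hs
    push_cast at hs ⊢
    have := h.qline (q := (13 / 20 : ℝ)) (by norm_num) (by linarith) grid13.2.1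
    linarith

end Crest.Agent.R215
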